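import Vale.Agent.P012.Defs

namespace Vale.Agent.P012

theorem SumUF.nonneg {k : ℕ} {x : ℚ} (h : SumUF k x) : 0 ≤ x := by
  obtain ⟨t, _, _, rfl⟩ := h
  refine Multiset.sum_nonneg (fun y hy => ?_)
  obtain ⟨n, _, rfl⟩ := Multiset.mem_map.1 hy
  positivity

theorem SumUF.of_finset (s : Finset ℕ) (h : ∀ n ∈ s, 0 < n) :
    SumUF s.card (∑ n ∈ s, 1 / (n : ℚ)) :=
  ⟨s.val, le_rfl, fun n hn => h n hn, rfl⟩

/-- A sum of `k + 1` unit fractions is a unit fraction plus a sum of `k` of them. -/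
theorem SumUF.exists_sub {k : ℕ} {x : ℚ} (h : SumUF (k + 1) x) (h0 : 0 < x) :
    ∃ n : ℕ, 0 < n ∧ SumUF k (x - 1 / (n : ℚ)) := by
  obtain ⟨t, h1, h2, h3⟩ := h
  have hne : t ≠ 0 := by
    rintro rfl
    simp at h3
    linarith
  obtain ⟨n, hn⟩ := Multiset.exists_mem_of_ne_zero hne
  obtain ⟨u, rfl⟩ := Multiset.exists_cons_of_mem hn
  refine ⟨n, h2 n hn, u, ?_, fun a ha => h2 a (Multiset.mem_cons_of_mem ha), ?_⟩
  · rw [Multiset.card_cons] at h1; omega
  · rw [Multiset.map_cons, Multiset.sum_cons] at h3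
    rw [← h3]; ring

theorem distinct {k : ℕ} {x : ℚ} (hx : SumUF k x) (h0 : 0 < x) (h1 : x < 1) :
    ∃ s : Finset ℕ, (∀ n ∈ s, 2 ≤ n) ∧ s.card ≤ k ∧ x = ∑ n ∈ s, 1 / (n : ℚ) := by
  classical
  induction k generalizing x with
  | zero =>
    exfalso
    obtain ⟨t, t1, _, t3⟩ := hx
    have : t = 0 := Multiset.card_eq_zero.1 (Nat.le_zero.1 t1)
    subst this
    simp at t3
    linarith
  | succ k ih =>
    have hex := hx.exists_sub h0
    set n := Nat.find hex with hn
    obtain ⟨n0, n1⟩ := Nat.find_spec hex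
    rw [← hn] at n0 n1
    have hmin : ∀ m : ℕ, 0 < m → SumUF k (x - 1 / (m : ℚ)) → n ≤ m :=
      fun m m0 m1 => Nat.find_min' hex ⟨m0, m1⟩
    have hnq : (0 : ℚ) < n := by exact_mod_cast n0
    have hy0 := n1.nonneg
    have hn2 : 2 ≤ n := by
      by_contra hc
      have : n = 1 := by omega
      rw [this] at hy0
      norm_num at hy0
      linarith
    rcases eq_or_lt_of_le hy0 with hy | hy
    · refine ⟨{n}, ?_, ?_, ?_⟩
      · intro m hm
        rw [Finset.mem_singleton] at hm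
        omega
      · simp
      · rw [Finset.sum_singleton]; linarith
    have hinv : (0 : ℚ) < 1 / (n : ℚ) := by positivity
    obtain ⟨s, s1, s2, s3⟩ := ih n1 hy (by linarith)
    by_cases hns : n ∈ s
    · exfalso
      have hz : SumUF (s.erase n).card (∑ m ∈ s.erase n, 1 / (m : ℚ)) :=
        SumUF.of_finset _ (fun m hm => by
          have := s1 m (Finset.mem_of_mem_erase hm); omega)
      have hsum := Finset.add_sum_erase s (fun m : ℕ => 1 / (m : ℚ)) hns
      have hcard : (s.erase n).card + 1 = s.card := Finset.card_erase_add_one hns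
      beta_reduce at hsum
      generalize (∑ m ∈ s.erase n, 1 / (m : ℚ)) = z at hz hsum
      have hxz : x = 2 / (n : ℚ) + z := by
        have : x = 1 / (n : ℚ) + (1 / (n : ℚ) + z) := by rw [hsum, ← s3]; ring
        rw [this]; ring
      rcases Nat.even_or_odd' n with ⟨m, hm | hm⟩
      · have hm0 : 0 < m := by omega
        have hmq : (0 : ℚ) < m := by exact_mod_cast hm0
        have e : x - 1 / (m : ℚ) = z := by
          rw [hxz, hm]
          push_cast
          field_simp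
          ring
        have := hmin m hm0 (by rw [e]; exact hz.mono (by omega))
        omega
      · have hm0 : 0 < m := by omega
        have hmq : (0 : ℚ) < m := by exact_mod_cast hm0
        have e : x - 1 / ((m + 1 : ℕ) : ℚ) = 1 / (((2 * m + 1) * (m + 1) : ℕ) : ℚ) + z := by
          rw [hxz, hm]
          push_cast
          field_simp
          ring
        have := hmin (m + 1) (by omega) (by
          rw [e]
          exact ((SumUF.one_div (by positivity)).add hz).mono (by omega))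
        omega
    · refine ⟨insert n s, ?_, ?_, ?_⟩
      · intro m hm
        rcases Finset.mem_insert.1 hm with h | h
        · omega
        · exact s1 m h
      · rw [Finset.card_insert_of_notMem hns]; omega
      · rw [Finset.sum_insert hns, ← s3]; ring

/-- One step of the greedy algorithm. -/
theorem greedy_step (a b : ℕ) (ha : 0 < a) :
    ∃ n a' : ℕ, 0 < n ∧ b + a' = a * n ∧ a' < a ∧ (∀ X, b < a * X → n ≤ X) ∨ b = 0 := by
  rcases Nat.eq_zero_or_pos b with hb | hb
  · exact ⟨0, 0, Or.inr hb⟩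
  refine ⟨(b + a - 1) / a, a * ((b + a - 1) / a) - b, Or.inl ?_⟩
  have h1 := Nat.div_add_mod (b + a - 1) a
  have h2 := Nat.mod_lt (b + a - 1) ha
  generalize hq : (b + a - 1) / a = q at h1 ⊢
  generalize (b + a - 1) % a = r at h1 h2
  have hq0 : 0 < q := by
    rcases Nat.eq_zero_or_pos q with h | h
    · subst h; simp at h1; omega
    · exact h
  refine ⟨hq0, by omega, by omega, fun X hX => ?_⟩
  by_contra hc
  push Not at hc
  have : a * (X + 1) ≤ a * q := Nat.mul_le_mul_left a hc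
  rw [Nat.mul_add] at this
  omega

theorem greedy_aux (a b X : ℕ) (ha : 0 < a) (hab : a < b) (i : ℕ) :
    ∃ j a' b' : ℕ, j ≤ i + 1 ∧ 0 < b' ∧ b' ≤ b * X ^ 2 + b ∧ a' ≤ a ∧
      (∃ y : ℚ, SumUF j y ∧ (a : ℚ) / b = y + (a' : ℚ) / b') ∧
      (a' * X ≤ b' ∨ a' * 2 ^ (2 ^ i) ≤ b') := by
  have hstep : ∀ (j a' b' : ℕ) (_ : 0 < b') (_ : a' ≤ a) (_ : 0 < a')
      (_ : ∃ y : ℚ, SumUF j y ∧ (a : ℚ) / b = y + (a' : ℚ) / b') (_ : b' < a' * X),
      ∃ n a'' : ℕ, 0 < n ∧ b' + a'' = a' * n ∧ a'' < a' ∧ b' * n ≤ b * X ^ 2 + b ∧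
        (∃ y : ℚ, SumUF (j + 1) y ∧ (a : ℚ) / b = y + (a'' : ℚ) / ((b' * n : ℕ) : ℚ)) := by
    intro j a' b' hb' ha' ha0' ⟨y, y1, y2⟩ hlt
    obtain ⟨n, a'', h | h⟩ := greedy_step a' b' ha0'
    swap
    · omega
    obtain ⟨h1, h2, h3, h4⟩ := h
    refine ⟨n, a'', h1, h2, h3, ?_, ?_⟩
    · have h5 := h4 X hlt
      calc b' * n ≤ (a' * X) * X := Nat.mul_le_mul hlt.le h5
        _ ≤ (b * X) * X := by gcongr; omega
        _ = b * X ^ 2 := by ring
        _ ≤ _ := Nat.le_add_right _ _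
    · refine ⟨y + 1 / (n : ℚ), y1.add (SumUF.one_div h1), ?_⟩
      rw [y2]
      have hnq : (n : ℚ) ≠ 0 := by exact_mod_cast h1.ne'
      have hbq : (b' : ℚ) ≠ 0 := by exact_mod_cast hb'.ne'
      have h6 : (b' : ℚ) + a'' = a' * n := by exact_mod_cast h2
      push_cast
      field_simp
      linarith
  induction i with
  | zero =>
    by_cases hX : b < a * X
    · obtain ⟨n, a'', h1, h2, h3, h4, h5⟩ := hstep 0 a b (by omega) le_rfl ha
        ⟨0, SumUF.zero 0, by ring⟩ hX
      refine ⟨1, a'', b * n, by omega, Nat.mul_pos (by omega) h1, h4, by omega, by simpa using h5, Or.inr ?_⟩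
      have hn2 : 2 ≤ n := by
        by_contra hc
        have : n = 1 := by omega
        subst this
        omega
      have : b * 2 ≤ b * n := Nat.mul_le_mul_left b hn2
      simp only [pow_zero, pow_one]
      omega
    · exact ⟨0, a, b, by omega, by omega, Nat.le_add_left _ _, le_rfl, ⟨0, SumUF.zero 0, by ring⟩,
        Or.inl (not_lt.1 hX)⟩
  | succ i ih =>
    obtain ⟨j, a', b', h1, h2, h3, h4, h5, h6⟩ := ih
    by_cases hX : b' < a' * X
    · have h6' : a' * 2 ^ (2 ^ i) ≤ b' := by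
        rcases h6 with h | h
        · omega
        · exact h
      have ha0 : 0 < a' := by
        rcases Nat.eq_zero_or_pos a' with h | h
        · subst h; simp at hX
        · exact h
      obtain ⟨n, a'', g1, g2, g3, g4, g5⟩ := hstep j a' b' h2 h4 ha0 h5 hX
      refine ⟨j + 1, a'', b' * n, by omega, by positivity, g4, by omega, g5, Or.inr ?_⟩
      have e : 2 ^ (2 ^ (i + 1)) = 2 ^ (2 ^ i) * 2 ^ (2 ^ i) := by
        rw [← pow_add]; congr 1; ring
      rw [e]
      generalize 2 ^ (2 ^ i) = T at h6' ⊢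
      have k1 : b' ≤ a' * n := by omega
      have k2 : a' * (a'' * (T * T)) ≤ a' * (b' * n) := by
        calc a' * (a'' * (T * T)) ≤ a' * (a' * (T * T)) := by gcongr
          _ = (a' * T) * (a' * T) := by ring
          _ ≤ b' * b' := Nat.mul_le_mul h6' h6'
          _ ≤ b' * (a' * n) := Nat.mul_le_mul_left _ k1
          _ = a' * (b' * n) := by ring
      exact Nat.le_of_mul_le_mul_left k2 ha0
    · exact ⟨j, a', b', by omega, h2, h3, h4, h5, Or.inl (not_lt.1 hX)⟩

theorem greedy (a b X : ℕ) (ha : 0 < a) (hab : a < b) (hX : 2 ≤ X) :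
    ∃ j a' b' : ℕ, j ≤ Nat.clog 2 (Nat.clog 2 X) + 2 ∧ 0 < b' ∧ b' ≤ 2 * b * X ^ 2 ∧
      a' * X ≤ b' ∧ ∃ y : ℚ, SumUF j y ∧ (a : ℚ) / b = y + (a' : ℚ) / b' := by
  obtain ⟨j, a', b', h1, h2, h3, _, h5, h6⟩ :=
    greedy_aux a b X ha hab (Nat.clog 2 (Nat.clog 2 X))
  refine ⟨j, a', b', by omega, h2, ?_, ?_, h5⟩
  · have : 1 ≤ X ^ 2 := Nat.one_le_pow _ _ (by omega)
    calc b' ≤ b * X ^ 2 + b := h3
      _ ≤ b * X ^ 2 + b * X ^ 2 := by
        have := Nat.mul_le_mul_left b this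
        omega
      _ = 2 * b * X ^ 2 := by ring
  · rcases h6 with h | h
    · exact h
    · refine le_trans ?_ h
      gcongr
      calc X ≤ 2 ^ Nat.clog 2 X := Nat.le_pow_clog (by norm_num) X
        _ ≤ 2 ^ (2 ^ Nat.clog 2 (Nat.clog 2 X)) := by
          gcongr
          · norm_num
          · exact Nat.le_pow_clog (by norm_num) _

theorem assemble {N k M X b : ℕ} (hG : Good N k M) (hX : 2 ≤ X) (hNM : N ≤ M * X)
    (hM : 2 * b * X ^ 2 ≤ M) {a : ℕ} (ha : 0 < a) (hab : a < b) :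
    ∃ s : Finset ℕ, IsExpansion a b s ∧
      s.card ≤ 2 * k + Nat.clog 2 (Nat.clog 2 X) + 2 := by
  obtain ⟨hN, hG⟩ := hG
  obtain ⟨j, a', b', h1, h2, h3, h4, y, y1, y2⟩ := greedy a b X ha hab hX
  have hq : a' * N / b' ≤ M := by
    rw [Nat.div_le_iff_le_mul_add_pred h2]
    have : a' * N ≤ M * b' := by
      calc a' * N ≤ a' * (M * X) := Nat.mul_le_mul_left _ hNM
        _ = M * (a' * X) := by ring
        _ ≤ M * b' := Nat.mul_le_mul_left _ h4
    have h5 : M * b' = b' * M := Nat.mul_comm _ _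
    omega
  have hr : a' * N % b' ≤ M := by
    have := Nat.mod_lt (a' * N) h2
    omega
  have hdm := Nat.div_add_mod (a' * N) b'
  have s1 := hG _ hq
  have s2 := (hG _ hr).div h2
  generalize a' * N / b' = q at hq hdm s1
  generalize a' * N % b' = r at hr hdm s2
  have hbq : (b' : ℚ) ≠ 0 := by exact_mod_cast h2.ne'
  have hNq : (N : ℚ) ≠ 0 := by exact_mod_cast hN.ne'
  have e : (a' : ℚ) / b' = (q : ℚ) / N + (r : ℚ) / N / b' := by
    have : (b' : ℚ) * q + r = a' * N := by exact_mod_cast hdm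
    field_simp
    linarith
  have hb : (0 : ℚ) < b := by
    have : 0 < b := by omega
    exact_mod_cast this
  have htot : SumUF (j + (k + k)) ((a : ℚ) / b) := by
    rw [y2, e]
    exact y1.add (s1.add s2)
  have x0 : (0 : ℚ) < (a : ℚ) / b := by
    have : (0 : ℚ) < a := by exact_mod_cast ha
    positivity
  have x1 : (a : ℚ) / b < 1 := by
    rw [div_lt_one hb]
    exact_mod_cast hab
  obtain ⟨s, t1, t2, t3⟩ := distinct htot x0 x1
  exact ⟨s, ⟨t1, t3⟩, by omega⟩

end Vale.Agent.P012
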