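import Vale.Agent.P012.Fourier

open Finset

namespace Vale.Agent.P012

/-! ### Bilinear sums and sums of five products -/

theorem sum_norm_sq {q : ℕ} [Fact q.Prime] (B : Finset (ZMod q)) (h : ZMod q) (hh : h ≠ 0) :
    ∑ a : ZMod q, ‖∑ b ∈ B, (ZMod.stdAddChar (h * (a * b)) : ℂ)‖ ^ 2 = q * (B.card : ℝ) := by
  have hsq : ∀ z : ℂ, ((‖z‖ ^ 2 : ℝ) : ℂ) = z * (starRingEnd ℂ) z := by
    intro z
    rw [Complex.mul_conj, Complex.normSq_eq_norm_sq]
  have e1 : ((∑ a : ZMod q, ‖∑ b ∈ B, (ZMod.stdAddChar (h * (a * b)) : ℂ)‖ ^ 2 : ℝ) : ℂ)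
      = ((q * (B.card : ℝ) : ℝ) : ℂ) := by
    rw [Complex.ofReal_sum]
    have e2 : ∀ a : ZMod q, ((‖∑ b ∈ B, (ZMod.stdAddChar (h * (a * b)) : ℂ)‖ ^ 2 : ℝ) : ℂ)
        = ∑ b ∈ B, ∑ b' ∈ B, (ZMod.stdAddChar (a * (h * (b - b'))) : ℂ) := by
      intro a
      rw [hsq, map_sum, Finset.sum_mul_sum]
      refine Finset.sum_congr rfl (fun b _ => Finset.sum_congr rfl (fun b' _ => ?_))
      rw [← AddChar.map_neg_eq_conj, ← AddChar.map_add_eq_mul]
      congr 1
      ring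
    rw [Finset.sum_congr rfl (fun a _ => e2 a), Finset.sum_comm]
    have e3 : ∀ b ∈ B, ∑ a : ZMod q, ∑ b' ∈ B, (ZMod.stdAddChar (a * (h * (b - b'))) : ℂ)
        = (q : ℂ) := by
      intro b hb
      rw [Finset.sum_comm]
      have e4 : ∀ b' ∈ B, ∑ a : ZMod q, (ZMod.stdAddChar (a * (h * (b - b'))) : ℂ)
          = if b = b' then (q : ℂ) else 0 := by
        intro b' _
        rw [sum_char_mul]
        by_cases hbb : b = b'
        · simp [hbb]
        · rw [if_neg, if_neg hbb]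
          exact mul_ne_zero hh (sub_ne_zero.2 hbb)
      rw [Finset.sum_congr rfl e4, Finset.sum_ite_eq, if_pos hb]
    rw [Finset.sum_congr rfl e3, Finset.sum_const, nsmul_eq_mul]
    push_cast
    ring
  exact_mod_cast e1

theorem bilinear {q : ℕ} [Fact q.Prime] (B : Finset (ZMod q)) (h : ZMod q) (hh : h ≠ 0) :
    ‖∑ p ∈ B ×ˢ B, (ZMod.stdAddChar (h * (p.1 * p.2)) : ℂ)‖ ^ 2 ≤ q * (B.card : ℝ) ^ 2 := by
  rw [Finset.sum_product]
  calc ‖∑ a ∈ B, ∑ b ∈ B, (ZMod.stdAddChar (h * (a * b)) : ℂ)‖ ^ 2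
      ≤ (∑ a ∈ B, ‖∑ b ∈ B, (ZMod.stdAddChar (h * (a * b)) : ℂ)‖) ^ 2 :=
        pow_le_pow_left₀ (norm_nonneg _) (norm_sum_le _ _) 2
    _ ≤ B.card * ∑ a ∈ B, ‖∑ b ∈ B, (ZMod.stdAddChar (h * (a * b)) : ℂ)‖ ^ 2 :=
        sq_sum_le_card_mul_sum_sq
    _ ≤ B.card * ∑ a : ZMod q, ‖∑ b ∈ B, (ZMod.stdAddChar (h * (a * b)) : ℂ)‖ ^ 2 := by
        refine mul_le_mul_of_nonneg_left ?_ (by positivity)
        exact Finset.sum_le_sum_of_subset_of_nonneg (Finset.subset_univ _)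
          (fun _ _ _ => by positivity)
    _ = q * (B.card : ℝ) ^ 2 := by rw [sum_norm_sq B h hh]; ring

theorem five_products {q : ℕ} [Fact q.Prime] (B : Finset (ZMod q)) (hB : q ^ 7 < B.card ^ 10)
    (m : ZMod q) :
    ∃ f : Fin 5 → ZMod q × ZMod q, (∀ i, f i ∈ B ×ˢ B) ∧ ∑ i, (f i).1 * (f i).2 = m := by
  classical
  by_contra hno
  push Not at hno
  set S : ZMod q → ℂ := fun h => ∑ p ∈ B ×ˢ B, (ZMod.stdAddChar (h * (p.1 * p.2)) : ℂ) with hS
  have hq0 : 0 < q := (Fact.out : q.Prime).pos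
  have hqr : (0 : ℝ) < q := by exact_mod_cast hq0
  have hzero : ∑ h : ZMod q, (ZMod.stdAddChar (h * (-m)) : ℂ) * S h ^ 5 = 0 := by
    have e1 : ∀ h : ZMod q, (ZMod.stdAddChar (h * (-m)) : ℂ) * S h ^ 5
        = ∑ f ∈ Fintype.piFinset (fun _ : Fin 5 => B ×ˢ B),
          (ZMod.stdAddChar (h * (∑ i, (f i).1 * (f i).2 - m)) : ℂ) := by
      intro h
      have e2 : S h ^ 5 = ∏ _i : Fin 5, S h := by simp
      rw [e2, hS]
      beta_reduce
      rw [Finset.prod_univ_sum, Finset.mul_sum]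
      refine Finset.sum_congr rfl (fun f _ => ?_)
      have e3 : ∏ i : Fin 5, (ZMod.stdAddChar (h * ((f i).1 * (f i).2)) : ℂ)
          = (ZMod.stdAddChar (∑ i : Fin 5, h * ((f i).1 * (f i).2)) : ℂ) := by
        rw [Fin.prod_univ_five, Fin.sum_univ_five]
        simp only [AddChar.map_add_eq_mul]
      rw [e3, ← AddChar.map_add_eq_mul, ← Finset.mul_sum]
      congr 1
      ring
    rw [Finset.sum_congr rfl (fun h _ => e1 h), Finset.sum_comm]
    refine Finset.sum_eq_zero (fun f hf => ?_)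
    rw [sum_char_mul, if_neg]
    intro h0
    exact hno f (fun i => Fintype.mem_piFinset.1 hf i) (sub_eq_zero.1 h0)
  have hsplit := Finset.add_sum_erase Finset.univ
    (fun h : ZMod q => (ZMod.stdAddChar (h * (-m)) : ℂ) * S h ^ 5) (Finset.mem_univ 0)
  rw [hzero] at hsplit
  have hS0 : S 0 = ((B.card : ℂ)) ^ 2 := by
    simp [hS, sq]
  have e4 : (B.card : ℝ) ^ 10 = ‖(ZMod.stdAddChar ((0 : ZMod q) * (-m)) : ℂ) * S 0 ^ 5‖ := by
    rw [norm_mul, norm_char, one_mul, hS0, ← pow_mul, norm_pow, Complex.norm_natCast]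
  rw [eq_neg_of_add_eq_zero_left hsplit, norm_neg] at e4
  have hpt : ∀ h ∈ Finset.univ.erase (0 : ZMod q),
      ‖(ZMod.stdAddChar (h * (-m)) : ℂ) * S h ^ 5‖ ≤ (√q * B.card) ^ 5 := by
    intro h hh
    rw [norm_mul, norm_char, one_mul, norm_pow]
    refine pow_le_pow_left₀ (norm_nonneg _) ?_ 5
    have h1 := bilinear B h (Finset.ne_of_mem_erase hh)
    have h2 : (√(q : ℝ) * B.card) ^ 2 = q * (B.card : ℝ) ^ 2 := by
      rw [mul_pow, Real.sq_sqrt hqr.le]
    rw [← h2] at h1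
    exact (pow_le_pow_iff_left₀ (norm_nonneg _) (by positivity) (by norm_num)).1 h1
  have hle : (B.card : ℝ) ^ 10 ≤ q * (√q * B.card) ^ 5 := by
    rw [e4]
    refine (norm_sum_le _ _).trans ((Finset.sum_le_sum hpt).trans ?_)
    rw [Finset.sum_const, nsmul_eq_mul]
    refine mul_le_mul_of_nonneg_right ?_ (by positivity)
    have : (Finset.univ.erase (0 : ZMod q)).card ≤ q := by
      refine (Finset.card_le_card (Finset.erase_subset _ _)).trans (le_of_eq ?_)
      rw [Finset.card_univ, ZMod.card]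
    exact_mod_cast this
  have hc : (0 : ℝ) < B.card := by
    rcases Nat.eq_zero_or_pos B.card with h | h
    · rw [h] at hB; simp at hB
    · exact_mod_cast h
  have hle2 : (B.card : ℝ) ^ 5 ≤ q * √q ^ 5 := by
    have : (B.card : ℝ) ^ 5 * (B.card : ℝ) ^ 5 ≤ (q * √q ^ 5) * (B.card : ℝ) ^ 5 := by
      calc (B.card : ℝ) ^ 5 * (B.card : ℝ) ^ 5 = (B.card : ℝ) ^ 10 := by ring
        _ ≤ q * (√q * B.card) ^ 5 := hle
        _ = _ := by ring
    exact le_of_mul_le_mul_right this (by positivity)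
  have hle3 : (B.card : ℝ) ^ 10 ≤ q ^ 7 := by
    calc (B.card : ℝ) ^ 10 = ((B.card : ℝ) ^ 5) ^ 2 := by ring
      _ ≤ (q * √q ^ 5) ^ 2 := pow_le_pow_left₀ (by positivity) hle2 2
      _ = q ^ 2 * (√q ^ 2) ^ 5 := by ring
      _ = q ^ 7 := by rw [Real.sq_sqrt hqr.le]; ring
  have : (B.card ^ 10 : ℕ) ≤ q ^ 7 := by exact_mod_cast hle3
  omega

/-! ### Collisions modulo primes -/

/-- Pairs of elements of `A` congruent modulo `q`. -/
def coll (A : Finset ℕ) (q : ℕ) : Finset (ℕ × ℕ) :=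
  (A ×ˢ A).filter (fun p => (p.1 : ZMod q) = (p.2 : ZMod q))

theorem card_sq_le (A : Finset ℕ) (q : ℕ) :
    A.card ^ 2 ≤ (A.image (fun a : ℕ => (a : ZMod q))).card * (coll A q).card := by
  classical
  set B := A.image (fun a : ℕ => (a : ZMod q)) with hB
  have h1 : A.card = ∑ x ∈ B, (A.filter (fun a : ℕ => (a : ZMod q) = x)).card :=
    Finset.card_eq_sum_card_image _ _
  have h2 : (coll A q).card = ∑ x ∈ B, (A.filter (fun a : ℕ => (a : ZMod q) = x)).card ^ 2 := by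
    have h3 : (coll A q).card = ∑ x ∈ B,
        ((coll A q).filter (fun p : ℕ × ℕ => (p.1 : ZMod q) = x)).card := by
      refine Finset.card_eq_sum_card_fiberwise (fun p hp => ?_)
      have hp' := (Finset.mem_filter.1 (Finset.mem_coe.1 hp)).1
      exact Finset.mem_coe.2 (Finset.mem_image_of_mem _ (Finset.mem_product.1 hp').1)
    rw [h3]
    refine Finset.sum_congr rfl (fun x _ => ?_)
    rw [sq, ← Finset.card_product]
    congr 1
    ext p
    simp only [coll, Finset.mem_filter, Finset.mem_product]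
    constructor
    · rintro ⟨⟨⟨a1, a2⟩, a3⟩, a4⟩
      exact ⟨⟨a1, a4⟩, a2, a3 ▸ a4⟩
    · rintro ⟨⟨a1, a2⟩, a3, a4⟩
      exact ⟨⟨⟨a1, a3⟩, a2.trans a4.symm⟩, a2⟩
  rw [h2, h1]
  exact sq_sum_le_card_mul_sum_sq

/-- A nonzero difference below `2 ^ (2 * y)` has few prime factors above `2 ^ l`. -/
theorem few_primes (𝒬 : Finset ℕ) (l y : ℕ) (hp : ∀ q ∈ 𝒬, q.Prime) (hl : ∀ q ∈ 𝒬, 2 ^ l ≤ q)
    (a b : ℕ) (hab : a ≠ b) (ha : a ≤ 4 ^ y) (hb : b ≤ 4 ^ y) :
    l * (𝒬.filter (fun q : ℕ => (a : ZMod q) = (b : ZMod q))).card ≤ 2 * y := by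
  classical
  wlog hlt : a < b generalizing a b
  · have := this b a hab.symm hb ha (by omega)
    simpa only [eq_comm] using this
  set T := 𝒬.filter (fun q : ℕ => (a : ZMod q) = (b : ZMod q)) with hT
  have h1 : ∏ q ∈ T, q ∣ b - a := by
    refine Finset.prod_primes_dvd _ (fun q hq => ?_) (fun q hq => ?_)
    · exact (hp q (Finset.mem_filter.1 hq).1).prime
    · have h2 := (Finset.mem_filter.1 hq).2
      exact (Nat.modEq_iff_dvd' hlt.le).1 ((ZMod.natCast_eq_natCast_iff a b q).1 h2)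
  have h3 : ∏ q ∈ T, q ≤ b - a := Nat.le_of_dvd (by omega) h1
  have h4 : (2 ^ l) ^ T.card ≤ ∏ q ∈ T, q := by
    rw [← Finset.prod_const]
    exact Finset.prod_le_prod' (fun q hq => hl q (Finset.mem_filter.1 hq).1)
  have h5 : 2 ^ (l * T.card) ≤ 2 ^ (2 * y) := by
    rw [pow_mul, pow_mul]
    calc (2 ^ l) ^ T.card ≤ b - a := h4.trans h3
      _ ≤ 4 ^ y := by omega
      _ = _ := by norm_num
  exact (Nat.pow_le_pow_iff_right (by norm_num)).1 h5

theorem exists_good_prime (𝒬 : Finset ℕ) (l y : ℕ) (hne : 𝒬.Nonempty)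
    (hp : ∀ q ∈ 𝒬, q.Prime) (hl : ∀ q ∈ 𝒬, 2 ^ l ≤ q)
    (A : Finset ℕ) (hA : ∀ a ∈ A, a ≤ 4 ^ y) :
    ∃ q ∈ 𝒬, l * 𝒬.card * (coll A q).card ≤ l * 𝒬.card * A.card + 2 * y * A.card ^ 2 := by
  classical
  have hsum : l * ∑ q ∈ 𝒬, (coll A q).card ≤ l * 𝒬.card * A.card + 2 * y * A.card ^ 2 := by
    have e1 : ∑ q ∈ 𝒬, (coll A q).card
        = ∑ p ∈ A ×ˢ A, (𝒬.filter (fun q : ℕ => (p.1 : ZMod q) = (p.2 : ZMod q))).card := by
      simp only [coll, Finset.card_filter]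
      exact Finset.sum_comm
    rw [e1, Finset.mul_sum]
    have e2 : ∀ p ∈ A ×ˢ A,
        l * (𝒬.filter (fun q : ℕ => (p.1 : ZMod q) = (p.2 : ZMod q))).card
          ≤ (if p.1 = p.2 then l * 𝒬.card else 0) + 2 * y := by
      intro p hpA
      rw [Finset.mem_product] at hpA
      by_cases h : p.1 = p.2
      · rw [if_pos h]
        have : (𝒬.filter (fun q : ℕ => (p.1 : ZMod q) = (p.2 : ZMod q))).card ≤ 𝒬.card :=
          Finset.card_filter_le _ _
        have := Nat.mul_le_mul_left l this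
        omega
      · rw [if_neg h, zero_add]
        exact few_primes 𝒬 l y hp hl _ _ h (hA _ hpA.1) (hA _ hpA.2)
    refine (Finset.sum_le_sum e2).trans (le_of_eq ?_)
    rw [Finset.sum_add_distrib, Finset.sum_const, Finset.card_product, Finset.sum_product]
    simp only [Finset.sum_ite_eq]
    rw [Finset.sum_congr rfl (fun x hx => if_pos hx), Finset.sum_const]
    simp only [smul_eq_mul]
    ring
  by_contra hno
  push Not at hno
  have h2 : ∑ _q ∈ 𝒬, (l * 𝒬.card * A.card + 2 * y * A.card ^ 2)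
      < ∑ q ∈ 𝒬, l * 𝒬.card * (coll A q).card :=
    Finset.sum_lt_sum_of_nonempty hne hno
  rw [Finset.sum_const, ← Finset.mul_sum, smul_eq_mul] at h2
  have h3 := Nat.mul_le_mul_left 𝒬.card hsum
  have h4 : 𝒬.card * (l * ∑ q ∈ 𝒬, (coll A q).card)
    = l * 𝒬.card * ∑ q ∈ 𝒬, (coll A q).card := by ring
  omega

/-! ### Prime counting -/

theorem two_pow_le_pi (e : ℕ) (he : 0 < e) : 2 ^ e ≤ e * Nat.primeCounting (2 ^ e) + e + 1 := by
  have h := Chebyshev.pi_ge (2 ^ e)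
  have hl2 : 0 < Real.log 2 := Real.log_pos (by norm_num)
  have her : (0 : ℝ) < e := by exact_mod_cast he
  have e1 : Real.log ((2 ^ e : ℕ) : ℝ) = e * Real.log 2 := by
    push_cast
    rw [Real.log_pow]
  have e2 : Real.log (((2 ^ e : ℕ) : ℝ) + 1) ≤ (e + 1) * Real.log 2 := by
    have : (((2 ^ e : ℕ) : ℝ) + 1) ≤ 2 ^ (e + 1) := by
      push_cast
      have : (1 : ℝ) ≤ 2 ^ e := one_le_pow₀ (by norm_num)
      rw [pow_succ]; linarith
    refine (Real.log_le_log (by positivity) this).trans (le_of_eq ?_)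
    rw [Real.log_pow]
    push_cast
    ring
  rw [e1, div_le_iff₀ (by positivity)] at h
  have h3 : ((2 ^ e : ℕ) : ℝ) * Real.log 2
      ≤ ((e * Nat.primeCounting (2 ^ e) + e + 1 : ℕ) : ℝ) * Real.log 2 := by
    push_cast at h e2 ⊢
    nlinarith
  exact_mod_cast le_of_mul_le_mul_right h3 hl2

theorem le_pi (y : ℕ) (hy : 2 ≤ y) : y ≤ (Nat.log 2 y + 1) * (Nat.primeCounting y + 1) := by
  have h := Chebyshev.pi_ge y
  have hl2 : 0 < Real.log 2 := Real.log_pos (by norm_num)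
  have hyr : (2 : ℝ) ≤ y := by exact_mod_cast hy
  have hlt : y + 1 ≤ 2 ^ (Nat.log 2 y + 1) := Nat.lt_pow_succ_log_self (by norm_num) y
  have hltr : (y : ℝ) + 1 ≤ 2 ^ (Nat.log 2 y + 1) := by exact_mod_cast hlt
  have e0 : Real.log ((2 : ℝ) ^ (Nat.log 2 y + 1)) = (Nat.log 2 y + 1) * Real.log 2 := by
    rw [Real.log_pow]
    push_cast
    ring
  have e1 : Real.log (y : ℝ) ≤ (Nat.log 2 y + 1) * Real.log 2 := by
    rw [← e0]
    exact Real.log_le_log (by linarith) (by linarith)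
  have e2 : Real.log ((y : ℝ) + 1) ≤ (Nat.log 2 y + 1) * Real.log 2 := by
    rw [← e0]
    exact Real.log_le_log (by linarith) hltr
  rw [div_le_iff₀ (Real.log_pos (by linarith))] at h
  have hpi : (0 : ℝ) ≤ Nat.primeCounting y := by positivity
  have h3 : (y : ℝ) * Real.log 2
      ≤ (((Nat.log 2 y + 1) * (Nat.primeCounting y + 1) : ℕ) : ℝ) * Real.log 2 := by
    have h4 := mul_le_mul_of_nonneg_left e1 hpi
    push_cast
    nlinarith
  exact_mod_cast le_of_mul_le_mul_right h3 hl2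

theorem sixteen_mul_le (L : ℕ) (hL : 12 ≤ L) : 16 * L * (L + 6) ≤ 2 ^ L := by
  induction L, hL using Nat.le_induction with
  | base => norm_num
  | succ n hn ih =>
    rw [pow_succ]
    nlinarith

theorem card_divisors_primorial (y : ℕ) :
    2 ^ Nat.primeCounting y ≤ (primorial y).divisors.card := by
  rw [Nat.card_divisors (primorial_ne_zero y), ← Nat.primesLE_card_eq_primeCounting,
    ← primeFactors_primorial, ← Finset.prod_const]
  refine Finset.prod_le_prod' (fun p hp => ?_)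
  have h1 := Nat.prime_of_mem_primeFactors hp
  have h2 := Nat.dvd_of_mem_primeFactors hp
  have := (h1.dvd_iff_one_le_factorization (primorial_ne_zero y)).1 h2
  omega

theorem exists_prime_residues : ∀ y ≥ 2 ^ 12, ∃ q : ℕ, q.Prime ∧
    2 ^ (y / (16 * Nat.log 2 y)) ≤ q ∧
    q ^ 7 < ((primorial y).divisors.image (fun a : ℕ => (a : ZMod q))).card ^ 10 := by
  classical
  intro y hy
  set L := Nat.log 2 y with hLdef
  have hL12 : 12 ≤ L := by
    rw [hLdef]
    exact Nat.le_log_of_pow_le (by norm_num) hy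
  have hy0 : y ≠ 0 := by
    rintro rfl
    norm_num at hy
  have hyL : 2 ^ L ≤ y := Nat.pow_log_le_self 2 hy0
  have hyL2 : y < 2 ^ (L + 1) := Nat.lt_pow_succ_log_self (by norm_num) y
  set lam := y / (16 * L) with hlam
  have hlamle : 16 * L * lam ≤ y := Nat.mul_div_le y (16 * L)
  have hlamge : L + 6 ≤ lam := by
    rw [hlam, Nat.le_div_iff_mul_le (by omega)]
    calc (L + 6) * (16 * L) = 16 * L * (L + 6) := by ring
      _ ≤ 2 ^ L := sixteen_mul_le L hL12
      _ ≤ y := hyL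
  set Z := 2 ^ lam with hZ
  have hZy : 32 * y ≤ Z := by
    calc 32 * y ≤ 32 * 2 ^ (L + 1) := by omega
      _ = 2 ^ (L + 6) := by ring
      _ ≤ Z := Nat.pow_le_pow_right (by norm_num) hlamge
  have hlamZ : lam < Z := Nat.lt_two_pow_self
  have hZ16 : 131072 ≤ Z := by omega
  -- number of divisors
  set A := (primorial y).divisors with hA
  have hpi : 4 * lam ≤ Nat.primeCounting y := by
    by_contra hc
    push Not at hc
    have h1 := le_pi y (by omega)
    rw [← hLdef] at h1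
    have h2 : (L + 1) * (Nat.primeCounting y + 1) ≤ (2 * L) * (4 * lam) :=
      Nat.mul_le_mul (by omega) (by omega)
    have h3 : (2 * L) * (4 * lam) * 2 = 16 * L * lam := by ring
    omega
  have hAcard : Z ^ 4 ≤ A.card := by
    refine le_trans ?_ (card_divisors_primorial y)
    rw [hZ, ← pow_mul]
    exact Nat.pow_le_pow_right (by norm_num) (by omega)
  have hAle : ∀ a ∈ A, a ≤ 4 ^ y := by
    intro a ha
    exact (Nat.divisor_le ha).trans (primorial_le_four_pow y)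
  -- primes
  set 𝒬 := (Nat.primesLE (Z ^ 4)).filter (fun q => Z ^ 2 ≤ q) with h𝒬
  have hcount : Z ^ 4 ≤ 4 * lam * Nat.primeCounting (Z ^ 4) + 4 * lam + 1 := by
    have := two_pow_le_pi (4 * lam) (by omega)
    have e : 2 ^ (4 * lam) = Z ^ 4 := by rw [hZ, ← pow_mul]; congr 1; ring
    rw [e] at this
    exact this
  have hQcard : Nat.primeCounting (Z ^ 4) ≤ 𝒬.card + Z ^ 2 := by
    rw [← Nat.primesLE_card_eq_primeCounting,
      ← Finset.card_filter_add_card_filter_not (s := Nat.primesLE (Z ^ 4)) (fun q => Z ^ 2 ≤ q)]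
    refine Nat.add_le_add_left ?_ _
    have : (Nat.primesLE (Z ^ 4)).filter (fun q => ¬ Z ^ 2 ≤ q) ⊆ Finset.range (Z ^ 2) := by
      intro q hq
      have := (Finset.mem_filter.1 hq).2
      exact Finset.mem_range.2 (not_le.1 this)
    exact (Finset.card_le_card this).trans (by rw [Finset.card_range])
  have hW : Z ^ 4 ≤ 8 * lam * 𝒬.card := by
    have h1 : 4 * lam * Nat.primeCounting (Z ^ 4) ≤ 4 * lam * (𝒬.card + Z ^ 2) :=
      Nat.mul_le_mul_left _ hQcard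
    have h2 : 4 * lam * Z ^ 2 ≤ 4 * Z * Z ^ 2 := by gcongr
    have h3 : 16 * Z * Z ^ 2 ≤ Z ^ 4 := by
      have : Z ^ 4 = Z * (Z * Z ^ 2) := by ring
      rw [this]
      have h5 : 16 * Z * Z ^ 2 = 16 * (Z * Z ^ 2) := by ring
      rw [h5]
      exact Nat.mul_le_mul_right _ (by omega)
    have h4 : 4 * Z * Z ^ 2 * 4 = 16 * Z * Z ^ 2 := by ring
    have h6 : Z ≤ Z * Z ^ 2 := Nat.le_mul_of_pos_right _ (by positivity)
    nlinarith
  have hQne : 𝒬.Nonempty := by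
    rw [Finset.nonempty_iff_ne_empty]
    intro h0
    rw [h0] at hW
    simp at hW
    omega
  obtain ⟨q, hq𝒬, hq⟩ := exists_good_prime 𝒬 (2 * lam) y hQne
    (fun q hq => (Nat.mem_primesLE.1 (Finset.mem_filter.1 hq).1).2)
    (fun q hq => by
      have := (Finset.mem_filter.1 hq).2
      rw [hZ, ← pow_mul, mul_comm] at this
      exact this) A hAle
  have hqp : q.Prime := (Nat.mem_primesLE.1 (Finset.mem_filter.1 hq𝒬).1).2
  have hqle : q ≤ Z ^ 4 := (Nat.mem_primesLE.1 (Finset.mem_filter.1 hq𝒬).1).1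
  have hqge : Z ^ 2 ≤ q := (Finset.mem_filter.1 hq𝒬).2
  refine ⟨q, hqp, ?_, ?_⟩
  · refine le_trans ?_ hqge
    calc Z = Z ^ 1 := (pow_one Z).symm
      _ ≤ Z ^ 2 := Nat.pow_le_pow_right (by omega) (by norm_num)
  have hsq := card_sq_le A q
  set B := A.image (fun a : ℕ => (a : ZMod q)) with hB
  have hBZ : Z ^ 3 < B.card := by
    by_contra hc
    push Not at hc
    set W := 2 * lam * 𝒬.card with hWdef
    have hW4 : Z ^ 4 ≤ 4 * W := by rw [hWdef]; linarith
    have hApos : 0 < A.card := lt_of_lt_of_le (by positivity) hAcard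
    -- W a² ≤ |B| (W a + 2 y a²)
    have k1 : W * A.card ^ 2 ≤ Z ^ 3 * (W * A.card + 2 * y * A.card ^ 2) := by
      calc W * A.card ^ 2 ≤ W * (B.card * (coll A q).card) := Nat.mul_le_mul_left _ hsq
        _ = B.card * (W * (coll A q).card) := by ring
        _ ≤ B.card * (W * A.card + 2 * y * A.card ^ 2) := Nat.mul_le_mul_left _ hq
        _ ≤ _ := Nat.mul_le_mul_right _ hc
    have k2 : W * A.card ≤ Z ^ 3 * (W + 2 * y * A.card) := by
      refine Nat.le_of_mul_le_mul_right ?_ hApos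
      calc W * A.card * A.card = W * A.card ^ 2 := by ring
        _ ≤ _ := k1
        _ = _ := by ring
    have k3 : 4 * (Z ^ 3 * W) ≤ W * A.card := by
      have : 4 * Z ^ 3 ≤ A.card := by
        refine le_trans ?_ hAcard
        rw [pow_succ Z 3, mul_comm]
        exact Nat.mul_le_mul_left _ (by omega)
      calc 4 * (Z ^ 3 * W) = W * (4 * Z ^ 3) := by ring
        _ ≤ _ := Nat.mul_le_mul_left _ this
    have k4 : 2 * (Z ^ 3 * (2 * y * A.card)) ≤ W * A.card := by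
      have : 4 * (4 * y * Z ^ 3) ≤ 4 * W := by
        refine le_trans ?_ hW4
        rw [pow_succ Z 3]
        calc 4 * (4 * y * Z ^ 3) = Z ^ 3 * (16 * y) := by ring
          _ ≤ Z ^ 3 * Z := Nat.mul_le_mul_left _ (by omega)
      have h5 : 4 * y * Z ^ 3 ≤ W := Nat.le_of_mul_le_mul_left this (by norm_num)
      calc 2 * (Z ^ 3 * (2 * y * A.card)) = 4 * y * Z ^ 3 * A.card := by ring
        _ ≤ _ := Nat.mul_le_mul_right _ h5
    have k5 : Z ^ 3 * (W + 2 * y * A.card) = Z ^ 3 * W + Z ^ 3 * (2 * y * A.card) := by ring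
    have k6 : 0 < W * A.card := by
      refine Nat.mul_pos ?_ hApos
      have : 0 < Z ^ 4 := by positivity
      omega
    omega
  calc q ^ 7 ≤ (Z ^ 4) ^ 7 := Nat.pow_le_pow_left hqle 7
    _ = (Z ^ 28) := by ring
    _ ≤ Z ^ 30 := Nat.pow_le_pow_right (by omega) (by norm_num)
    _ = (Z ^ 3) ^ 10 := by ring
    _ < B.card ^ 10 := Nat.pow_lt_pow_left hBZ (by norm_num)

theorem key_lemma : ∃ C y0 : ℕ, 0 < C ∧ ∀ y ≥ y0, ∃ R Q : ℕ, 0 < R ∧ R ≤ 16 ^ y ∧
    2 ^ (y / (C * Nat.log 2 y)) ≤ Q ∧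
    ∀ m : ℕ, ∃ t : Multiset ℕ, t.card ≤ 5 ∧ (∀ d ∈ t, d ∣ R) ∧ t.sum ≡ m [MOD Q] := by
  classical
  refine ⟨16, 2 ^ 12, by norm_num, fun y hy => ?_⟩
  obtain ⟨q, hq, hq1, hq2⟩ := exists_prime_residues y hy
  have : Fact q.Prime := ⟨hq⟩
  have hP := primorial_pos y
  refine ⟨primorial y * primorial y, q, Nat.mul_pos hP hP, ?_, hq1, fun m => ?_⟩
  · calc primorial y * primorial y ≤ 4 ^ y * 4 ^ y :=
          Nat.mul_le_mul (primorial_le_four_pow y) (primorial_le_four_pow y)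
      _ = 16 ^ y := by rw [← mul_pow]; norm_num
  obtain ⟨f, hf, hfm⟩ := five_products _ hq2 (m : ZMod q)
  have hex : ∀ i : Fin 5, ∃ d : ℕ, d ∣ primorial y * primorial y ∧
      (d : ZMod q) = (f i).1 * (f i).2 := by
    intro i
    have h1 := Finset.mem_product.1 (hf i)
    obtain ⟨a, ha, ha'⟩ := Finset.mem_image.1 h1.1
    obtain ⟨b, hb, hb'⟩ := Finset.mem_image.1 h1.2
    refine ⟨a * b, Nat.mul_dvd_mul (Nat.dvd_of_mem_divisors ha) (Nat.dvd_of_mem_divisors hb), ?_⟩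
    rw [← ha', ← hb']
    push_cast
    ring
  choose d hd1 hd2 using hex
  refine ⟨(Finset.univ : Finset (Fin 5)).val.map d, by simp, ?_, ?_⟩
  · intro e he
    obtain ⟨i, _, rfl⟩ := Multiset.mem_map.1 he
    exact hd1 i
  · rw [← ZMod.natCast_eq_natCast_iff]
    have : ((Finset.univ : Finset (Fin 5)).val.map d).sum = ∑ i, d i := rfl
    rw [this]
    push_cast
    rw [Finset.sum_congr rfl (fun i _ => hd2 i), hfm]

/-! ### Multiplying the range -/

theorem SumUF.of_divisors {N : ℕ} (hN : 0 < N) (t : Multiset ℕ) (h : ∀ d ∈ t, d ∣ N) :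
    SumUF t.card ((t.sum : ℚ) / (N : ℚ)) := by
  induction t using Multiset.induction_on with
  | empty => simpa using SumUF.zero 0
  | cons d t ih =>
    have h1 := SumUF.of_dvd hN (h d (Multiset.mem_cons_self d t))
    have h2 := ih (fun e he => h e (Multiset.mem_cons_of_mem he))
    have h3 := h1.add h2
    rw [Multiset.card_cons, Multiset.sum_cons]
    have e : (((d + t.sum : ℕ) : ℚ)) / (N : ℚ) = (d : ℚ) / N + (t.sum : ℚ) / N := by
      push_cast
      ring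
    rw [e]
    exact h3.mono (by omega)

theorem sum_le_of_dvd {R : ℕ} (hR : 0 < R) (t : Multiset ℕ) (h5 : t.card ≤ 5)
    (h : ∀ d ∈ t, d ∣ R) : t.sum ≤ 5 * R := by
  have h1 : t.sum ≤ t.card • R :=
    Multiset.sum_le_card_nsmul t R (fun d hd => Nat.le_of_dvd hR (h d hd))
  rw [smul_eq_mul] at h1
  exact h1.trans (Nat.mul_le_mul_right _ h5)

theorem basic_stage {N k M R Q : ℕ} (hG : Good N k M) (hR : 0 < R) (hQ : 0 < Q)
    (hkey : ∀ m : ℕ, ∃ t : Multiset ℕ, t.card ≤ 5 ∧ (∀ d ∈ t, d ∣ R) ∧ t.sum ≡ m [MOD Q])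
    (h5 : 5 * R ≤ M) (t : ℕ) : Good (N * R * Q ^ t) (k + 5 * t) (M * Q ^ t) := by
  obtain ⟨hN, hG⟩ := hG
  induction t with
  | zero =>
    refine ⟨by positivity, fun m hm => ?_⟩
    have h1 := (hG m (by simpa using hm)).div hR
    have e : (m : ℚ) / ((N * R * Q ^ 0 : ℕ) : ℚ) = (m : ℚ) / N / R := by
      push_cast
      rw [pow_zero, mul_one, div_div]
    rw [e]
    exact h1.mono (by omega)
  | succ t ih =>
    obtain ⟨hN', ih⟩ := ih
    have hN'' : 0 < N * R * Q ^ (t + 1) := by positivity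
    refine ⟨hN'', fun m hm => ?_⟩
    have eN : N * R * Q ^ (t + 1) = N * R * Q ^ t * Q := by ring
    have hQq : (Q : ℚ) ≠ 0 := by exact_mod_cast hQ.ne'
    have hNq : ((N * R * Q ^ t : ℕ) : ℚ) ≠ 0 := by exact_mod_cast hN'.ne'
    by_cases hsmall : m ≤ M * Q ^ t
    · have h1 := (ih m hsmall).div hQ
      have e : (m : ℚ) / ((N * R * Q ^ (t + 1) : ℕ) : ℚ)
          = (m : ℚ) / ((N * R * Q ^ t : ℕ) : ℚ) / Q := by
        rw [eN, div_div]
        push_cast
        ring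
      rw [e]
      exact h1.mono (by omega)
    · push Not at hsmall
      obtain ⟨u, u1, u2, u3⟩ := hkey m
      have hD : u.sum ≤ m := by
        have h1 := sum_le_of_dvd hR u u1 u2
        have h2 : M ≤ M * Q ^ t := Nat.le_mul_of_pos_right _ (by positivity)
        omega
      obtain ⟨m', hm'⟩ := (Nat.modEq_iff_dvd' hD).1 u3
      have hmeq : m = u.sum + Q * m' := by omega
      have hm'le : m' ≤ M * Q ^ t := by
        refine Nat.le_of_mul_le_mul_left ?_ hQ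
        calc Q * m' ≤ m := by omega
          _ ≤ M * Q ^ (t + 1) := hm
          _ = Q * (M * Q ^ t) := by ring
      have h1 := SumUF.of_divisors hN'' u (fun d hd => (u2 d hd).trans
        ((Dvd.intro_left N rfl).trans (Dvd.intro _ rfl)))
      have h2 := ih m' hm'le
      have e : (m : ℚ) / ((N * R * Q ^ (t + 1) : ℕ) : ℚ)
          = (u.sum : ℚ) / ((N * R * Q ^ (t + 1) : ℕ) : ℚ)
            + (m' : ℚ) / ((N * R * Q ^ t : ℕ) : ℚ) := by
        rw [eN, hmeq]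
        rw [Nat.cast_mul _ Q]
        push_cast at hNq ⊢
        field_simp
      rw [e]
      exact (h1.add h2).mono (by omega)

theorem mul_le_two_pow (C n : ℕ) (h : 6 * C + 2 ≤ n) : C * n ≤ 2 ^ n := by
  have h1 : n / 2 < 2 ^ (n / 2) := Nat.lt_two_pow_self
  have h2 : 2 ^ (n / 2) * 2 ^ (n / 2) ≤ 2 ^ n := by
    rw [← pow_add]
    exact Nat.pow_le_pow_right (by norm_num) (by omega)
  have h3 : C * n ≤ (n / 2) * (n / 2) := by
    have h4 : n ≤ 3 * (n / 2) := by omega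
    have h5 : 3 * C ≤ n / 2 := by omega
    calc C * n ≤ C * (3 * (n / 2)) := Nat.mul_le_mul_left _ h4
      _ = 3 * C * (n / 2) := by ring
      _ ≤ _ := Nat.mul_le_mul_right _ h5
  exact h3.trans ((Nat.mul_le_mul h1.le h1.le).trans h2)

theorem basic_double : ∃ C M0 : ℕ, ∀ M ≥ M0, ∀ N k : ℕ, Good N k M →
    ∃ N' M' R : ℕ, M ^ 2 ≤ M' ∧ M' ≤ M ^ 4 ∧ 0 < R ∧ R ^ 8 ≤ M ∧ N' * M ≤ N * M' * R ∧
      Good N' (k + C * Nat.log 2 (Nat.log 2 M)) M' := by
  obtain ⟨C, y0, hC, key⟩ := key_lemma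
  refine ⟨5 * (128 * C), 2 ^ (32 * (y0 + 2 ^ (6 * C + 2))), fun M hM N k hG => ?_⟩
  set L := Nat.log 2 M with hL
  have hM0 : M ≠ 0 := by
    have : 0 < 2 ^ (32 * (y0 + 2 ^ (6 * C + 2))) := by positivity
    omega
  have hLge : 32 * (y0 + 2 ^ (6 * C + 2)) ≤ L := Nat.le_log_of_pow_le (by norm_num) hM
  set y := L / 32 with hy
  have hyge : y0 + 2 ^ (6 * C + 2) ≤ y := by
    rw [hy, Nat.le_div_iff_mul_le (by norm_num), mul_comm]
    exact hLge
  have hy0 : y ≠ 0 := by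
    have : 0 < 2 ^ (6 * C + 2) := by positivity
    omega
  have hlogy : 6 * C + 2 ≤ Nat.log 2 y := Nat.le_log_of_pow_le (by norm_num) (by omega)
  have hCy : C * Nat.log 2 y ≤ y :=
    (mul_le_two_pow C _ hlogy).trans (Nat.pow_log_le_self 2 hy0)
  obtain ⟨R, Q, hR, hR16, hQ, hkey⟩ := key y (le_trans (Nat.le_add_right _ _) hyge)
  have hML : 2 ^ L ≤ M := Nat.pow_log_le_self 2 hM0
  have hML2 : M < 2 ^ (L + 1) := Nat.lt_pow_succ_log_self (by norm_num) M
  have hR4 : R ≤ 2 ^ (4 * y) := by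
    calc R ≤ 16 ^ y := hR16
      _ = 2 ^ (4 * y) := by rw [pow_mul]; norm_num
  have hR8 : R ^ 8 ≤ M := by
    calc R ^ 8 ≤ (2 ^ (4 * y)) ^ 8 := Nat.pow_le_pow_left hR4 8
      _ = 2 ^ (32 * y) := by rw [← pow_mul]; congr 1; ring
      _ ≤ 2 ^ L := Nat.pow_le_pow_right (by norm_num) (by omega)
      _ ≤ M := hML
  have h5R : 5 * R ≤ M := by
    calc 5 * R ≤ 2 ^ 3 * 2 ^ (4 * y) := Nat.mul_le_mul (by norm_num) hR4
      _ = 2 ^ (3 + 4 * y) := by rw [← pow_add]
      _ ≤ 2 ^ L := Nat.pow_le_pow_right (by norm_num) (by omega)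
      _ ≤ M := hML
  set e := y / (C * Nat.log 2 y) with he
  have hClog : 0 < C * Nat.log 2 y := Nat.mul_pos hC (by omega)
  have he1 : 1 ≤ e := by
    rw [he, Nat.le_div_iff_mul_le hClog]
    omega
  have hQ2 : 2 ≤ Q := by
    calc 2 = 2 ^ 1 := by norm_num
      _ ≤ 2 ^ e := Nat.pow_le_pow_right (by norm_num) he1
      _ ≤ Q := hQ
  have hye : y < (e + 1) * (C * Nat.log 2 y) := by
    rw [he, mul_comm]
    exact Nat.lt_mul_div_succ y hClog
  have hlogyL : Nat.log 2 y ≤ Nat.log 2 L := Nat.log_mono_right (Nat.div_le_self _ _)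
  have hLt : L + 1 ≤ e * (128 * C * Nat.log 2 L) := by
    have h1 : L + 1 ≤ 64 * y := by omega
    have h2 : (e + 1) * (C * Nat.log 2 y) ≤ (2 * e) * (C * Nat.log 2 L) :=
      Nat.mul_le_mul (by omega) (Nat.mul_le_mul_left _ hlogyL)
    have h3 : 64 * ((2 * e) * (C * Nat.log 2 L)) = e * (128 * C * Nat.log 2 L) := by ring
    omega
  have hMQ : M ≤ Q ^ (128 * C * Nat.log 2 L) := by
    calc M ≤ 2 ^ (L + 1) := hML2.le
      _ ≤ 2 ^ (e * (128 * C * Nat.log 2 L)) := Nat.pow_le_pow_right (by norm_num) hLt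
      _ = (2 ^ e) ^ (128 * C * Nat.log 2 L) := by rw [pow_mul]
      _ ≤ _ := Nat.pow_le_pow_left hQ _
  set t := Nat.clog Q M with ht
  have htle : t ≤ 128 * C * Nat.log 2 L := Nat.clog_le_of_le_pow hMQ
  have htge : M ≤ Q ^ t := Nat.le_pow_clog (by omega) M
  have hM1 : 1 < M := by omega
  have htlt : Q ^ t.pred < M := Nat.pow_pred_clog_lt_self (by omega) hM1
  have ht0 : 0 < t := Nat.clog_pos (by omega) hM1
  have hQR : Q ≤ 5 * R + 1 := by
    obtain ⟨u, u1, u2, u3⟩ := hkey (Q - 1)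
    have h1 := sum_le_of_dvd hR u u1 u2
    have h2 : (Q - 1) % Q = Q - 1 := Nat.mod_eq_of_lt (by omega)
    have h3 : u.sum % Q = Q - 1 := by rw [← h2]; exact u3
    have h4 := Nat.mod_le u.sum Q
    omega
  have hQM : Q ≤ M ^ 2 := by
    calc Q ≤ M + 1 := by omega
      _ ≤ M * 2 := by omega
      _ ≤ M * M := Nat.mul_le_mul_left _ (by omega)
      _ = M ^ 2 := by ring
  refine ⟨N * R * Q ^ t, M * Q ^ t, R, ?_, ?_, hR, hR8, le_of_eq (by ring), ?_⟩
  · calc M ^ 2 = M * M := by ring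
      _ ≤ M * Q ^ t := Nat.mul_le_mul_left _ htge
  · have h1 : Q ^ t = Q ^ t.pred * Q := by
      rw [← pow_succ, ← Nat.succ_eq_add_one, Nat.succ_pred_eq_of_pos ht0]
    calc M * Q ^ t = M * (Q ^ t.pred * Q) := by rw [h1]
      _ ≤ M * (M * M ^ 2) := Nat.mul_le_mul_left _ (Nat.mul_le_mul htlt.le hQM)
      _ = M ^ 4 := by ring
  · refine (basic_stage hG hR (by omega) hkey h5R t).mono ?_ le_rfl
    have : 5 * t ≤ 5 * (128 * C * Nat.log 2 L) := Nat.mul_le_mul_left _ htle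
    calc k + 5 * t ≤ k + 5 * (128 * C * Nat.log 2 L) := by omega
      _ = _ := by ring

end Vale.Agent.P012
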