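import Mathlib

namespace Vale.Agent.P012

open Finset

/-- iterated transfer sums -/
noncomputable def chainP {X α : Type*} [Fintype α] (σ : α → Equiv.Perm X) (g : X → ℝ) :
    ℕ → X → ℝ
  | 0, _ => 1
  | t + 1, x => ∑ a, g (σ a x) * chainP σ g t (σ a x)

theorem chainP_nonneg {X α : Type*} [Fintype α] (σ : α → Equiv.Perm X) (g : X → ℝ)
    (hg : ∀ x, 0 ≤ g x) (t : ℕ) (x : X) : 0 ≤ chainP σ g t x := by
  induction t generalizing x with
  | zero => simp [chainP]
  | succ t ih =>
    simp only [chainP]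
    exact Finset.sum_nonneg fun a _ => mul_nonneg (hg _) (ih _)

theorem sum_perm_invariant {X : Type*} [DecidableEq X] (G : Finset X) (s : Equiv.Perm X)
    (hG : ∀ x, s x ∈ G ↔ x ∈ G) (F : X → ℝ) :
    ∑ x ∈ G, F x = ∑ y ∈ G, F (s.symm y) := by
  symm
  apply Finset.sum_bij' (fun y _ => s.symm y) (fun x _ => s x)
  · intro y hy
    rw [← hG]; simpa using hy
  · intro x hx
    rw [hG]; exact hx
  · intro y _; simp
  · intro x _; simp
  · intro y _; rfl

theorem chain_aux {X α : Type*} [DecidableEq X] [Fintype α] (σ : α → Equiv.Perm X)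
    (g : X → ℝ) (hg0 : ∀ x, 0 ≤ g x) (hg1 : ∀ x, g x ≤ 1) (G : Finset X)
    (hG : ∀ a x, σ a x ∈ G ↔ x ∈ G) (η : ℝ) (hη : 0 ≤ η)
    (h : ∀ y ∈ G, ∑ a, g ((σ a).symm y) ≤ η) (t : ℕ) :
    ∀ (c : ℝ) (Θ : X → ℝ), 0 ≤ c → (∀ x, 0 ≤ Θ x) → (∀ x ∈ G, Θ x ≤ c * g x) →
      ∑ x ∈ G, Θ x * chainP σ g t x ≤ c * η ^ t * G.card := by
  induction t with
  | zero =>
    intro c Θ hc h0 h1
    simp only [chainP, mul_one, pow_zero]
    calc ∑ x ∈ G, Θ x ≤ ∑ x ∈ G, c := by
          apply Finset.sum_le_sum
          intro x hx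
          exact (h1 x hx).trans (by nlinarith [hg1 x, hc])
      _ = c * G.card := by simp [mul_comm]
  | succ t ih =>
    intro c Θ hc h0 h1
    have key : ∑ x ∈ G, Θ x * chainP σ g (t + 1) x
        = ∑ y ∈ G, (g y * ∑ a, Θ ((σ a).symm y)) * chainP σ g t y := by
      simp only [chainP]
      calc ∑ x ∈ G, Θ x * ∑ a, g (σ a x) * chainP σ g t (σ a x)
          = ∑ a, ∑ x ∈ G, Θ x * (g (σ a x) * chainP σ g t (σ a x)) := by
            rw [Finset.sum_comm]
            apply Finset.sum_congr rfl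
            intro x _
            rw [Finset.mul_sum]
        _ = ∑ a, ∑ y ∈ G, Θ ((σ a).symm y) * (g y * chainP σ g t y) := by
            apply Finset.sum_congr rfl
            intro a _
            rw [sum_perm_invariant G (σ a) (hG a)]
            simp
        _ = ∑ y ∈ G, (g y * ∑ a, Θ ((σ a).symm y)) * chainP σ g t y := by
            rw [Finset.sum_comm]
            apply Finset.sum_congr rfl
            intro y _
            rw [Finset.mul_sum, Finset.sum_mul]
            apply Finset.sum_congr rfl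
            intro a _
            ring
    rw [key]
    have := ih (c * η) (fun y => g y * ∑ a, Θ ((σ a).symm y)) (mul_nonneg hc hη)
      (fun x => mul_nonneg (hg0 x) (Finset.sum_nonneg fun a _ => h0 _)) ?_
    · calc _ ≤ c * η * η ^ t * G.card := this
        _ = c * η ^ (t + 1) * G.card := by ring
    · intro y hy
      have h2 : ∑ a, Θ ((σ a).symm y) ≤ c * η := by
        calc ∑ a, Θ ((σ a).symm y) ≤ ∑ a, c * g ((σ a).symm y) := by
              apply Finset.sum_le_sum
              intro a _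
              apply h1
              rw [← hG a]; simpa using hy
          _ = c * ∑ a, g ((σ a).symm y) := by rw [Finset.mul_sum]
          _ ≤ c * η := mul_le_mul_of_nonneg_left (h y hy) hc
      calc g y * ∑ a, Θ ((σ a).symm y) ≤ g y * (c * η) :=
            mul_le_mul_of_nonneg_left h2 (hg0 y)
        _ = c * η * g y := by ring

/-- The chain bound. -/
theorem chain_bound {X α : Type*} [DecidableEq X] [Fintype α] (σ : α → Equiv.Perm X)
    (g : X → ℝ) (hg0 : ∀ x, 0 ≤ g x) (hg1 : ∀ x, g x ≤ 1) (G : Finset X)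
    (hG : ∀ a x, σ a x ∈ G ↔ x ∈ G) (η : ℝ) (hη : 0 ≤ η)
    (h : ∀ y ∈ G, ∑ a, g ((σ a).symm y) ≤ η) (t : ℕ) :
    ∑ x ∈ G, chainP σ g (t + 1) x ≤ (Fintype.card α : ℝ) * η ^ t * G.card := by
  have key : ∑ x ∈ G, chainP σ g (t + 1) x
      = ∑ y ∈ G, ((Fintype.card α : ℝ) * g y) * chainP σ g t y := by
    simp only [chainP]
    rw [Finset.sum_comm]
    calc ∑ a, ∑ x ∈ G, g (σ a x) * chainP σ g t (σ a x)
        = ∑ a : α, ∑ y ∈ G, g y * chainP σ g t y := by
          apply Finset.sum_congr rfl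
          intro a _
          rw [sum_perm_invariant G (σ a) (hG a)]
          simp
      _ = ∑ y ∈ G, ((Fintype.card α : ℝ) * g y) * chainP σ g t y := by
          rw [Finset.sum_const, Finset.card_univ, nsmul_eq_mul, Finset.mul_sum]
          apply Finset.sum_congr rfl
          intro y _
          ring
  rw [key]
  apply chain_aux σ g hg0 hg1 G hG η hη h t
  · positivity
  · intro x; exact mul_nonneg (by positivity) (hg0 x)
  · intro x _; exact le_rfl

/-- trivial bound -/
theorem chainP_le {X α : Type*} [Fintype α] (σ : α → Equiv.Perm X)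
    (g : X → ℝ) (hg0 : ∀ x, 0 ≤ g x) (hg1 : ∀ x, g x ≤ 1) (t : ℕ) (x : X) :
    chainP σ g t x ≤ (Fintype.card α : ℝ) ^ t := by
  induction t generalizing x with
  | zero => simp [chainP]
  | succ t ih =>
    simp only [chainP]
    calc ∑ a, g (σ a x) * chainP σ g t (σ a x)
        ≤ ∑ a : α, (Fintype.card α : ℝ) ^ t := by
          apply Finset.sum_le_sum
          intro a _
          calc g (σ a x) * chainP σ g t (σ a x) ≤ 1 * (Fintype.card α : ℝ) ^ t :=
                mul_le_mul (hg1 _) (ih _) (chainP_nonneg σ g hg0 t _) zero_le_one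
            _ = _ := one_mul _
      _ = (Fintype.card α : ℝ) ^ (t + 1) := by
          rw [Finset.sum_const, Finset.card_univ, nsmul_eq_mul]; ring

end Vale.Agent.P012
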