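import Mathlib

namespace Vale.Agent.P012

open Finset

open Classical in
/-- greedy choice of `r` samples -/
theorem exists_cover {Ω ι : Type*} (S : Finset Ω) (M : Finset ι) (bd : ι → Ω → Prop) (δ : ℝ)
    (hδ : 0 ≤ δ) (hS : S.Nonempty)
    (h : ∀ m ∈ M, ((S.filter (fun ω => bd m ω)).card : ℝ) ≤ δ * S.card) (r : ℕ) :
    ∃ f : Fin r → Ω, (∀ j, f j ∈ S) ∧
      ((M.filter (fun m => ∀ j, bd m (f j))).card : ℝ) ≤ δ ^ r * M.card := by
  have hS0 : (0 : ℝ) < S.card := by exact_mod_cast hS.card_pos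
  induction r with
  | zero =>
    refine ⟨Fin.elim0, fun j => j.elim0, ?_⟩
    simp
  | succ r ih =>
    obtain ⟨f, hf1, hf2⟩ := ih
    set M' := M.filter (fun m => ∀ j, bd m (f j)) with hM'
    have hsum : ∑ ω ∈ S, ((M'.filter (fun m => bd m ω)).card : ℝ) ≤
        ∑ ω ∈ S, δ * M'.card := by
      have e : ∑ ω ∈ S, ((M'.filter (fun m => bd m ω)).card : ℝ)
          = ∑ m ∈ M', ((S.filter (fun ω => bd m ω)).card : ℝ) := by
        simp only [Finset.card_filter]
        push_cast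
        exact Finset.sum_comm
      rw [e, Finset.sum_const, nsmul_eq_mul]
      calc ∑ m ∈ M', ((S.filter (fun ω => bd m ω)).card : ℝ)
          ≤ ∑ m ∈ M', δ * S.card := Finset.sum_le_sum fun m hm => h m (Finset.mem_filter.1 hm).1
        _ = S.card * (δ * M'.card) := by rw [Finset.sum_const, nsmul_eq_mul]; ring
    obtain ⟨ω, hω, hle⟩ := Finset.exists_le_of_sum_le hS hsum
    refine ⟨Fin.cons ω f, ?_, ?_⟩
    · intro j
      refine Fin.cases ?_ (fun i => ?_) j
      · exact hω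
      · exact hf1 i
    · have e2 : M.filter (fun m => ∀ j, bd m ((Fin.cons ω f : Fin (r + 1) → Ω) j))
          = M'.filter (fun m => bd m ω) := by
        rw [hM', Finset.filter_filter]
        apply Finset.filter_congr
        intro m _
        rw [Fin.forall_fin_succ]
        simp only [Fin.cons_zero, Fin.cons_succ]
        tauto
      rw [e2]
      calc _ ≤ δ * M'.card := hle
        _ ≤ δ * (δ ^ r * M.card) := mul_le_mul_of_nonneg_left hf2 hδ
        _ = _ := by ring

open Classical in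
theorem exists_cover' {Ω ι : Type*} (S : Finset Ω) (M : Finset ι) (bd : ι → Ω → Prop) (δ : ℝ)
    (hδ : 0 ≤ δ) (hS : S.Nonempty)
    (h : ∀ m ∈ M, ((S.filter (fun ω => bd m ω)).card : ℝ) ≤ δ * S.card) (r : ℕ)
    (hr : δ ^ r * M.card < 1) :
    ∃ f : Fin r → Ω, (∀ j, f j ∈ S) ∧ ∀ m ∈ M, ∃ j, ¬ bd m (f j) := by
  obtain ⟨f, hf1, hf2⟩ := exists_cover S M bd δ hδ hS h r
  refine ⟨f, hf1, fun m hm => ?_⟩
  by_contra hcon
  push Not at hcon
  have h1 : 0 < (M.filter (fun m => ∀ j, bd m (f j))).card := by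
    apply Finset.card_pos.2
    exact ⟨m, Finset.mem_filter.2 ⟨hm, hcon⟩⟩
  have h2 : (1 : ℝ) ≤ (M.filter (fun m => ∀ j, bd m (f j))).card := by exact_mod_cast h1
  linarith

end Vale.Agent.P012
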