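import Mathlib

namespace Vale.Agent.P012

/-- `s` is a finite set of integers `≥ 2` whose reciprocals sum to `a / b`. -/
def IsExpansion (a b : ℕ) (s : Finset ℕ) : Prop :=
  (∀ n ∈ s, 2 ≤ n) ∧ (a : ℚ) / (b : ℚ) = ∑ n ∈ s, 1 / (n : ℚ)

/-- `minTerms a b` is the least number of distinct unit fractions (denominators `≥ 2`)
with sum `a / b`. -/
noncomputable def minTerms (a b : ℕ) : ℕ :=
  sInf {k : ℕ | ∃ s : Finset ℕ, IsExpansion a b s ∧ s.card = k}

/-- `maxTerms b` is the maximum of `minTerms a b` over `1 ≤ a < b`. -/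
noncomputable def maxTerms (b : ℕ) : ℕ := (Finset.Ico 1 b).sup (fun a => minTerms a b)

/-- `x` is a sum of at most `k` unit fractions, repetitions allowed. -/
def SumUF (k : ℕ) (x : ℚ) : Prop :=
  ∃ t : Multiset ℕ, t.card ≤ k ∧ (∀ n ∈ t, 0 < n) ∧ (t.map (fun n : ℕ => 1 / (n : ℚ))).sum = x

/-- every fraction `m / N` with `m ≤ M` is a sum of at most `k` unit fractions. -/
def Good (N k M : ℕ) : Prop := 0 < N ∧ ∀ m : ℕ, m ≤ M → SumUF k ((m : ℚ) / (N : ℚ))

theorem SumUF.zero (k : ℕ) : SumUF k 0 := ⟨0, by simp, by simp, by simp⟩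

theorem SumUF.mono {k l : ℕ} {x : ℚ} (h : SumUF k x) (hkl : k ≤ l) : SumUF l x := by
  obtain ⟨t, h1, h2, h3⟩ := h
  exact ⟨t, h1.trans hkl, h2, h3⟩

theorem SumUF.add {k l : ℕ} {x y : ℚ} (hx : SumUF k x) (hy : SumUF l y) :
    SumUF (k + l) (x + y) := by
  obtain ⟨t, h1, h2, h3⟩ := hx
  obtain ⟨u, g1, g2, g3⟩ := hy
  refine ⟨t + u, ?_, ?_, ?_⟩
  · rw [Multiset.card_add]; omega
  · intro n hn
    rcases Multiset.mem_add.1 hn with h | h
    · exact h2 n h
    · exact g2 n h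
  · rw [Multiset.map_add, Multiset.sum_add, h3, g3]

theorem SumUF.one_div {n : ℕ} (hn : 0 < n) : SumUF 1 (1 / (n : ℚ)) :=
  ⟨{n}, by simp, by simp [hn], by simp⟩

/-- dividing by a positive integer. -/
theorem SumUF.div {k : ℕ} {x : ℚ} (hx : SumUF k x) {n : ℕ} (hn : 0 < n) :
    SumUF k (x / (n : ℚ)) := by
  obtain ⟨t, h1, h2, h3⟩ := hx
  refine ⟨t.map (fun a => a * n), by simpa using h1, ?_, ?_⟩
  · intro a ha
    obtain ⟨b, hb, rfl⟩ := Multiset.mem_map.1 ha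
    exact Nat.mul_pos (h2 b hb) hn
  · rw [← h3, Multiset.map_map, div_eq_mul_inv, ← Multiset.sum_map_mul_right]
    congr 1
    apply Multiset.map_congr rfl
    intro a _
    simp [Function.comp, mul_comm]

/-- `d / N` is a unit fraction if `d ∣ N`. -/
theorem SumUF.of_dvd {d N : ℕ} (hN : 0 < N) (h : d ∣ N) : SumUF 1 ((d : ℚ) / (N : ℚ)) := by
  obtain ⟨e, rfl⟩ := h
  have hd : 0 < d := Nat.pos_of_mul_pos_right hN |> fun _ => by
    rcases Nat.eq_zero_or_pos d with h0 | h0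
    · subst h0; simp at hN
    · exact h0
  have he : 0 < e := by
    rcases Nat.eq_zero_or_pos e with h0 | h0
    · subst h0; simp at hN
    · exact h0
  have : (d : ℚ) / ((d * e : ℕ) : ℚ) = 1 / (e : ℚ) := by
    have hd' : (d : ℚ) ≠ 0 := by exact_mod_cast hd.ne'
    have he' : (e : ℚ) ≠ 0 := by exact_mod_cast he.ne'
    push_cast
    field_simp
  rw [this]
  exact SumUF.one_div he

theorem Good.mono {N k k' M M' : ℕ} (h : Good N k M) (hk : k ≤ k') (hM : M' ≤ M) :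
    Good N k' M' :=
  ⟨h.1, fun m hm => (h.2 m (hm.trans hM)).mono hk⟩

end Vale.Agent.P012
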