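import Vale.Agent.P012.Defs

open Finset

namespace Vale.Agent.P012

/-! ### Elementary bounds for additive characters of `ZMod m` -/

theorem norm_char {m : ℕ} [NeZero m] (x : ZMod m) : ‖(ZMod.stdAddChar x : ℂ)‖ = 1 := by
  rw [ZMod.stdAddChar_apply]
  exact Circle.norm_coe _

theorem norm_char_sub_one {m : ℕ} [NeZero m] (x : ZMod m) :
    4 * |(x.valMinAbs : ℝ)| / m ≤ ‖(ZMod.stdAddChar x : ℂ) - 1‖ := by
  have hm : (0 : ℝ) < m := by exact_mod_cast Nat.pos_of_ne_zero (NeZero.ne m)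
  have e : (ZMod.stdAddChar x : ℂ)
      = Complex.exp (Complex.I * ((2 * Real.pi * x.valMinAbs / m : ℝ) : ℂ)) := by
    conv_lhs => rw [← ZMod.coe_valMinAbs x, ZMod.stdAddChar_coe]
    congr 1
    push_cast
    ring
  rw [e, Complex.norm_exp_I_mul_ofReal_sub_one]
  have h1 := ZMod.valMinAbs_mem_Ioc x
  have h2 : |(x.valMinAbs : ℝ)| ≤ m / 2 := by
    rw [abs_le]
    have h3 : (-(m : ℝ)) < x.valMinAbs * 2 := by exact_mod_cast h1.1
    have h4 : (x.valMinAbs : ℝ) * 2 ≤ m := by exact_mod_cast h1.2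
    constructor <;> linarith
  have h5 : |2 * Real.pi * x.valMinAbs / m / 2| ≤ Real.pi / 2 := by
    have : 2 * Real.pi * x.valMinAbs / m / 2 = Real.pi / m * x.valMinAbs := by ring
    rw [this, abs_mul, abs_of_pos (div_pos Real.pi_pos hm)]
    calc Real.pi / m * |(x.valMinAbs : ℝ)| ≤ Real.pi / m * (m / 2) :=
          mul_le_mul_of_nonneg_left h2 (div_pos Real.pi_pos hm).le
      _ = Real.pi / 2 := by field_simp
  have h6 := Real.mul_abs_le_abs_sin h5
  rw [Real.norm_eq_abs, abs_mul, abs_of_pos (by norm_num : (0 : ℝ) < 2)]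
  have h7 : 2 / Real.pi * |2 * Real.pi * x.valMinAbs / m / 2| = 2 * |(x.valMinAbs : ℝ)| / m := by
    have : 2 * Real.pi * x.valMinAbs / m / 2 = Real.pi / m * x.valMinAbs := by ring
    rw [this, abs_mul, abs_of_pos (div_pos Real.pi_pos hm)]
    field_simp
  rw [h7] at h6
  have : 4 * |(x.valMinAbs : ℝ)| / m = 2 * (2 * |(x.valMinAbs : ℝ)| / m) := by ring
  rw [this]
  linarith

theorem norm_geom {m : ℕ} [NeZero m] (x : ZMod m) (hx : x ≠ 0) (A : ℕ) :
    ‖∑ a ∈ Finset.range A, (ZMod.stdAddChar (x * (a : ZMod m)) : ℂ)‖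
      ≤ m / (2 * |(x.valMinAbs : ℝ)|) := by
  have hm : (0 : ℝ) < m := by exact_mod_cast Nat.pos_of_ne_zero (NeZero.ne m)
  have hv : 0 < |(x.valMinAbs : ℝ)| := by
    rw [abs_pos]
    exact_mod_cast (ZMod.valMinAbs_eq_zero x).not.2 hx
  have h1 := norm_char_sub_one x
  have h2 : (0 : ℝ) < 4 * |(x.valMinAbs : ℝ)| / m := by positivity
  have hne : (ZMod.stdAddChar x : ℂ) ≠ 1 := by
    intro h
    rw [h] at h1
    simp only [sub_self, norm_zero] at h1
    linarith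
  have e : ∀ a : ℕ, (ZMod.stdAddChar (x * (a : ZMod m)) : ℂ) = (ZMod.stdAddChar x : ℂ) ^ a := by
    intro a
    rw [← AddChar.map_nsmul_eq_pow, nsmul_eq_mul, mul_comm]
  simp only [e]
  rw [geom_sum_eq hne, norm_div]
  have h3 : ‖(ZMod.stdAddChar x : ℂ) ^ A - 1‖ ≤ 2 := by
    refine (norm_sub_le _ _).trans ?_
    rw [norm_pow, norm_char]
    norm_num
  calc ‖(ZMod.stdAddChar x : ℂ) ^ A - 1‖ / ‖(ZMod.stdAddChar x : ℂ) - 1‖
      ≤ 2 / (4 * |(x.valMinAbs : ℝ)| / m) := div_le_div₀ (by norm_num) h3 h2 h1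
    _ = m / (2 * |(x.valMinAbs : ℝ)|) := by field_simp; norm_num

theorem norm_geom' {m : ℕ} [NeZero m] (x : ZMod m) (A : ℕ) :
    ‖∑ a ∈ Finset.range A, (ZMod.stdAddChar (x * (a : ZMod m)) : ℂ)‖ ≤ A := by
  refine (norm_sum_le _ _).trans ?_
  simp

/-- A nonnegative sum over `ZMod m` is controlled by the sum over `± k`, `k ≤ m / 2`. -/
theorem sum_zmod_le {m : ℕ} [NeZero m] (F : ZMod m → ℝ) (hF : ∀ x, 0 ≤ F x) :
    ∑ x, F x ≤ F 0 + ∑ k ∈ Finset.Icc 1 (m / 2), (F (k : ZMod m) + F (-(k : ZMod m))) := by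
  classical
  have hcov : (Finset.univ : Finset (ZMod m)) ⊆ {0} ∪
      ((Finset.Icc 1 (m / 2)).image (fun k : ℕ => (k : ZMod m)) ∪
        (Finset.Icc 1 (m / 2)).image (fun k : ℕ => -(k : ZMod m))) := by
    intro x _
    rw [Finset.mem_union, Finset.mem_union, Finset.mem_image, Finset.mem_image,
      Finset.mem_singleton]
    by_cases hx : x = 0
    · exact Or.inl hx
    right
    have h1 := ZMod.natAbs_valMinAbs_le x
    have h2 : x.valMinAbs ≠ 0 := (ZMod.valMinAbs_eq_zero x).not.2 hx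
    have h3 : 1 ≤ x.valMinAbs.natAbs := Int.natAbs_pos.2 h2
    have h4 := ZMod.coe_valMinAbs x
    rcases Int.natAbs_eq x.valMinAbs with h | h
    · left
      refine ⟨x.valMinAbs.natAbs, Finset.mem_Icc.2 ⟨h3, h1⟩, ?_⟩
      conv_rhs => rw [← h4, h]
      simp
    · right
      refine ⟨x.valMinAbs.natAbs, Finset.mem_Icc.2 ⟨h3, h1⟩, ?_⟩
      conv_rhs => rw [← h4, h]
      simp
  have hU : ∀ s t : Finset (ZMod m), ∑ x ∈ s ∪ t, F x ≤ ∑ x ∈ s, F x + ∑ x ∈ t, F x := by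
    intro s t
    rw [← Finset.sum_union_inter]
    have : 0 ≤ ∑ x ∈ s ∩ t, F x := Finset.sum_nonneg (fun x _ => hF x)
    linarith
  have hI : ∀ (s : Finset ℕ) (f : ℕ → ZMod m), ∑ x ∈ s.image f, F x ≤ ∑ k ∈ s, F (f k) := by
    intro s f
    exact Finset.sum_image_le_of_nonneg (fun x _ => hF x)
  calc ∑ x, F x ≤ ∑ x ∈ {0} ∪
      ((Finset.Icc 1 (m / 2)).image (fun k : ℕ => (k : ZMod m)) ∪
        (Finset.Icc 1 (m / 2)).image (fun k : ℕ => -(k : ZMod m))), F x :=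
        Finset.sum_le_sum_of_subset_of_nonneg hcov (fun x _ _ => hF x)
    _ ≤ _ := by
      refine (hU _ _).trans ?_
      rw [Finset.sum_singleton, Finset.sum_add_distrib]
      refine add_le_add le_rfl ((hU _ _).trans (add_le_add (hI _ _) (hI _ _)))

theorem norm_sum_Icc {m : ℕ} [NeZero m] (x : ZMod m) (V : ℕ) :
    ‖∑ v ∈ Finset.Icc 1 V, (ZMod.stdAddChar ((v : ZMod m) * x) : ℂ)‖
      = ‖∑ a ∈ Finset.range V, (ZMod.stdAddChar (x * (a : ZMod m)) : ℂ)‖ := by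
  have e : ∑ v ∈ Finset.Icc 1 V, (ZMod.stdAddChar ((v : ZMod m) * x) : ℂ)
      = (ZMod.stdAddChar x : ℂ) *
        ∑ a ∈ Finset.range V, (ZMod.stdAddChar (x * (a : ZMod m)) : ℂ) := by
    rw [Finset.mul_sum, Finset.range_eq_Ico, Finset.sum_Ico_eq_sum_range]
    rw [show Finset.Icc 1 V = Finset.Ico 1 (V + 1) from rfl, Finset.sum_Ico_eq_sum_range]
    simp only [Nat.add_sub_cancel, Nat.sub_zero, zero_add]
    refine Finset.sum_congr rfl (fun a _ => ?_)
    rw [← AddChar.map_add_eq_mul]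
    congr 1
    push_cast
    ring
  rw [e, norm_mul, norm_char, one_mul]

theorem v_average {m : ℕ} [NeZero m] (𝒜 : Finset ℕ) (x : ZMod m) (V : ℕ) (hV : 0 < V)
    (E : ℝ) (hE : 0 < E) :
    (∑ v ∈ Finset.Icc 1 V,
        ‖∑ d ∈ 𝒜, (ZMod.stdAddChar ((v : ZMod m) * x * (d : ZMod m)) : ℂ)‖ ^ 2) / V
      ≤ ((𝒜 ×ˢ 𝒜).filter (fun p =>
          |((((p.1 : ZMod m) - (p.2 : ZMod m)) * x).valMinAbs : ℝ)| ≤ E)).card
        + (m / (2 * V * E)) * (𝒜.card : ℝ) ^ 2 := by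
  have hm : (0 : ℝ) < m := by exact_mod_cast Nat.pos_of_ne_zero (NeZero.ne m)
  have hVr : (0 : ℝ) < V := by exact_mod_cast hV
  have hsq : ∀ z : ℂ, ((‖z‖ ^ 2 : ℝ) : ℂ) = z * (starRingEnd ℂ) z := by
    intro z
    rw [Complex.mul_conj, Complex.normSq_eq_norm_sq]
  have e1 : ((∑ v ∈ Finset.Icc 1 V,
        ‖∑ d ∈ 𝒜, (ZMod.stdAddChar ((v : ZMod m) * x * (d : ZMod m)) : ℂ)‖ ^ 2 : ℝ) : ℂ)
      = ∑ p ∈ 𝒜 ×ˢ 𝒜, ∑ v ∈ Finset.Icc 1 V,
        (ZMod.stdAddChar ((v : ZMod m) * (((p.1 : ZMod m) - (p.2 : ZMod m)) * x)) : ℂ) := by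
    rw [Finset.sum_comm, Complex.ofReal_sum]
    refine Finset.sum_congr rfl (fun v _ => ?_)
    rw [hsq, map_sum, Finset.sum_mul_sum, Finset.sum_product]
    refine Finset.sum_congr rfl (fun d _ => Finset.sum_congr rfl (fun d' _ => ?_))
    rw [← AddChar.map_neg_eq_conj, ← AddChar.map_add_eq_mul]
    congr 1
    ring
  have e2 : (∑ v ∈ Finset.Icc 1 V,
        ‖∑ d ∈ 𝒜, (ZMod.stdAddChar ((v : ZMod m) * x * (d : ZMod m)) : ℂ)‖ ^ 2)
      ≤ ∑ p ∈ 𝒜 ×ˢ 𝒜, ‖∑ v ∈ Finset.Icc 1 V,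
        (ZMod.stdAddChar ((v : ZMod m) * (((p.1 : ZMod m) - (p.2 : ZMod m)) * x)) : ℂ)‖ := by
    refine le_trans (le_of_eq ?_) (norm_sum_le _ _)
    rw [← e1, Complex.norm_real, Real.norm_of_nonneg]
    positivity
  have e3 : ∑ p ∈ 𝒜 ×ˢ 𝒜, ‖∑ v ∈ Finset.Icc 1 V,
        (ZMod.stdAddChar ((v : ZMod m) * (((p.1 : ZMod m) - (p.2 : ZMod m)) * x)) : ℂ)‖
      ≤ ∑ p ∈ 𝒜 ×ˢ 𝒜, ((if |((((p.1 : ZMod m) - (p.2 : ZMod m)) * x).valMinAbs : ℝ)| ≤ E
          then (V : ℝ) else 0) + m / (2 * E)) := by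
    refine Finset.sum_le_sum (fun p _ => ?_)
    rw [norm_sum_Icc]
    generalize ((p.1 : ZMod m) - (p.2 : ZMod m)) * x = y
    by_cases hy : |(y.valMinAbs : ℝ)| ≤ E
    · rw [if_pos hy]
      have := norm_geom' y V
      have h0 : (0 : ℝ) ≤ m / (2 * E) := by positivity
      linarith
    · rw [if_neg hy, zero_add]
      push Not at hy
      have hy0 : y ≠ 0 := by
        rintro rfl
        rw [ZMod.valMinAbs_zero] at hy
        simp at hy
        linarith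
      refine (norm_geom y hy0 V).trans ?_
      exact div_le_div_of_nonneg_left hm.le (by positivity) (by linarith)
  rw [div_le_iff₀ hVr]
  refine (e2.trans e3).trans (le_of_eq ?_)
  rw [Finset.sum_add_distrib, Finset.sum_const, ← Finset.sum_filter, Finset.sum_const,
    Finset.card_product, nsmul_eq_mul, nsmul_eq_mul]
  push_cast
  field_simp

theorem sum_char_mul {m : ℕ} [NeZero m] (t : ZMod m) :
    ∑ h : ZMod m, (ZMod.stdAddChar (h * t) : ℂ) = if t = 0 then (m : ℂ) else 0 := by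
  split_ifs with ht
  · subst ht
    simp
  · have := AddChar.sum_mulShift t (ZMod.isPrimitive_stdAddChar m)
    rw [this, if_neg ht, Nat.cast_zero]

theorem exists_sol {m : ℕ} [NeZero m] {ι : Type*} [Fintype ι] [Nonempty ι] (D : ι → ZMod m)
    (Q c : ZMod m) (hQc : Q * c = 1) (A N₁ : ℕ) (hA : 0 < A) (hN : m ^ 2 ≤ N₁ * A ^ 2)
    (h : ∑ n ∈ Finset.Icc 1 N₁, ‖∑ i, (ZMod.stdAddChar ((n : ZMod m) * c * D i) : ℂ)‖
      < (Fintype.card ι : ℝ) / 4) :
    ∃ i, ∃ m' : ℕ, m' < 2 * A ∧ D i + Q * (m' : ZMod m) = 0 := by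
  classical
  by_contra hno
  push Not at hno
  have hm0 : 0 < m := Nat.pos_of_ne_zero (NeZero.ne m)
  have hm : (0 : ℝ) < m := by exact_mod_cast hm0
  have hAr : (0 : ℝ) < A := by exact_mod_cast hA
  have hN0 : 0 < N₁ := by
    rcases Nat.eq_zero_or_pos N₁ with h0 | h0
    · subst h0
      have : 0 < m ^ 2 := by positivity
      omega
    · exact h0
  have hN0r : (0 : ℝ) < N₁ := by exact_mod_cast hN0
  set S : ZMod m → ℂ := fun n => ∑ i, (ZMod.stdAddChar (n * c * D i) : ℂ) with hS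
  set T : ZMod m → ℂ := fun n => ∑ a ∈ Finset.range A, (ZMod.stdAddChar (n * (a : ZMod m)) : ℂ)
    with hT
  -- the complete sum vanishes
  have hzero : ∑ n : ZMod m, S n * T n ^ 2 = 0 := by
    have e : ∀ n : ZMod m, S n * T n ^ 2 = ∑ i, ∑ a ∈ Finset.range A, ∑ b ∈ Finset.range A,
        (ZMod.stdAddChar (n * (c * (D i + Q * ((a + b : ℕ) : ZMod m)))) : ℂ) := by
      intro n
      simp only [hS, hT, sq]
      rw [Finset.sum_mul_sum, Finset.sum_mul]
      refine Finset.sum_congr rfl (fun i _ => ?_)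
      rw [Finset.mul_sum]
      refine Finset.sum_congr rfl (fun a _ => ?_)
      rw [Finset.mul_sum]
      refine Finset.sum_congr rfl (fun b _ => ?_)
      rw [← AddChar.map_add_eq_mul, ← AddChar.map_add_eq_mul]
      congr 1
      push_cast
      linear_combination (-(n * (a + b))) * hQc
    rw [Finset.sum_congr rfl (fun n _ => e n), Finset.sum_comm]
    refine Finset.sum_eq_zero (fun i _ => ?_)
    rw [Finset.sum_comm]
    refine Finset.sum_eq_zero (fun a ha => ?_)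
    rw [Finset.sum_comm]
    refine Finset.sum_eq_zero (fun b hb => ?_)
    rw [sum_char_mul, if_neg]
    intro h0
    have h1 : Q * (c * (D i + Q * ((a + b : ℕ) : ZMod m))) = 0 := by rw [h0, mul_zero]
    rw [← mul_assoc, hQc, one_mul] at h1
    rw [Finset.mem_range] at ha hb
    exact hno i (a + b) (by omega) h1
  -- the nonzero part
  have hsplit : S 0 * T 0 ^ 2 + ∑ n ∈ Finset.univ.erase (0 : ZMod m), S n * T n ^ 2 = 0 := by
    have := Finset.add_sum_erase Finset.univ (fun n => S n * T n ^ 2) (Finset.mem_univ 0)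
    rw [hzero] at this
    exact this
  have hS0 : S 0 = (Fintype.card ι : ℂ) := by simp [hS]
  have hT0 : T 0 = (A : ℂ) := by simp [hT]
  have hcard : (0 : ℝ) < Fintype.card ι := by exact_mod_cast Fintype.card_pos
  set F : ZMod m → ℝ := fun n => if n = 0 then 0 else ‖S n‖ * ‖T n‖ ^ 2 with hF
  have hF0 : ∀ n, 0 ≤ F n := by
    intro n
    simp only [hF]
    split_ifs
    · exact le_rfl
    · positivity
  have hbig : (Fintype.card ι : ℝ) * A ^ 2 ≤ ∑ n, F n := by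
    have e1 : (Fintype.card ι : ℝ) * A ^ 2 = ‖S 0 * T 0 ^ 2‖ := by
      rw [hS0, hT0, norm_mul, norm_pow, Complex.norm_natCast, Complex.norm_natCast]
    have e2 : S 0 * T 0 ^ 2 = - ∑ n ∈ Finset.univ.erase (0 : ZMod m), S n * T n ^ 2 :=
      eq_neg_of_add_eq_zero_left hsplit
    rw [e1, e2, norm_neg]
    refine (norm_sum_le _ _).trans ?_
    have e3 : ∑ n ∈ Finset.univ.erase (0 : ZMod m), ‖S n * T n ^ 2‖
        = ∑ n ∈ Finset.univ.erase (0 : ZMod m), F n := by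
      refine Finset.sum_congr rfl (fun n hn => ?_)
      simp only [hF]
      rw [if_neg (Finset.ne_of_mem_erase hn), norm_mul, norm_pow]
    rw [e3]
    exact Finset.sum_le_sum_of_subset_of_nonneg (Finset.erase_subset _ _) (fun n _ _ => hF0 n)
  have hconjS : ∀ n, ‖S (-n)‖ = ‖S n‖ := by
    intro n
    have : S (-n) = (starRingEnd ℂ) (S n) := by
      simp only [hS, map_sum]
      refine Finset.sum_congr rfl (fun i _ => ?_)
      rw [← AddChar.map_neg_eq_conj]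
      congr 1
      ring
    rw [this, RCLike.norm_conj]
  have hconjT : ∀ n, ‖T (-n)‖ = ‖T n‖ := by
    intro n
    have : T (-n) = (starRingEnd ℂ) (T n) := by
      simp only [hT, map_sum]
      refine Finset.sum_congr rfl (fun i _ => ?_)
      rw [← AddChar.map_neg_eq_conj]
      congr 1
      ring
    rw [this, RCLike.norm_conj]
  have hFneg : ∀ n, F (-n) = F n := by
    intro n
    simp only [hF, neg_eq_zero, hconjS, hconjT]
  have hle := sum_zmod_le F hF0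
  have hF00 : F 0 = 0 := by simp [hF]
  simp only [hFneg, hF00, zero_add, ← two_mul] at hle
  rw [← Finset.mul_sum] at hle
  -- bounds for the terms
  have hb1 : ∀ k : ℕ, F (k : ZMod m) ≤ ‖S (k : ZMod m)‖ * A ^ 2 := by
    intro k
    simp only [hF]
    split_ifs
    · positivity
    · exact mul_le_mul_of_nonneg_left (pow_le_pow_left₀ (norm_nonneg _) (norm_geom' _ A) 2)
        (norm_nonneg _)
  have hSle : ∀ n, ‖S n‖ ≤ Fintype.card ι := by
    intro n
    refine (norm_sum_le _ _).trans ?_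
    simp
  have hb2 : ∀ k ∈ Finset.Icc 1 (m / 2), F (k : ZMod m)
      ≤ (Fintype.card ι : ℝ) * ((m : ℝ) ^ 2 / 4) * ((k : ℝ) ^ 2)⁻¹ := by
    intro k hk
    rw [Finset.mem_Icc] at hk
    have hk1 : (0 : ℝ) < k := by exact_mod_cast hk.1
    have hv : (k : ZMod m).valMinAbs = k := ZMod.valMinAbs_natCast_of_le_half hk.2
    have hk0 : (k : ZMod m) ≠ 0 := by
      intro h0
      rw [h0, ZMod.valMinAbs_zero] at hv
      have : (k : ℤ) = 0 := hv.symm
      omega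
    simp only [hF]
    rw [if_neg hk0]
    have h1 := norm_geom (k : ZMod m) hk0 A
    rw [hv] at h1
    have h2 : |((k : ℤ) : ℝ)| = k := by
      rw [Int.cast_natCast, abs_of_pos hk1]
    rw [h2] at h1
    have h3 : ‖T (k : ZMod m)‖ ^ 2 ≤ ((m : ℝ) / (2 * k)) ^ 2 :=
      pow_le_pow_left₀ (norm_nonneg _) h1 2
    calc ‖S (k : ZMod m)‖ * ‖T (k : ZMod m)‖ ^ 2
        ≤ (Fintype.card ι : ℝ) * ((m : ℝ) / (2 * k)) ^ 2 :=
          mul_le_mul (hSle _) h3 (by positivity) hcard.le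
      _ = _ := by field_simp; ring
  have hsum : ∑ k ∈ Finset.Icc 1 (m / 2), F (k : ZMod m)
      ≤ (∑ k ∈ Finset.Icc 1 N₁, ‖S (k : ZMod m)‖) * A ^ 2
        + (Fintype.card ι : ℝ) * ((m : ℝ) ^ 2 / 4) * (N₁ : ℝ)⁻¹ := by
    rw [← Finset.sum_filter_add_sum_filter_not (Finset.Icc 1 (m / 2)) (fun k => k ≤ N₁)]
    refine add_le_add ?_ ?_
    · rw [Finset.sum_mul]
      refine (Finset.sum_le_sum (fun k _ => hb1 k)).trans ?_
      refine Finset.sum_le_sum_of_subset_of_nonneg (fun k hk => ?_) (fun k _ _ => by positivity)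
      rw [Finset.mem_filter, Finset.mem_Icc] at hk
      exact Finset.mem_Icc.2 ⟨hk.1.1, hk.2⟩
    · refine (Finset.sum_le_sum (fun k hk => hb2 k (Finset.mem_filter.1 hk).1)).trans ?_
      rw [← Finset.mul_sum]
      refine mul_le_mul_of_nonneg_left ?_ (by positivity)
      have h1 : ∑ k ∈ (Finset.Icc 1 (m / 2)).filter (fun k => ¬ k ≤ N₁), ((k : ℝ) ^ 2)⁻¹
          ≤ ∑ k ∈ Finset.Ioc N₁ (max N₁ (m / 2)), ((k : ℝ) ^ 2)⁻¹ := by
        refine Finset.sum_le_sum_of_subset_of_nonneg (fun k hk => ?_)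
          (fun k _ _ => by positivity)
        rw [Finset.mem_filter, Finset.mem_Icc] at hk
        exact Finset.mem_Ioc.2 ⟨not_le.1 hk.2, le_max_of_le_right hk.1.2⟩
      refine h1.trans ((sum_Ioc_inv_sq_le_sub hN0.ne' (le_max_left _ _)).trans ?_)
      have : (0 : ℝ) ≤ ((max N₁ (m / 2) : ℕ) : ℝ)⁻¹ := by positivity
      linarith
  have hNr : (m : ℝ) ^ 2 ≤ N₁ * A ^ 2 := by exact_mod_cast hN
  have hlast : (Fintype.card ι : ℝ) * ((m : ℝ) ^ 2 / 4) * (N₁ : ℝ)⁻¹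
      ≤ (Fintype.card ι : ℝ) * (A : ℝ) ^ 2 / 4 := by
    rw [← div_eq_mul_inv, div_le_iff₀ hN0r]
    have := mul_le_mul_of_nonneg_left hNr hcard.le
    nlinarith
  have hfirst : (∑ k ∈ Finset.Icc 1 N₁, ‖S (k : ZMod m)‖) * (A : ℝ) ^ 2
      < (Fintype.card ι : ℝ) / 4 * (A : ℝ) ^ 2 :=
    mul_lt_mul_of_pos_right h (by positivity)
  nlinarith

end Vale.Agent.P012
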