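import Vale.Agent.P012.Defs

open Finset

namespace Vale.Agent.P012

/-- The stage: the exponent `a - a / 100` can be raised to `a` with `2 s` more terms, at a cost of
a factor `2 ^ c` in the denominator, `s c ≤ C (log a) a`. -/
def StageHyp (C a₀ : ℕ) : Prop :=
  ∀ a, a₀ ≤ a → ∀ s, 200 ≤ s → s ≤ 8 * (Nat.log 2 a + 1) →
    ∀ N₀ k₀, Good N₀ k₀ (2 ^ (a - a / 100)) →
      ∃ N₁ c, Good N₁ (k₀ + 2 * s) (2 ^ a) ∧ N₁ ≤ N₀ * 2 ^ c ∧ s * c ≤ C * (Nat.log 2 a + 1) * a

theorem good_factorial (n : ℕ) : Good (Nat.factorial n) 1 n := by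
  refine ⟨Nat.factorial_pos n, fun m hm => ?_⟩
  rcases Nat.eq_zero_or_pos m with h | h
  · subst h
    simpa using SumUF.zero 1
  · exact SumUF.of_dvd (Nat.factorial_pos n) (Nat.dvd_factorial h hm)

theorem induct_real (C a₁ F : ℕ) (hC : 1 ≤ C) (hl34 : 34 ≤ Nat.log 2 a₁) (ha₁ : 1000 ≤ a₁)
    (hF : Nat.factorial (2 ^ a₁) ≤ F) (h : StageHyp C a₁)
    (a : ℕ) : 1 ≤ a → ∀ H : ℝ, (100 * C + F : ℝ) ≤ H →
      ∃ N k : ℕ, Good N k (2 ^ a) ∧ (N : ℝ) ≤ (2 : ℝ) ^ (H * a) ∧
        (k : ℝ) ≤ 1 + 80400 * Real.log a + 100400 * C * (Nat.log 2 a + 1 : ℕ) / H := by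
  induction a using Nat.strong_induction_on with
  | _ a ih =>
    intro ha H hH
    have hCr : (1 : ℝ) ≤ C := by exact_mod_cast hC
    have hfac : (1 : ℝ) ≤ F := by
      have : 1 ≤ F := le_trans (Nat.factorial_pos _) hF
      exact_mod_cast this
    have hHpos : 0 < H := by linarith
    have har : (1 : ℝ) ≤ a := by exact_mod_cast ha
    have hlog0 : 0 ≤ Real.log a := Real.log_nonneg har
    by_cases hlt : a < a₁
    · refine ⟨Nat.factorial (2 ^ a), 1, good_factorial _, ?_, ?_⟩
      · have h1 : Nat.factorial (2 ^ a) ≤ F :=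
          le_trans (Nat.factorial_le (Nat.pow_le_pow_right (by norm_num) hlt.le)) hF
        have h2 : (F : ℝ) ≤ H * a := by
          have : (0 : ℝ) ≤ 100 * C := by positivity
          nlinarith
        have h3 : (F : ℝ) ≤ (2 : ℝ) ^ (F : ℝ) := by
          rw [Real.rpow_natCast]
          exact_mod_cast Nat.lt_two_pow_self.le
        calc (Nat.factorial (2 ^ a) : ℝ) ≤ F := by exact_mod_cast h1
          _ ≤ (2 : ℝ) ^ (F : ℝ) := h3
          _ ≤ (2 : ℝ) ^ (H * a) := Real.rpow_le_rpow_of_exponent_le (by norm_num) h2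
      · have : (0 : ℝ) ≤ 100400 * C * (Nat.log 2 a + 1 : ℕ) / H := by positivity
        push_cast at this ⊢
        linarith
    · push Not at hlt
      set a' := a - a / 100 with ha'
      have hlt' : a' < a := by omega
      have ha'1 : 1 ≤ a' := by omega
      have ha'r : (a' : ℝ) ≤ 0.99 * a + 1 := by
        have : 100 * a' ≤ 99 * a + 99 := by omega
        have : (100 : ℝ) * a' ≤ 99 * a + 99 := by exact_mod_cast this
        linarith
      have ha_big : (1000 : ℝ) ≤ a := by exact_mod_cast ha₁.trans hlt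
      set l := Nat.log 2 a + 1 with hl
      have hl35 : 35 ≤ l := by
        have : 34 ≤ Nat.log 2 a := hl34.trans (Nat.log_mono_right hlt)
        omega
      have hlr : (35 : ℝ) ≤ l := by exact_mod_cast hl35
      obtain ⟨N₀, k₀, g1, g2, g3⟩ := ih a' hlt' ha'1 (1.004 * H) (by nlinarith)
      set s := ⌈200 * C * l / H⌉₊ + 200 with hs
      have hs1 : (200 * C * l / H : ℝ) ≤ s := by
        have := Nat.le_ceil (200 * C * l / H : ℝ)
        rw [hs]
        push_cast
        linarith
      have hs2 : (s : ℝ) ≤ 200 * C * l / H + 201 := by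
        have := Nat.ceil_lt_add_one (show (0 : ℝ) ≤ 200 * C * l / H by positivity)
        rw [hs]
        push_cast
        linarith
      have hratio : (200 * C * l / H : ℝ) ≤ 2 * l := by
        rw [div_le_iff₀ hHpos]
        calc (200 * C * l : ℝ) = 2 * l * (100 * C) := by ring
          _ ≤ 2 * l * H := mul_le_mul_of_nonneg_left (by linarith) (by positivity)
      have hs8 : s ≤ 8 * l := by
        have : (s : ℝ) ≤ ((8 * l : ℕ) : ℝ) := by
          push_cast
          linarith
        exact_mod_cast this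
      obtain ⟨N₁, c, f1, f2, f3⟩ := h a hlt s (by omega) hs8 N₀ k₀ g1
      have hc : (c : ℝ) ≤ H * a / 200 := by
        have f3r : (s : ℝ) * c ≤ C * l * a := by exact_mod_cast f3
        have h1 : (200 * C * l / H : ℝ) * c ≤ C * l * a :=
          (mul_le_mul_of_nonneg_right hs1 (by positivity)).trans f3r
        rw [div_mul_eq_mul_div, div_le_iff₀ hHpos] at h1
        have h2 : (C * l : ℝ) * (200 * c) ≤ (C * l) * (H * a) := by linarith
        have h3 := le_of_mul_le_mul_left h2 (by positivity)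
        linarith
      refine ⟨N₁, k₀ + 2 * s, f1, ?_, ?_⟩
      · calc (N₁ : ℝ) ≤ (N₀ : ℝ) * 2 ^ c := by exact_mod_cast f2
          _ ≤ (2 : ℝ) ^ (1.004 * H * a') * 2 ^ c := by gcongr
          _ = (2 : ℝ) ^ (1.004 * H * a' + c) := by
            rw [Real.rpow_add (by norm_num), Real.rpow_natCast]
          _ ≤ (2 : ℝ) ^ (H * a) := by
            refine Real.rpow_le_rpow_of_exponent_le (by norm_num) ?_
            have h4 : 1.004 * H * a' ≤ 1.004 * H * (0.99 * a + 1) :=
              mul_le_mul_of_nonneg_left ha'r (by positivity)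
            have h5 : H * 1.004 ≤ H * (0.00104 * a) :=
              mul_le_mul_of_nonneg_left (by linarith) hHpos.le
            linarith
      · have hlogaa : Real.log a' ≤ Real.log a - 0.005 := by
          have h5 : (a' : ℝ) ≤ 0.995 * a := by linarith
          have ha'pos : (0 : ℝ) < a' := by exact_mod_cast ha'1
          have h6 : Real.log a' ≤ Real.log (0.995 * a) := Real.log_le_log ha'pos h5
          rw [Real.log_mul (by norm_num) (by linarith)] at h6
          have h7 : Real.log 0.995 ≤ 0.995 - 1 := Real.log_le_sub_one_of_pos (by norm_num)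
          linarith
        have hll : ((Nat.log 2 a' + 1 : ℕ) : ℝ) ≤ l := by
          have : Nat.log 2 a' + 1 ≤ l := by
            rw [hl]
            exact Nat.add_le_add_right (Nat.log_mono_right hlt'.le) 1
          exact_mod_cast this
        have h8 : 100400 * C * ((Nat.log 2 a' + 1 : ℕ) : ℝ) / (1.004 * H)
            ≤ 100000 * (C * l / H) := by
          rw [div_le_iff₀ (by positivity)]
          have : 100000 * (C * l / H) * (1.004 * H) = 100400 * C * l := by
            field_simp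
            ring
          rw [this]
          exact mul_le_mul_of_nonneg_left hll (by positivity)
        have h9 : 200 * C * l / H = 200 * (C * l / H : ℝ) := by ring
        have h10 : 100400 * C * (l : ℝ) / H = 100400 * (C * l / H) := by ring
        rw [h9] at hs2
        push_cast at g3 ⊢
        push_cast at h8 h10
        rw [h10]
        linarith

theorem induct (C a₀ : ℕ) (h : StageHyp C a₀) : ∃ C' : ℕ, ∀ a, 1 ≤ a →
    ∃ N, Good N (C' * (Nat.log 2 a + 1)) (2 ^ a) ∧ N ≤ 2 ^ (C' * a) := by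
  obtain ⟨B, hB1, hB2⟩ : ∃ B : ℕ, 34 ≤ Nat.log 2 B ∧ 1000 ≤ B :=
    ⟨2 ^ 34, (Nat.log_pow (by norm_num) 34).ge, by norm_num⟩
  set C₁ := C + 1 with hC₁
  set a₁ := a₀ + B with ha₁
  have h' : StageHyp C₁ a₁ := by
    intro a ha s hs1 hs2 N₀ k₀ hG
    obtain ⟨N₁, c, f1, f2, f3⟩ := h a (by omega) s hs1 hs2 N₀ k₀ hG
    refine ⟨N₁, c, f1, f2, f3.trans ?_⟩
    gcongr
    omega
  obtain ⟨F, hF⟩ : ∃ F : ℕ, Nat.factorial (2 ^ a₁) ≤ F := ⟨_, le_rfl⟩
  have hfac : 1 ≤ F := le_trans (Nat.factorial_pos _) hF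
  set H := 100 * C₁ + F with hH
  refine ⟨H + 80401 + 100400 * C₁, fun a ha => ?_⟩
  obtain ⟨N, k, g1, g2, g3⟩ := induct_real C₁ a₁ F (by omega)
    (hB1.trans (Nat.log_mono_right (Nat.le_add_left _ _))) (by omega) hF h' a ha (H : ℝ)
    (by rw [hH]; push_cast; exact le_rfl)
  refine ⟨N, g1.mono ?_ le_rfl, ?_⟩
  · set l := Nat.log 2 a + 1 with hl
    have har : (1 : ℝ) ≤ a := by exact_mod_cast ha
    have hlr : (1 : ℝ) ≤ l := by
      have : 1 ≤ l := by omega
      exact_mod_cast this
    have hlog : Real.log a ≤ l := by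
      have h1 : (a : ℝ) ≤ 2 ^ l := by
        have : a < 2 ^ l := Nat.lt_pow_succ_log_self (by norm_num) a
        exact_mod_cast this.le
      have h2 := Real.log_le_log (by linarith) h1
      rw [Real.log_pow] at h2
      have h3 : Real.log 2 ≤ 1 := by
        have := Real.log_two_lt_d9
        linarith
      nlinarith
    have hHr : (1 : ℝ) ≤ H := by
      have : 1 ≤ H := by omega
      exact_mod_cast this
    have h4 : 100400 * C₁ * (l : ℝ) / H ≤ 100400 * C₁ * l :=
      div_le_self (by positivity) hHr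
    have h5 : (k : ℝ) ≤ (((H + 80401 + 100400 * C₁) * l : ℕ) : ℝ) := by
      have h6 : (0 : ℝ) ≤ H * l := by positivity
      push_cast at g3 h4 ⊢
      nlinarith
    exact_mod_cast h5
  · have h1 : (N : ℝ) ≤ (2 : ℝ) ^ (((H * a : ℕ)) : ℝ) := by
      push_cast
      exact g2
    rw [Real.rpow_natCast] at h1
    have h2 : N ≤ 2 ^ (H * a) := by exact_mod_cast h1
    refine h2.trans (Nat.pow_le_pow_right (by norm_num) (Nat.mul_le_mul_right _ (by omega)))

end Vale.Agent.P012
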