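import Vale.Agent.P012.Rung1
import Vale.Agent.P012.Induct

open Finset

namespace Vale.Agent.P012

theorem log_mul_four_pow (a i : ℕ) (ha : 1 ≤ a) : Nat.log 2 (a * 4 ^ i) ≤ Nat.log 2 a + 2 * i := by
  have h1 : a < 2 ^ (Nat.log 2 a + 1) := Nat.lt_pow_succ_log_self (by norm_num) a
  have h2 : a * 4 ^ i < 2 ^ (Nat.log 2 a + 2 * i + 1) := by
    calc a * 4 ^ i < 2 ^ (Nat.log 2 a + 1) * 4 ^ i := Nat.mul_lt_mul_of_pos_right h1 (by positivity)
      _ = 2 ^ (Nat.log 2 a + 1) * 2 ^ (2 * i) := by rw [pow_mul 2 2 i]; norm_num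
      _ = _ := by rw [← pow_add]; congr 1; ring
  have h3 : a * 4 ^ i ≠ 0 := by positivity
  exact Nat.lt_succ_iff.1 ((Nat.log_lt_iff_lt_pow (by norm_num) h3).2 h2)

theorem iterate_fixed {C M0 : ℕ} (h : ∀ M ≥ M0, ∀ N k : ℕ, Good N k M →
    ∃ N' M' R : ℕ, M ^ 2 ≤ M' ∧ M' ≤ M ^ 4 ∧ 0 < R ∧ R ^ 8 ≤ M ∧ N' * M ≤ N * M' * R ∧
      Good N' (k + C * Nat.log 2 (Nat.log 2 M)) M')
    {a C' N₀ k₀ : ℕ} (ha : 1 ≤ a) (hC' : 1 ≤ C') (hM0 : M0 ≤ 2 ^ a)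
    (hG : Good N₀ k₀ (2 ^ a)) (hN : N₀ ≤ 2 ^ (C' * a)) (j : ℕ) :
    ∃ N k M X : ℕ, Good N k M ∧ N ≤ M * X ∧ 2 ≤ X ∧ X ^ 8 ≤ 2 ^ (8 * (C' * a)) * M ∧
      2 ^ (a * 2 ^ j) ≤ M ∧ M ≤ 2 ^ (a * 4 ^ j) ∧ k ≤ k₀ + j * (C * (Nat.log 2 a + 2 * j)) := by
  induction j with
  | zero =>
    refine ⟨N₀, k₀, 2 ^ a, 2 ^ (C' * a), hG, ?_, ?_, ?_, ?_, ?_, by omega⟩
    · exact hN.trans (Nat.le_mul_of_pos_left _ (by positivity))
    · calc 2 = 2 ^ 1 := by norm_num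
        _ ≤ 2 ^ (C' * a) := Nat.pow_le_pow_right (by norm_num) (Nat.mul_pos hC' ha)
    · rw [← pow_mul]
      refine (Nat.pow_le_pow_right (by norm_num) (le_of_eq (by ring))).trans
        (Nat.le_mul_of_pos_right _ (by positivity))
    · simp
    · simp
  | succ j ih =>
    obtain ⟨N, k, M, X, h1, h2, h3, h4, h5, h6, h7⟩ := ih
    have hMM0 : M0 ≤ M := by
      refine hM0.trans (le_trans ?_ h5)
      exact Nat.pow_le_pow_right (by norm_num) (Nat.le_mul_of_pos_right _ (by positivity))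
    obtain ⟨N', M', R, g1, g2, g3, g4, g5, g6⟩ := h M hMM0 N k h1
    have hMpos : 0 < M := lt_of_lt_of_le (by positivity) h5
    refine ⟨N', _, M', X * R, g6, ?_, ?_, ?_, ?_, ?_, ?_⟩
    · refine Nat.le_of_mul_le_mul_right ?_ hMpos
      calc N' * M ≤ N * M' * R := g5
        _ ≤ (M * X) * M' * R := by gcongr
        _ = M' * (X * R) * M := by ring
    · calc 2 ≤ X := h3
        _ ≤ X * R := Nat.le_mul_of_pos_right _ g3
    · calc (X * R) ^ 8 = X ^ 8 * R ^ 8 := by ring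
        _ ≤ (2 ^ (8 * (C' * a)) * M) * M := Nat.mul_le_mul h4 g4
        _ = 2 ^ (8 * (C' * a)) * M ^ 2 := by ring
        _ ≤ _ := Nat.mul_le_mul_left _ g1
    · calc 2 ^ (a * 2 ^ (j + 1)) = (2 ^ (a * 2 ^ j)) ^ 2 := by rw [← pow_mul]; ring_nf
        _ ≤ M ^ 2 := Nat.pow_le_pow_left h5 2
        _ ≤ M' := g1
    · calc M' ≤ M ^ 4 := g2
        _ ≤ (2 ^ (a * 4 ^ j)) ^ 4 := Nat.pow_le_pow_left h6 4
        _ = 2 ^ (a * 4 ^ (j + 1)) := by rw [← pow_mul]; ring_nf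
    · have hl : Nat.log 2 (Nat.log 2 M) ≤ Nat.log 2 a + 2 * j := by
        refine le_trans ?_ (log_mul_four_pow a j ha)
        refine Nat.log_mono_right ?_
        calc Nat.log 2 M ≤ Nat.log 2 (2 ^ (a * 4 ^ j)) := Nat.log_mono_right h6
          _ = a * 4 ^ j := Nat.log_pow (by norm_num) _
      calc k + C * Nat.log 2 (Nat.log 2 M)
          ≤ (k₀ + j * (C * (Nat.log 2 a + 2 * j))) + C * (Nat.log 2 a + 2 * j) :=
            Nat.add_le_add h7 (Nat.mul_le_mul_left _ hl)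
        _ = k₀ + (j + 1) * (C * (Nat.log 2 a + 2 * j)) := by ring
        _ ≤ k₀ + (j + 1) * (C * (Nat.log 2 a + 2 * (j + 1))) := by gcongr; omega

theorem full_nat (C₀ a₀ : ℕ) (h : StageHyp C₀ a₀) : ∃ K b0 : ℕ, ∀ b ≥ b0, ∀ a, 1 ≤ a → a < b →
    ∃ s : Finset ℕ, IsExpansion a b s ∧ s.card ≤ K * Nat.log 2 (Nat.log 2 (b ^ 2)) := by
  obtain ⟨C, M0, hC⟩ := basic_double
  obtain ⟨C₁, hC₁⟩ := induct C₀ a₀ h
  set C' := C₁ + 1 with hC'
  obtain ⟨D, hD⟩ : ∃ D : ℕ, 8 * C' + 8 ≤ 2 ^ D := ⟨8 * C' + 8, Nat.lt_two_pow_self.le⟩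
  refine ⟨4 * C' + 2 * (D * (C * (1 + 2 * D))) + 2 * D + 4, M0 + 4, fun b hb a ha hab => ?_⟩
  set e := Nat.clog 2 b with he
  have hbe : b ≤ 2 ^ e := Nat.le_pow_clog (by norm_num) b
  have he2 : 2 ≤ e := by
    by_contra hc
    have : 2 ^ e ≤ 2 ^ 1 := Nat.pow_le_pow_right (by norm_num) (by omega)
    omega
  obtain ⟨N₀, g1, g2⟩ := hC₁ e (by omega)
  have g1' : Good N₀ (C' * (Nat.log 2 e + 1)) (2 ^ e) :=
    g1.mono (Nat.mul_le_mul_right _ (by omega)) le_rfl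
  have g2' : N₀ ≤ 2 ^ (C' * e) :=
    g2.trans (Nat.pow_le_pow_right (by norm_num) (Nat.mul_le_mul_right _ (by omega)))
  obtain ⟨N, k, M, X, h1, h2, h3, h4, h5, h6, h7⟩ :=
    iterate_fixed hC (a := e) (C' := C') (by omega) (by omega) (by omega) g1' g2' D
  have hMbig : 2 ^ (8 * (C' * e)) * 2 ^ (8 * e) ≤ M := by
    refine le_trans ?_ h5
    rw [← pow_add]
    refine Nat.pow_le_pow_right (by norm_num) ?_
    calc 8 * (C' * e) + 8 * e = e * (8 * C' + 8) := by ring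
      _ ≤ e * 2 ^ D := Nat.mul_le_mul_left _ hD
  have hMpos : 0 < M := lt_of_lt_of_le (by positivity) h5
  have hMX : 2 * b * X ^ 2 ≤ M := by
    have h9 : (2 * b * X ^ 2) ^ 4 ≤ M ^ 4 := by
      calc (2 * b * X ^ 2) ^ 4 = 2 ^ 4 * b ^ 4 * X ^ 8 := by ring
        _ ≤ 2 ^ (4 * e) * (2 ^ e) ^ 4 * (2 ^ (8 * (C' * e)) * M) := by
          gcongr
          · norm_num
          · omega
        _ = (2 ^ (8 * (C' * e)) * 2 ^ (8 * e)) * M := by
          rw [← pow_mul 2 e 4]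
          ring_nf
        _ ≤ M * M := Nat.mul_le_mul_right _ hMbig
        _ = M ^ 2 := by ring
        _ ≤ M ^ 4 := Nat.pow_le_pow_right hMpos (by norm_num)
    exact (Nat.pow_le_pow_iff_left (by norm_num)).1 h9
  have hXM : X ≤ M := by
    have h9 : X ^ 8 ≤ M ^ 8 := by
      calc X ^ 8 ≤ 2 ^ (8 * (C' * e)) * M := h4
        _ ≤ M * M := by
          refine Nat.mul_le_mul_right _ (le_trans ?_ hMbig)
          exact Nat.le_mul_of_pos_right _ (by positivity)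
        _ = M ^ 2 := by ring
        _ ≤ M ^ 8 := Nat.pow_le_pow_right hMpos (by norm_num)
    exact (Nat.pow_le_pow_iff_left (by norm_num)).1 h9
  obtain ⟨s, s1, s2⟩ := assemble h1 h3 h2 hMX ha hab
  refine ⟨s, s1, s2.trans ?_⟩
  have hX : Nat.clog 2 (Nat.clog 2 X) ≤ Nat.log 2 e + 2 * D + 1 := by
    have e1 : Nat.clog 2 X ≤ e * 4 ^ D := by
      refine (Nat.clog_mono_right 2 (hXM.trans h6)).trans (le_of_eq ?_)
      exact Nat.clog_pow 2 _ (by norm_num)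
    refine (Nat.clog_mono_right 2 e1).trans ?_
    have e2 : Nat.clog 2 (e * 4 ^ D) ≤ Nat.log 2 (e * 4 ^ D) + 1 :=
      Nat.clog_le_of_le_pow (Nat.lt_pow_succ_log_self (by norm_num) _).le
    have e3 := log_mul_four_pow e D (by omega)
    omega
  have heb : e ≤ Nat.log 2 (b ^ 2) := by
    have e1 : e ≤ Nat.log 2 b + 1 :=
      Nat.clog_le_of_le_pow (Nat.lt_pow_succ_log_self (by norm_num) _).le
    have e2 : 2 * Nat.log 2 b ≤ Nat.log 2 (b ^ 2) := by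
      refine Nat.le_log_of_pow_le (by norm_num) ?_
      rw [mul_comm, pow_mul]
      exact Nat.pow_le_pow_left (Nat.pow_log_le_self 2 (by omega)) 2
    have e3 : 1 ≤ Nat.log 2 b := Nat.le_log_of_pow_le (by norm_num) (by omega)
    omega
  have hLle : Nat.log 2 e ≤ Nat.log 2 (Nat.log 2 (b ^ 2)) := Nat.log_mono_right heb
  have hL1 : 1 ≤ Nat.log 2 e := Nat.le_log_of_pow_le (by norm_num) (by omega)
  refine le_trans ?_ (Nat.mul_le_mul_left _ hLle)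
  generalize Nat.log 2 e = L at h7 hX hL1 ⊢
  generalize Nat.clog 2 (Nat.clog 2 X) = Y at hX ⊢
  have k1 : D * (C * (L + 2 * D)) ≤ D * (C * (1 + 2 * D)) * L := by
    have : L + 2 * D ≤ (1 + 2 * D) * L := by
      have := Nat.mul_le_mul_left (2 * D) hL1
      rw [Nat.add_mul, one_mul]
      omega
    calc D * (C * (L + 2 * D)) ≤ D * (C * ((1 + 2 * D) * L)) := by gcongr
      _ = _ := by ring
  have k2 : C' * (L + 1) ≤ 2 * (C' * L) := by
    have := Nat.mul_le_mul_left C' hL1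
    rw [Nat.mul_add]
    omega
  have k3 : 2 * D + 3 ≤ (2 * D + 3) * L := Nat.le_mul_of_pos_right _ hL1
  have k4 : (4 * C' + 2 * (D * (C * (1 + 2 * D))) + 2 * D + 4) * L
      = 4 * (C' * L) + 2 * (D * (C * (1 + 2 * D)) * L) + (2 * D + 3) * L + L := by ring
  rw [k4]
  omega

/-- Erdős' bound `N(b) ≪ log log b`, from the stage. -/
theorem full (C₀ a₀ : ℕ) (h : StageHyp C₀ a₀) : ∃ C : ℝ, ∃ b₀ : ℕ, ∀ b ≥ b₀,
    (∀ a, 1 ≤ a → a < b → ∃ s, IsExpansion a b s) ∧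
      (maxTerms b : ℝ) ≤ C * Real.log (Real.log b) := by
  obtain ⟨K, b0, h⟩ := full_nat C₀ a₀ h
  refine ⟨K * 4, b0 + 16, fun b hb => ⟨fun a ha hab => ?_, ?_⟩⟩
  · obtain ⟨s, hs, _⟩ := h b (by omega) a ha hab
    exact ⟨s, hs⟩
  · have h1 : maxTerms b ≤ K * Nat.log 2 (Nat.log 2 (b ^ 2)) := by
      refine Finset.sup_le (fun a ha => ?_)
      rw [Finset.mem_Ico] at ha
      obtain ⟨s, hs, hs2⟩ := h b (by omega) a ha.1 ha.2
      exact (minTerms_le hs).trans hs2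
    have h2 := log_log_le (b := b) (by omega)
    calc (maxTerms b : ℝ) ≤ ((K * Nat.log 2 (Nat.log 2 (b ^ 2)) : ℕ) : ℝ) := by
          exact_mod_cast h1
      _ = K * (Nat.log 2 (Nat.log 2 (b ^ 2)) : ℝ) := by push_cast; ring
      _ ≤ K * (4 * Real.log (Real.log b)) := by gcongr
      _ = _ := by ring

end Vale.Agent.P012
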