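import Mathlib

namespace Vale.Agent.P012

open Finset

/-- signed residue of `Δ * y` modulo `m` -/
def del {m : ℕ} (Δ : ℤ) (y : ZMod m) : ℤ := ((Δ : ZMod m) * y).valMinAbs

/-- the integer `(Δ * y - del Δ y) / m` -/
def quo {m : ℕ} (Δ : ℤ) (y : ZMod m) : ℤ := (Δ * (y.val : ℤ) - del Δ y) / (m : ℤ)

theorem quo_spec {m : ℕ} [NeZero m] (Δ : ℤ) (y : ZMod m) :
    (m : ℤ) * quo Δ y = Δ * (y.val : ℤ) - del Δ y := by
  unfold quo
  apply Int.mul_ediv_cancel'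
  rw [← ZMod.intCast_zmod_eq_zero_iff_dvd]
  push_cast
  simp [del, ZMod.coe_valMinAbs]

theorem abs_del_le {m : ℕ} [NeZero m] (Δ : ℤ) (y : ZMod m) : 2 * |del Δ y| ≤ (m : ℤ) := by
  have := ZMod.valMinAbs_mem_Ioc ((Δ : ZMod m) * y)
  unfold del
  rw [Set.mem_Ioc] at this
  obtain ⟨h1, h2⟩ := this
  rcases abs_cases (((Δ : ZMod m) * y).valMinAbs) with ⟨h, _⟩ | ⟨h, _⟩ <;> rw [h] <;> linarith

theorem abs_quo_le {m : ℕ} [NeZero m] (Δ : ℤ) (y : ZMod m) : |quo Δ y| ≤ |Δ| + 1 := by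
  have h1 := quo_spec Δ y
  have h2 := abs_del_le Δ y
  have hm : (0 : ℤ) < m := by exact_mod_cast NeZero.pos m
  have hy : (y.val : ℤ) < m := by exact_mod_cast ZMod.val_lt y
  have hy0 : (0 : ℤ) ≤ y.val := by positivity
  have h3 : (m : ℤ) * |quo Δ y| ≤ (m : ℤ) * (|Δ| + 1) := by
    calc (m : ℤ) * |quo Δ y| = |(m : ℤ) * quo Δ y| := by rw [abs_mul, abs_of_pos hm]
      _ = |Δ * (y.val : ℤ) - del Δ y| := by rw [h1]
      _ ≤ |Δ * (y.val : ℤ)| + |del Δ y| := abs_sub _ _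
      _ = |Δ| * (y.val : ℤ) + |del Δ y| := by rw [abs_mul, abs_of_nonneg hy0]
      _ ≤ |Δ| * m + m := by
          have : |Δ| * (y.val : ℤ) ≤ |Δ| * m := mul_le_mul_of_nonneg_left hy.le (abs_nonneg _)
          have h4 : 0 ≤ |del Δ y| := abs_nonneg _
          linarith
      _ = (m : ℤ) * (|Δ| + 1) := by ring
  exact le_of_mul_le_mul_left h3 hm

/-- transfer of `del` under multiplication by `w`. -/
theorem del_mul {m : ℕ} [NeZero m] (w : ℕ) (Δ : ℤ) (x h : ZMod m) (hx : (w : ZMod m) * x = h)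
    (hs : 2 * ((w : ℤ) * |del Δ x|) < m) : del Δ h = w * del Δ x := by
  unfold del at *
  rw [ZMod.valMinAbs_spec]
  constructor
  · rw [← hx]
    push_cast
    ring
  · rw [Set.mem_Ioc]
    have h1 := neg_abs_le (((Δ : ZMod m) * x).valMinAbs)
    have h2 := le_abs_self (((Δ : ZMod m) * x).valMinAbs)
    have hw : (0 : ℤ) ≤ w := by positivity
    constructor <;> nlinarith

theorem quo_mul {m : ℕ} [NeZero m] (w : ℕ) (x h : ZMod m) (hx : (w : ZMod m) * x = h) :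
    ∃ k : ℤ, ∀ Δ : ℤ, 2 * ((w : ℤ) * |del Δ x|) < m → quo Δ h = w * quo Δ x - k * Δ := by
  have hm : (m : ℤ) ≠ 0 := by exact_mod_cast NeZero.ne m
  have : (m : ℤ) ∣ (w : ℤ) * (x.val : ℤ) - (h.val : ℤ) := by
    rw [← ZMod.intCast_zmod_eq_zero_iff_dvd]
    push_cast
    simp [hx]
  obtain ⟨k, hk⟩ := this
  refine ⟨k, fun Δ hs => ?_⟩
  have h1 := quo_spec Δ h
  have h2 := quo_spec Δ x
  have h3 := del_mul w Δ x h hx hs
  apply mul_left_cancel₀ hm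
  rw [h1, h3]
  have : (h.val : ℤ) = (w : ℤ) * (x.val : ℤ) - m * k := by linarith
  rw [this]
  linear_combination (-(w : ℤ)) * h2

/-- number of pairs with small signed residue -/
noncomputable def Phi {m : ℕ} (A : Finset ℕ) (E : ℝ) (x : ZMod m) : ℕ :=
  ((A ×ˢ A).filter (fun p => |((((p.1 : ZMod m) - (p.2 : ZMod m)) * x).valMinAbs : ℝ)| ≤ E)).card

/-- off-diagonal pairs with `(d - d') h = 0` -/
def bad {m : ℕ} (A : Finset ℕ) (h : ZMod m) : ℕ :=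
  ((A ×ˢ A).filter (fun p => p.1 ≠ p.2 ∧ ((p.1 : ZMod m) - (p.2 : ZMod m)) * h = 0)).card

/-- pairs with `q ∣ d - d'` and `0 < |d - d'| ≤ B q` -/
noncomputable def near (A : Finset ℕ) (B : ℝ) (q : ℕ) : ℕ :=
  ((A ×ˢ A).filter (fun p => p.1 ≠ p.2 ∧ (q : ℤ) ∣ ((p.1 : ℤ) - (p.2 : ℤ)) ∧
    |((p.1 : ℝ) - (p.2 : ℝ))| ≤ B * q)).card

theorem card_diag_le (A : Finset ℕ) :
    ((A ×ˢ A).filter (fun p => p.1 = p.2)).card ≤ A.card := by
  apply Finset.card_le_card_of_injOn (fun p => p.1)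
  · intro p hp
    simp only [coe_filter, mem_product, Set.mem_ofPred_eq] at hp
    exact hp.1.1
  · rintro ⟨a, b⟩ h1 ⟨c, d⟩ h2 h
    simp only [coe_filter, mem_product, Set.mem_ofPred_eq] at h1 h2 h
    simp only [Prod.mk.injEq]
    exact ⟨h, by rw [← h1.2, ← h2.2, h]⟩

/-- For a fixed nonzero `Δ₂`, the number of pairs `p` with `quo Δ₁ * Δ₂ = quo Δ₂ * Δ₁`. -/
theorem fixed_pair_bound {m : ℕ} [NeZero m] (A : Finset ℕ) (h : ZMod m) (B : ℝ) (F : ℕ)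
    (hF : ∀ q : ℕ, 0 < q → near A B q ≤ F) (Δ₂ a₂ : ℤ) (hΔ₂ : Δ₂ ≠ 0) :
    ((A ×ˢ A).filter (fun p => quo ((p.1 : ℤ) - p.2) h * Δ₂ = a₂ * ((p.1 : ℤ) - p.2) ∧
      (|del ((p.1 : ℤ) - p.2) h| : ℝ) ≤ B)).card ≤ A.card + bad A h + F := by
  classical
  -- reduced fraction
  set g : ℤ := ((Int.gcd a₂ Δ₂ : ℕ) : ℤ) with hg
  have hg0 : (g : ℤ) ≠ 0 := by
    rw [hg]
    have := Int.gcd_pos_of_ne_zero_right a₂ hΔ₂
    exact_mod_cast this.ne'
  obtain ⟨p', hp'⟩ : g ∣ a₂ := Int.gcd_dvd_left ..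
  obtain ⟨q', hq'⟩ : g ∣ Δ₂ := Int.gcd_dvd_right ..
  have hq0 : q' ≠ 0 := by
    rintro rfl
    apply hΔ₂
    rw [hq']; ring
  have hcop : IsCoprime q' p' := by
    rw [Int.isCoprime_iff_gcd_eq_one]
    have h1 : Int.gcd a₂ Δ₂ ≠ 0 := by
      intro h0; apply hg0; rw [hg, h0]; rfl
    have h2 : Int.gcd a₂ Δ₂ = Int.gcd a₂ Δ₂ * Int.gcd p' q' := by
      conv_lhs => rw [hp', hq', Int.gcd_mul_left]
      rw [hg]; simp
    have h3 : Int.gcd p' q' = 1 := by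
      have : Int.gcd a₂ Δ₂ * 1 = Int.gcd a₂ Δ₂ * Int.gcd p' q' := by rw [mul_one]; exact h2
      exact (Nat.eq_of_mul_eq_mul_left (Nat.pos_of_ne_zero h1) this).symm
    rw [Int.gcd_comm]; exact h3
  have hm : (m : ℤ) ≠ 0 := by exact_mod_cast NeZero.ne m
  have hsub : ((A ×ˢ A).filter (fun p => quo ((p.1 : ℤ) - p.2) h * Δ₂ = a₂ * ((p.1 : ℤ) - p.2) ∧
      (|del ((p.1 : ℤ) - p.2) h| : ℝ) ≤ B)) ⊆
      ((A ×ˢ A).filter (fun p => p.1 = p.2)) ∪
      ((A ×ˢ A).filter (fun p => p.1 ≠ p.2 ∧ ((p.1 : ZMod m) - (p.2 : ZMod m)) * h = 0)) ∪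
      ((A ×ˢ A).filter (fun p => p.1 ≠ p.2 ∧ ((q'.natAbs : ℕ) : ℤ) ∣ ((p.1 : ℤ) - (p.2 : ℤ)) ∧
        |((p.1 : ℝ) - (p.2 : ℝ))| ≤ B * (q'.natAbs : ℕ))) := by
    rintro ⟨d, d'⟩ hp
    simp only [mem_filter, mem_union, mem_product] at hp ⊢
    obtain ⟨⟨hd, hd'⟩, heq, hdel⟩ := hp
    by_cases hdd : d = d'
    · left; left; exact ⟨⟨hd, hd'⟩, hdd⟩
    by_cases hz : ((d : ZMod m) - (d' : ZMod m)) * h = 0
    · left; right; exact ⟨⟨hd, hd'⟩, hdd, hz⟩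
    right
    refine ⟨⟨hd, hd'⟩, hdd, ?_⟩
    set Δ : ℤ := (d : ℤ) - d' with hΔ
    -- a₁ q' = p' Δ
    have e1 : quo Δ h * q' = p' * Δ := by
      have : g * (quo Δ h * q') = g * (p' * Δ) := by
        calc g * (quo Δ h * q') = quo Δ h * (g * q') := by ring
          _ = quo Δ h * Δ₂ := by rw [← hq']
          _ = a₂ * Δ := heq
          _ = (g * p') * Δ := by rw [← hp']
          _ = g * (p' * Δ) := by ring
      exact mul_left_cancel₀ hg0 this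
    have hdvd : q' ∣ Δ := by
      apply hcop.dvd_of_dvd_mul_left
      exact ⟨quo Δ h, by linarith⟩
    refine ⟨by rw [Int.natCast_natAbs, abs_dvd]; exact hdvd, ?_⟩
    obtain ⟨t, ht⟩ := hdvd
    have e2 : quo Δ h = p' * t := by
      have : q' * quo Δ h = q' * (p' * t) := by
        calc q' * quo Δ h = quo Δ h * q' := by ring
          _ = p' * Δ := e1
          _ = q' * (p' * t) := by rw [ht]; ring
      exact mul_left_cancel₀ hq0 this
    have e3 : del Δ h = t * (q' * (h.val : ℤ) - p' * m) := by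
      have := quo_spec Δ h
      rw [e2] at this
      have h5 : del Δ h = Δ * (h.val : ℤ) - m * (p' * t) := by linarith
      rw [h5, ht]; ring
    set z : ℤ := q' * (h.val : ℤ) - p' * m with hzdef
    have hz0 : z ≠ 0 := by
      intro h0
      apply hz
      have : del Δ h = 0 := by rw [e3, h0, mul_zero]
      unfold del at this
      rw [ZMod.valMinAbs_eq_zero] at this
      rw [← this, hΔ]
      push_cast
      ring
    have e4 : |t| ≤ |del Δ h| := by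
      rw [e3, abs_mul]
      have : (1 : ℤ) ≤ |z| := Int.one_le_abs hz0
      nlinarith [abs_nonneg t]
    have e5 : |((d : ℝ) - (d' : ℝ))| = ((q'.natAbs : ℕ) : ℝ) * |(t : ℝ)| := by
      have : ((d : ℝ) - (d' : ℝ)) = ((q' * t : ℤ) : ℝ) := by
        rw [← ht, hΔ]; push_cast; ring
      rw [this]
      push_cast
      rw [abs_mul]
      congr 1
      rw [← Int.cast_abs, Nat.cast_natAbs]
    rw [e5, mul_comm]
    apply mul_le_mul_of_nonneg_right _ (by positivity)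
    calc |(t : ℝ)| = ((|t| : ℤ) : ℝ) := by rw [Int.cast_abs]
      _ ≤ ((|del Δ h| : ℤ) : ℝ) := by exact_mod_cast e4
      _ = |(del Δ h : ℝ)| := by rw [Int.cast_abs]
      _ ≤ B := hdel
  calc _ ≤ _ := Finset.card_le_card hsub
    _ ≤ _ := Finset.card_union_le _ _
    _ ≤ A.card + bad A h + F := by
        apply Nat.add_le_add
        · refine (Finset.card_union_le _ _).trans ?_
          apply Nat.add_le_add (card_diag_le A) le_rfl
        · exact hF q'.natAbs (Int.natAbs_pos.2 hq0)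

end Vale.Agent.P012
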