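import Vale.Agent.P012.LemmaE

namespace Vale.Agent.P012

open Finset

theorem Phi_eq {m : ℕ} (A : Finset ℕ) (E : ℝ) (x : ZMod m) :
    Phi A E x = ((A ×ˢ A).filter (fun p => (|del ((p.1 : ℤ) - p.2) x| : ℝ) ≤ E)).card := by
  unfold Phi del
  congr 1
  apply Finset.filter_congr
  intro p _
  push_cast
  rfl

theorem bad_pairs_bound {m : ℕ} [NeZero m] (A : Finset ℕ) (h : ZMod m) (B : ℝ) (F : ℕ)
    (hF : ∀ q : ℕ, 0 < q → near A B q ≤ F) :
    (((A ×ˢ A) ×ˢ (A ×ˢ A)).filter (fun P =>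
      quo ((P.1.1 : ℤ) - P.1.2) h * ((P.2.1 : ℤ) - P.2.2)
        = quo ((P.2.1 : ℤ) - P.2.2) h * ((P.1.1 : ℤ) - P.1.2) ∧
      (|del ((P.1.1 : ℤ) - P.1.2) h| : ℝ) ≤ B)).card
      ≤ 2 * A.card ^ 3 + A.card ^ 2 * (bad A h + F) := by
  classical
  rw [Finset.card_filter, Finset.sum_product_right]
  have h1 : ∀ p ∈ (A ×ˢ A), (∑ x ∈ A ×ˢ A, if (quo ((x.1 : ℤ) - x.2) h * ((p.1 : ℤ) - p.2)
        = quo ((p.1 : ℤ) - p.2) h * ((x.1 : ℤ) - x.2) ∧
      (|del ((x.1 : ℤ) - x.2) h| : ℝ) ≤ B) then 1 else 0) ≤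
      (if p.1 = p.2 then A.card ^ 2 else 0) + (A.card + bad A h + F) := by
    intro p hp
    rw [← Finset.card_filter]
    by_cases hpp : p.1 = p.2
    · rw [if_pos hpp]
      calc _ ≤ (A ×ˢ A).card := Finset.card_filter_le _ _
        _ = A.card ^ 2 := by rw [Finset.card_product, sq]
        _ ≤ _ := Nat.le_add_right _ _
    · rw [if_neg hpp, zero_add]
      have hΔ : ((p.1 : ℤ) - p.2) ≠ 0 := by
        intro h0
        apply hpp
        have : (p.1 : ℤ) = p.2 := by linarith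
        exact_mod_cast this
      exact fixed_pair_bound A h B F hF _ _ hΔ
  calc _ ≤ ∑ p ∈ A ×ˢ A, ((if p.1 = p.2 then A.card ^ 2 else 0) + (A.card + bad A h + F)) :=
        Finset.sum_le_sum h1
    _ = ((A ×ˢ A).filter (fun p => p.1 = p.2)).card * A.card ^ 2
        + A.card ^ 2 * (A.card + bad A h + F) := by
        rw [Finset.sum_add_distrib, ← Finset.sum_filter, Finset.sum_const, Finset.sum_const,
          Finset.card_product, smul_eq_mul, smul_eq_mul]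
        ring
    _ ≤ A.card * A.card ^ 2 + A.card ^ 2 * (A.card + bad A h + F) := by
        gcongr
        exact card_diag_le A
    _ = _ := by ring

/-- second moment bound over the multipliers `w` -/
theorem sum_Phi_sq {m : ℕ} [NeZero m] (A : Finset ℕ) (R : ℕ) (hA : ∀ d ∈ A, d ≤ R)
    (h : ZMod m) (W : Finset ℕ) (V : ℕ) (E B : ℝ) (hE : 0 ≤ E) (hVE : 2 * (V * E) < m)
    (hB : V * E ≤ B) (hW : ∀ w ∈ W, w ≤ V) (L : ℕ)
    (hL : ∀ z : ℤ, z ≠ 0 → |z| ≤ 2 * R * (R + 1) → (W.filter (fun w : ℕ => (w : ℤ) ∣ z)).card ≤ L)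
    (F : ℕ) (hF : ∀ q : ℕ, 0 < q → near A B q ≤ F) (x : ℕ → ZMod m)
    (hx : ∀ w ∈ W, (w : ZMod m) * x w = h) :
    ∑ w ∈ W, (Phi A E (x w)) ^ 2 ≤
      W.card * (2 * A.card ^ 3 + A.card ^ 2 * (bad A h + F)) + L * A.card ^ 4 := by
  classical
  set PP := (A ×ˢ A) ×ˢ (A ×ˢ A) with hPP
  have hcard : PP.card = A.card ^ 4 := by
    rw [hPP, Finset.card_product, Finset.card_product]; ring
  have e1 : ∀ w ∈ W, (Phi A E (x w)) ^ 2 = ∑ P ∈ PP,
      (if (|del ((P.1.1 : ℤ) - P.1.2) (x w)| : ℝ) ≤ E ∧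
        (|del ((P.2.1 : ℤ) - P.2.2) (x w)| : ℝ) ≤ E then 1 else 0) := by
    intro w _
    rw [Phi_eq, sq, ← Finset.card_product, ← Finset.card_filter]
    congr 1
    ext P
    simp only [mem_product, mem_filter, hPP]
    tauto
  rw [Finset.sum_congr rfl e1, Finset.sum_comm]
  -- bound for each P
  have e2 : ∀ P ∈ PP, (∑ w ∈ W, (if (|del ((P.1.1 : ℤ) - P.1.2) (x w)| : ℝ) ≤ E ∧
        (|del ((P.2.1 : ℤ) - P.2.2) (x w)| : ℝ) ≤ E then 1 else 0)) ≤
      (if (quo ((P.1.1 : ℤ) - P.1.2) h * ((P.2.1 : ℤ) - P.2.2)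
        = quo ((P.2.1 : ℤ) - P.2.2) h * ((P.1.1 : ℤ) - P.1.2) ∧
      (|del ((P.1.1 : ℤ) - P.1.2) h| : ℝ) ≤ B) then W.card else 0) + L := by
    intro P hP
    rw [← Finset.card_filter]
    set Δ₁ : ℤ := (P.1.1 : ℤ) - P.1.2 with hΔ₁
    set Δ₂ : ℤ := (P.2.1 : ℤ) - P.2.2 with hΔ₂
    -- facts for each good w
    have hfact : ∀ w ∈ W, (|del Δ₁ (x w)| : ℝ) ≤ E → (|del Δ₂ (x w)| : ℝ) ≤ E →
        ((w : ℤ) ∣ quo Δ₁ h * Δ₂ - quo Δ₂ h * Δ₁) ∧ (|del Δ₁ h| : ℝ) ≤ B := by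
      intro w hw h1 h2
      have hwV : (w : ℝ) ≤ V := by exact_mod_cast hW w hw
      have small : ∀ Δ : ℤ, (|del Δ (x w)| : ℝ) ≤ E → 2 * ((w : ℤ) * |del Δ (x w)|) < m := by
        intro Δ hΔ
        have : ((2 * ((w : ℤ) * |del Δ (x w)|) : ℤ) : ℝ) < ((m : ℤ) : ℝ) := by
          push_cast
          have h0 : (0 : ℝ) ≤ |(del Δ (x w) : ℝ)| := abs_nonneg _
          have hw0 : (0 : ℝ) ≤ w := by positivity
          nlinarith
        exact_mod_cast this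
      obtain ⟨k, hk⟩ := quo_mul w (x w) h (hx w hw)
      have k1 := hk Δ₁ (small _ h1)
      have k2 := hk Δ₂ (small _ h2)
      constructor
      · rw [k1, k2]
        exact ⟨quo Δ₁ (x w) * Δ₂ - quo Δ₂ (x w) * Δ₁, by ring⟩
      · rw [del_mul w Δ₁ (x w) h (hx w hw) (small _ h1)]
        push_cast
        rw [abs_mul]
        have hw0 : (0 : ℝ) ≤ w := by positivity
        rw [abs_of_nonneg hw0]
        calc (w : ℝ) * |(del Δ₁ (x w) : ℝ)| ≤ V * E := by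
              apply mul_le_mul hwV h1 (abs_nonneg _) (by positivity)
          _ ≤ B := hB
    by_cases hz : quo Δ₁ h * Δ₂ - quo Δ₂ h * Δ₁ = 0
    · by_cases hd : (|del Δ₁ h| : ℝ) ≤ B
      · rw [if_pos ⟨by linarith, hd⟩]
        exact (Finset.card_filter_le _ _).trans (Nat.le_add_right _ _)
      · -- no w at all
        have : (W.filter (fun w => (|del Δ₁ (x w)| : ℝ) ≤ E ∧ (|del Δ₂ (x w)| : ℝ) ≤ E)) = ∅ := by
          apply Finset.filter_eq_empty_iff.2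
          intro w hw hcon
          exact hd (hfact w hw hcon.1 hcon.2).2
        rw [this]
        simp
    · have hle : (W.filter (fun w => (|del Δ₁ (x w)| : ℝ) ≤ E ∧ (|del Δ₂ (x w)| : ℝ) ≤ E)).card
          ≤ (W.filter (fun w : ℕ => (w : ℤ) ∣ quo Δ₁ h * Δ₂ - quo Δ₂ h * Δ₁)).card := by
        apply Finset.card_le_card
        intro w hw
        simp only [mem_filter] at hw ⊢
        exact ⟨hw.1, (hfact w hw.1 hw.2.1 hw.2.2).1⟩
      refine hle.trans ((hL _ hz ?_).trans (Nat.le_add_left _ _))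
      -- size bound
      simp only [hPP, mem_product] at hP
      have b1 : (P.1.1 : ℤ) ≤ R := by exact_mod_cast hA _ hP.1.1
      have b2 : (P.1.2 : ℤ) ≤ R := by exact_mod_cast hA _ hP.1.2
      have b3 : (P.2.1 : ℤ) ≤ R := by exact_mod_cast hA _ hP.2.1
      have b4 : (P.2.2 : ℤ) ≤ R := by exact_mod_cast hA _ hP.2.2
      have c1 : |Δ₁| ≤ R := by rw [abs_le]; constructor <;> (rw [hΔ₁]; omega)
      have c2 : |Δ₂| ≤ R := by rw [abs_le]; constructor <;> (rw [hΔ₂]; omega)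
      have d1 := abs_quo_le Δ₁ h
      have d2 := abs_quo_le Δ₂ h
      have hR : (0 : ℤ) ≤ R := by positivity
      calc |quo Δ₁ h * Δ₂ - quo Δ₂ h * Δ₁| ≤ |quo Δ₁ h * Δ₂| + |quo Δ₂ h * Δ₁| := abs_sub _ _
        _ = |quo Δ₁ h| * |Δ₂| + |quo Δ₂ h| * |Δ₁| := by rw [abs_mul, abs_mul]
        _ ≤ (R + 1) * R + (R + 1) * R := by
            apply add_le_add
            · exact mul_le_mul (by linarith) c2 (abs_nonneg _) (by linarith)
            · exact mul_le_mul (by linarith) c1 (abs_nonneg _) (by linarith)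
        _ = 2 * R * (R + 1) := by ring
  calc _ ≤ ∑ P ∈ PP, ((if (quo ((P.1.1 : ℤ) - P.1.2) h * ((P.2.1 : ℤ) - P.2.2)
        = quo ((P.2.1 : ℤ) - P.2.2) h * ((P.1.1 : ℤ) - P.1.2) ∧
      (|del ((P.1.1 : ℤ) - P.1.2) h| : ℝ) ≤ B) then W.card else 0) + L) :=
        Finset.sum_le_sum e2
    _ = (PP.filter (fun P => quo ((P.1.1 : ℤ) - P.1.2) h * ((P.2.1 : ℤ) - P.2.2)
        = quo ((P.2.1 : ℤ) - P.2.2) h * ((P.1.1 : ℤ) - P.1.2) ∧
      (|del ((P.1.1 : ℤ) - P.1.2) h| : ℝ) ≤ B)).card * W.card + L * A.card ^ 4 := by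
        rw [Finset.sum_add_distrib, ← Finset.sum_filter, Finset.sum_const, Finset.sum_const,
          hcard, smul_eq_mul, smul_eq_mul]
        ring
    _ ≤ (2 * A.card ^ 3 + A.card ^ 2 * (bad A h + F)) * W.card + L * A.card ^ 4 := by
        gcongr
        exact bad_pairs_bound A h B F hF
    _ = _ := by ring

end Vale.Agent.P012
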