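import Vale.Agent.P012.LemmaE

namespace Vale.Agent.P012

open Finset

theorem sum_powerset_pairs {ι : Type*} [DecidableEq ι] (x : ℝ) (J : Finset ι) :
    ∑ S ∈ J.powerset, ∑ S' ∈ J.powerset, x ^ (S \ S').card = (3 + x) ^ J.card := by
  induction J using Finset.induction_on with
  | empty => simp
  | insert a J ha ih =>
    rw [Finset.sum_powerset_insert ha, Finset.card_insert_of_notMem ha, pow_succ, ← ih]
    have e1 : ∀ S ∈ J.powerset, (∑ S' ∈ (insert a J).powerset, x ^ (S \ S').card)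
        = 2 * ∑ S' ∈ J.powerset, x ^ (S \ S').card := by
      intro S hS
      rw [Finset.sum_powerset_insert ha, two_mul]
      congr 1
      apply Finset.sum_congr rfl
      intro S' hS'
      rw [Finset.mem_powerset] at hS hS'
      have : S \ insert a S' = S \ S' := by
        ext b
        simp only [mem_sdiff, mem_insert, not_or]
        constructor
        · rintro ⟨h1, _, h3⟩; exact ⟨h1, h3⟩
        · rintro ⟨h1, h3⟩
          exact ⟨h1, fun h => ha (h ▸ hS h1), h3⟩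
      rw [this]
    have e2 : ∀ S ∈ J.powerset, (∑ S' ∈ (insert a J).powerset, x ^ (insert a S \ S').card)
        = (1 + x) * ∑ S' ∈ J.powerset, x ^ (S \ S').card := by
      intro S hS
      rw [Finset.sum_powerset_insert ha, Finset.mul_sum, ← Finset.sum_add_distrib]
      apply Finset.sum_congr rfl
      intro S' hS'
      rw [Finset.mem_powerset] at hS hS'
      have haS : a ∉ S := fun h => ha (hS h)
      have haS' : a ∉ S' := fun h => ha (hS' h)
      have h1 : (insert a S \ S').card = (S \ S').card + 1 := by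
        rw [Finset.insert_sdiff_of_notMem _ haS', Finset.card_insert_of_notMem]
        simp [haS]
      have h2 : insert a S \ insert a S' = S \ S' := by
        ext b
        simp only [mem_sdiff, mem_insert, not_or]
        constructor
        · rintro ⟨h1 | h1, h2, h3⟩
          · exact absurd h1 h2
          · exact ⟨h1, h3⟩
        · rintro ⟨h1, h3⟩
          exact ⟨Or.inr h1, fun h => haS (h ▸ h1), h3⟩
      rw [h1, h2]
      ring
    rw [Finset.sum_congr rfl e1, Finset.sum_congr rfl e2, ← Finset.mul_sum, ← Finset.mul_sum]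
    ring

theorem card_few_diff {ι : Type*} [DecidableEq ι] (J : Finset ι) (k : ℕ) :
    (((J.powerset ×ˢ J.powerset).filter (fun P => (P.1 \ P.2).card ≤ k)).card : ℝ)
      ≤ 16 ^ k * (49 / 16) ^ J.card := by
  have h := sum_powerset_pairs (1 / 16 : ℝ) J
  have e : (3 + 1 / 16 : ℝ) = 49 / 16 := by norm_num
  rw [e] at h
  rw [← h, ← Finset.sum_product', Finset.mul_sum]
  rw [Finset.card_filter]
  push_cast
  apply Finset.sum_le_sum
  intro P _
  split_ifs with hP
  · have h1 : (16 : ℝ) ^ k * (1 / 16) ^ (P.1 \ P.2).card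
        = 16 ^ (k - (P.1 \ P.2).card) := by
      have : (16 : ℝ) ^ k = 16 ^ (k - (P.1 \ P.2).card) * 16 ^ (P.1 \ P.2).card := by
        rw [← pow_add, Nat.sub_add_cancel hP]
      rw [this, mul_assoc, ← mul_pow]
      norm_num
    rw [h1]
    exact one_le_pow₀ (by norm_num)
  · positivity

/-- product over a set of indices -/
def dprod {ι : Type*} (T : ι → ℕ) (S : Finset ι) : ℕ := ∏ i ∈ S, T i

theorem dprod_inj {ι : Type*} [DecidableEq ι] (T : ι → ℕ) (I : Finset ι)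
    (hp : ∀ i ∈ I, (T i).Prime) (hinj : Set.InjOn T (I : Set ι)) {S S' : Finset ι}
    (hS : S ⊆ I) (hS' : S' ⊆ I) (h : dprod T S = dprod T S') : S = S' := by
  have key : ∀ U U' : Finset ι, U ⊆ I → U' ⊆ I → dprod T U = dprod T U' → U ⊆ U' := by
    intro U U' hU hU' hUU i hi
    have h1 : T i ∣ dprod T U' := by
      rw [← hUU]; exact Finset.dvd_prod_of_mem T hi
    obtain ⟨j, hj, hij⟩ := (Nat.Prime.prime (hp i (hU hi))).exists_mem_finset_dvd h1
    have h2 : T i = T j :=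
      (Nat.prime_dvd_prime_iff_eq (hp i (hU hi)) (hp j (hU' hj))).1 hij
    have h3 : i = j := hinj (hU hi) (hU' hj) h2
    rw [h3]; exact hj
  exact Finset.Subset.antisymm (key S S' hS hS' h) (key S' S hS' hS h.symm)

theorem dprod_pos {ι : Type*} (T : ι → ℕ) (S : Finset ι) (hp : ∀ i ∈ S, 0 < T i) :
    0 < dprod T S := Finset.prod_pos hp

theorem dprod_coprime {ι : Type*} (T : ι → ℕ) (I : Finset ι)
    (hp : ∀ i ∈ I, (T i).Prime) (hinj : Set.InjOn T (I : Set ι)) {S S' : Finset ι}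
    (hS : S ⊆ I) (hS' : S' ⊆ I) (hd : Disjoint S S') : Nat.Coprime (dprod T S) (dprod T S') := by
  apply Nat.Coprime.prod_left
  intro i hi
  apply Nat.Coprime.prod_right
  intro j hj
  rw [Nat.coprime_primes (hp i (hS hi)) (hp j (hS' hj))]
  intro h
  have : i = j := hinj (hS hi) (hS' hj) h
  subst this
  exact Finset.disjoint_left.1 hd hi hj

theorem dprod_le_pow {ι : Type*} (T : ι → ℕ) (S : Finset ι) (Y : ℕ) (h : ∀ i ∈ S, T i ≤ Y) :
    dprod T S ≤ Y ^ S.card := by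
  unfold dprod
  exact Finset.prod_le_pow_card S T Y h

theorem pow_le_dprod {ι : Type*} (T : ι → ℕ) (S : Finset ι) (y : ℕ) (h : ∀ i ∈ S, y ≤ T i) :
    y ^ S.card ≤ dprod T S := by
  unfold dprod
  exact Finset.pow_card_le_prod S T y h

/-- spread second components force a unique first ratio -/
theorem unique_ratio {ι : Type*} [DecidableEq ι] (T : ι → ℕ) (I₁ I₂ : Finset ι)
    (hp : ∀ i ∈ I₁ ∪ I₂, (T i).Prime)
    (hinj : Set.InjOn T ((I₁ ∪ I₂ : Finset ι) : Set ι)) (Y : ℕ) (hY : ∀ i ∈ I₁, T i ≤ Y)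
    (B : ℝ) (hB : 0 ≤ B) (q : ℕ) (hq : 0 < q) {S₂ S₂' : Finset ι} (hS₂ : S₂ ⊆ I₂) (hS₂' : S₂' ⊆ I₂)
    (hspread : 2 * B * (Y : ℝ) ^ I₁.card < dprod T (S₂ \ S₂')) (hY1 : 1 ≤ Y)
    {S₁ S₁' U₁' : Finset ι} (hS₁ : S₁ ⊆ I₁) (hS₁' : S₁' ⊆ I₁) (hU₁' : U₁' ⊆ I₁)
    (h1 : (q : ℤ) ∣ ((dprod T S₁ * dprod T S₂ : ℕ) : ℤ) - ((dprod T S₁' * dprod T S₂' : ℕ) : ℤ))
    (h1' : |((dprod T S₁ * dprod T S₂ : ℕ) : ℝ) - ((dprod T S₁' * dprod T S₂' : ℕ) : ℝ)| ≤ B * q)
    (h2 : (q : ℤ) ∣ ((dprod T S₁ * dprod T S₂ : ℕ) : ℤ) - ((dprod T U₁' * dprod T S₂' : ℕ) : ℤ))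
    (h2' : |((dprod T S₁ * dprod T S₂ : ℕ) : ℝ) - ((dprod T U₁' * dprod T S₂' : ℕ) : ℝ)| ≤ B * q) :
    S₁' = U₁' := by
  have hpos : ∀ S : Finset ι, S ⊆ I₁ ∪ I₂ → 0 < dprod T S := fun S hS =>
    dprod_pos T S fun i hi => (hp i (hS hi)).pos
  have sub1 : ∀ {S : Finset ι}, S ⊆ I₁ → S ⊆ I₁ ∪ I₂ := fun h => h.trans subset_union_left
  have sub2 : ∀ {S : Finset ι}, S ⊆ I₂ → S ⊆ I₁ ∪ I₂ := fun h => h.trans subset_union_right
  by_contra hne
  have hne' : dprod T S₁' ≠ dprod T U₁' := fun h =>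
    hne (dprod_inj T (I₁ ∪ I₂) hp hinj (sub1 hS₁') (sub1 hU₁') h)
  -- factor d₂ = g a, d₂' = g b
  set g := dprod T (S₂ ∩ S₂') with hg
  set a := dprod T (S₂ \ S₂') with ha
  set b := dprod T (S₂' \ S₂) with hb
  have hd2 : dprod T S₂ = g * a := by
    rw [hg, ha]; unfold dprod
    rw [mul_comm, ← Finset.prod_sdiff (s₁ := S₂ ∩ S₂') (s₂ := S₂) inter_subset_left]
    congr 1
    rw [Finset.sdiff_inter_self_left]
  have hd2' : dprod T S₂' = g * b := by
    rw [hg, hb]; unfold dprod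
    rw [mul_comm, ← Finset.prod_sdiff (s₁ := S₂ ∩ S₂') (s₂ := S₂') inter_subset_right]
    congr 1
    rw [Finset.inter_comm, Finset.sdiff_inter_self_left]
  have hcop : Nat.Coprime a b := dprod_coprime T (I₁ ∪ I₂) hp hinj
    (sub2 (sdiff_subset.trans hS₂)) (sub2 (sdiff_subset.trans hS₂'))
    (Finset.disjoint_left.2 fun i hi hi' => by
      simp only [mem_sdiff] at hi hi'; exact hi.2 hi'.1)
  obtain ⟨δ, hδ⟩ := h1
  obtain ⟨δ', hδ'⟩ := h2
  have hqR : (0 : ℝ) < q := by exact_mod_cast hq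
  have bδ : |(δ : ℝ)| ≤ B := by
    have : ((dprod T S₁ * dprod T S₂ : ℕ) : ℝ) - ((dprod T S₁' * dprod T S₂' : ℕ) : ℝ)
        = q * δ := by exact_mod_cast hδ
    rw [this, abs_mul, abs_of_pos hqR, mul_comm] at h1'
    exact le_of_mul_le_mul_right h1' hqR
  have bδ' : |(δ' : ℝ)| ≤ B := by
    have : ((dprod T S₁ * dprod T S₂ : ℕ) : ℝ) - ((dprod T U₁' * dprod T S₂' : ℕ) : ℝ)
        = q * δ' := by exact_mod_cast hδ'
    rw [this, abs_mul, abs_of_pos hqR, mul_comm] at h2'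
    exact le_of_mul_le_mul_right h2' hqR
  set d1 : ℤ := (dprod T S₁ : ℤ) with hd1
  set d1' : ℤ := (dprod T S₁' : ℤ) with hd1'
  set e1' : ℤ := (dprod T U₁' : ℤ) with he1'
  have hδz : d1 * (g * a : ℤ) - d1' * (g * b) = q * δ := by
    rw [← hδ, hd2, hd2']; push_cast; ring
  have hδz' : d1 * (g * a : ℤ) - e1' * (g * b) = q * δ' := by
    rw [← hδ', hd2, hd2']; push_cast; ring
  have hg0 : (g : ℤ) ≠ 0 := by
    have := hpos (S₂ ∩ S₂') (sub2 (inter_subset_left.trans hS₂))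
    rw [← hg] at this
    exact_mod_cast this.ne'
  have ha0 : (a : ℤ) ≠ 0 := by
    have := hpos (S₂ \ S₂') (sub2 (sdiff_subset.trans hS₂))
    rw [← ha] at this
    exact_mod_cast this.ne'
  have hd10 : d1 ≠ 0 := by
    have := hpos S₁ (sub1 hS₁)
    rw [hd1]; exact_mod_cast this.ne'
  have hdiff : e1' - d1' ≠ 0 := by
    intro h0
    apply hne'
    have : e1' = d1' := by linarith
    rw [hd1', he1'] at this
    exact_mod_cast this.symm
  -- identities
  have id1 : (d1 * (e1' - d1')) * (g * a : ℤ) = (δ * e1' - δ' * d1') * q := by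
    linear_combination e1' * hδz - d1' * hδz'
  have id2 : (d1 * (e1' - d1')) * (g * b : ℤ) = ((δ - δ') * d1) * q := by
    linear_combination d1 * hδz - d1 * hδz'
  set X : ℤ := δ * e1' - δ' * d1' with hX
  have hX0 : X ≠ 0 := by
    intro h0
    rw [h0, zero_mul] at id1
    have := mul_ne_zero (mul_ne_zero hd10 hdiff) (mul_ne_zero hg0 ha0)
    exact this id1
  have hq0 : (q : ℤ) ≠ 0 := by exact_mod_cast hq.ne'
  have id3 : X * b = ((δ - δ') * d1) * a := by
    have hne0 : (g : ℤ) * q ≠ 0 := mul_ne_zero hg0 hq0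
    apply mul_left_cancel₀ hne0
    linear_combination (-(g : ℤ) * b) * id1 + ((g : ℤ) * a) * id2
  have hdvd : (a : ℤ) ∣ X := by
    have hc : IsCoprime (a : ℤ) (b : ℤ) := by exact_mod_cast (Nat.isCoprime_iff_coprime.2 hcop)
    apply hc.dvd_of_dvd_mul_right
    exact ⟨(δ - δ') * d1, by rw [id3]; ring⟩
  have hle : (a : ℤ) ≤ |X| := by
    have := Int.le_of_dvd (abs_pos.2 hX0) ((dvd_abs _ _).2 hdvd)
    exact this
  have hXb : (|X| : ℝ) ≤ 2 * B * (Y : ℝ) ^ I₁.card := by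
    have u1 : (dprod T U₁' : ℝ) ≤ (Y : ℝ) ^ I₁.card := by
      have : dprod T U₁' ≤ Y ^ I₁.card :=
        (dprod_le_pow T U₁' Y fun i hi => hY i (hU₁' hi)).trans
          (Nat.pow_le_pow_right hY1 (Finset.card_le_card hU₁'))
      exact_mod_cast this
    have u2 : (dprod T S₁' : ℝ) ≤ (Y : ℝ) ^ I₁.card := by
      have : dprod T S₁' ≤ Y ^ I₁.card :=
        (dprod_le_pow T S₁' Y fun i hi => hY i (hS₁' hi)).trans
          (Nat.pow_le_pow_right hY1 (Finset.card_le_card hS₁'))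
      exact_mod_cast this
    rw [hX, hd1', he1']
    push_cast
    calc |(δ : ℝ) * (dprod T U₁' : ℝ) - δ' * (dprod T S₁' : ℝ)|
        ≤ |(δ : ℝ) * (dprod T U₁' : ℝ)| + |(δ' : ℝ) * (dprod T S₁' : ℝ)| := abs_sub _ _
      _ = |(δ : ℝ)| * (dprod T U₁' : ℝ) + |(δ' : ℝ)| * (dprod T S₁' : ℝ) := by
          rw [abs_mul, abs_mul, Nat.abs_cast, Nat.abs_cast]
      _ ≤ B * (Y : ℝ) ^ I₁.card + B * (Y : ℝ) ^ I₁.card := by
          apply add_le_add
          · exact mul_le_mul bδ u1 (Nat.cast_nonneg _) hB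
          · exact mul_le_mul bδ' u2 (Nat.cast_nonneg _) hB
      _ = _ := by ring
  have : ((a : ℤ) : ℝ) ≤ ((|X| : ℤ) : ℝ) := by exact_mod_cast hle
  push_cast at this
  have h3 : (a : ℝ) ≤ 2 * B * (Y : ℝ) ^ I₁.card := this.trans hXb
  linarith


/-- the structured set -/
def dset {ι : Type*} [DecidableEq ι] (T : ι → ℕ) (I : Finset ι) : Finset ℕ :=
  I.powerset.image (dprod T)

theorem card_dset {ι : Type*} [DecidableEq ι] (T : ι → ℕ) (I : Finset ι)
    (hp : ∀ i ∈ I, (T i).Prime) (hinj : Set.InjOn T (I : Set ι)) :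
    (dset T I).card = 2 ^ I.card := by
  unfold dset
  rw [Finset.card_image_of_injOn, Finset.card_powerset]
  intro S hS S' hS' h
  simp only [coe_powerset, Set.mem_preimage, Set.mem_powerset_iff, coe_subset] at hS hS'
  exact dprod_inj T I hp hinj hS hS' h

theorem near_bound {ι : Type*} [DecidableEq ι] (T : ι → ℕ) (I₁ I₂ : Finset ι)
    (hdisj : Disjoint I₁ I₂) (hp : ∀ i ∈ I₁ ∪ I₂, (T i).Prime)
    (hinj : Set.InjOn T ((I₁ ∪ I₂ : Finset ι) : Set ι)) (Y y : ℕ) (hY : ∀ i ∈ I₁, T i ≤ Y)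
    (hy : ∀ i ∈ I₂, y ≤ T i) (hY1 : 1 ≤ Y) (hy1 : 1 ≤ y)
    (B : ℝ) (hB : 0 ≤ B) (k : ℕ) (hspread : 2 * B * (Y : ℝ) ^ I₁.card < (y : ℝ) ^ (k + 1))
    (q : ℕ) (hq : 0 < q) :
    (near (dset T (I₁ ∪ I₂)) B q : ℝ) ≤ 2 ^ I₁.card * 4 ^ I₂.card
      + 4 ^ I₁.card * (16 ^ k * (49 / 16) ^ I₂.card) := by
  classical
  -- pairs of subsets
  set C : (Finset ι × Finset ι) → (Finset ι × Finset ι) → Prop := fun P P' =>
    (q : ℤ) ∣ ((dprod T P.1 * dprod T P'.1 : ℕ) : ℤ) - ((dprod T P.2 * dprod T P'.2 : ℕ) : ℤ) ∧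
    |((dprod T P.1 * dprod T P'.1 : ℕ) : ℝ) - ((dprod T P.2 * dprod T P'.2 : ℕ) : ℝ)| ≤ B * q
    with hC
  set P₁ := I₁.powerset ×ˢ I₁.powerset with hP₁
  set P₂ := I₂.powerset ×ˢ I₂.powerset with hP₂
  have hsplit : ∀ S ⊆ I₁ ∪ I₂, dprod T S = dprod T (S ∩ I₁) * dprod T (S ∩ I₂) := by
    intro S hS
    unfold dprod
    rw [← Finset.prod_union]
    · congr 1
      rw [← Finset.inter_union_distrib_left, Finset.inter_eq_left.2 hS]
    · exact Finset.disjoint_of_subset_left inter_subset_right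
        (Finset.disjoint_of_subset_right inter_subset_right hdisj)
  have step1 : near (dset T (I₁ ∪ I₂)) B q ≤ ((P₁ ×ˢ P₂).filter (fun R => C R.1 R.2)).card := by
    unfold near
    have : ((dset T (I₁ ∪ I₂) ×ˢ dset T (I₁ ∪ I₂)).filter (fun p => p.1 ≠ p.2 ∧
        (q : ℤ) ∣ ((p.1 : ℤ) - (p.2 : ℤ)) ∧ |((p.1 : ℝ) - (p.2 : ℝ))| ≤ B * q)) ⊆
        ((P₁ ×ˢ P₂).filter (fun R => C R.1 R.2)).image
          (fun R => (dprod T R.1.1 * dprod T R.2.1, dprod T R.1.2 * dprod T R.2.2)) := by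
      rintro ⟨d, d'⟩ hp'
      simp only [dset, mem_filter, mem_product, mem_image, mem_powerset] at hp'
      obtain ⟨⟨⟨S, hS, rfl⟩, ⟨S', hS', rfl⟩⟩, _, h2, h3⟩ := hp'
      rw [Finset.mem_image]
      refine ⟨((S ∩ I₁, S' ∩ I₁), (S ∩ I₂, S' ∩ I₂)), ?_, ?_⟩
      · simp only [hP₁, hP₂, mem_filter, mem_product, mem_powerset, hC]
        rw [← hsplit S hS, ← hsplit S' hS']
        exact ⟨⟨⟨inter_subset_right, inter_subset_right⟩, inter_subset_right,
          inter_subset_right⟩, h2, h3⟩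
      · simp only
        rw [← hsplit S hS, ← hsplit S' hS']
    exact (Finset.card_le_card this).trans Finset.card_image_le
  have step2 : ∀ P' ∈ P₂, ((P₁.filter (fun P => C P P')).card : ℝ) ≤
      2 ^ I₁.card + (if (P'.1 \ P'.2).card ≤ k then (4 : ℝ) ^ I₁.card else 0) := by
    intro P' hP'
    simp only [hP₂, mem_product, mem_powerset] at hP'
    split_ifs with hk
    · have : (P₁.filter (fun P => C P P')).card ≤ 4 ^ I₁.card := by
        calc _ ≤ P₁.card := Finset.card_filter_le _ _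
          _ = 4 ^ I₁.card := by
            rw [hP₁, Finset.card_product, Finset.card_powerset, ← mul_pow]; norm_num
      have h2 : ((P₁.filter (fun P => C P P')).card : ℝ) ≤ 4 ^ I₁.card := by exact_mod_cast this
      have h3 : (0 : ℝ) ≤ 2 ^ I₁.card := by positivity
      linarith
    · rw [add_zero]
      have hle : (P₁.filter (fun P => C P P')).card ≤ (I₁.powerset).card := by
        apply Finset.card_le_card_of_injOn (fun P => P.1)
        · intro P hP
          simp only [hP₁, coe_filter, mem_product, Set.mem_ofPred_eq] at hP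
          exact hP.1.1
        · rintro ⟨S₁, S₁'⟩ hP ⟨U₁, U₁'⟩ hQ heq
          simp only [hP₁, coe_filter, mem_product, Set.mem_ofPred_eq, mem_powerset, hC] at hP hQ heq
          subst heq
          have hsp : 2 * B * (Y : ℝ) ^ I₁.card < dprod T (P'.1 \ P'.2) := by
            refine hspread.trans_le ?_
            have h1 : y ^ (k + 1) ≤ dprod T (P'.1 \ P'.2) :=
              (Nat.pow_le_pow_right hy1 (by omega)).trans
                (pow_le_dprod T _ y fun i hi => hy i (hP'.1 (mem_sdiff.1 hi).1))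
            exact_mod_cast h1
          have := unique_ratio T I₁ I₂ hp hinj Y hY B hB q hq hP'.1 hP'.2 hsp hY1
            hP.1.1 hP.1.2 hQ.1.2 hP.2.1 hP.2.2 hQ.2.1 hQ.2.2
          rw [this]
      rw [Finset.card_powerset] at hle
      exact_mod_cast hle
  have step3 : (((P₁ ×ˢ P₂).filter (fun R => C R.1 R.2)).card : ℝ)
      = ∑ P' ∈ P₂, ((P₁.filter (fun P => C P P')).card : ℝ) := by
    rw [Finset.card_filter, Finset.sum_product_right]
    push_cast
    apply Finset.sum_congr rfl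
    intro P' _
    rw [Finset.card_filter]
    push_cast
    rfl
  calc (near (dset T (I₁ ∪ I₂)) B q : ℝ)
      ≤ (((P₁ ×ˢ P₂).filter (fun R => C R.1 R.2)).card : ℝ) := by exact_mod_cast step1
    _ = ∑ P' ∈ P₂, ((P₁.filter (fun P => C P P')).card : ℝ) := step3
    _ ≤ ∑ P' ∈ P₂, (2 ^ I₁.card + (if (P'.1 \ P'.2).card ≤ k then (4 : ℝ) ^ I₁.card else 0)) :=
        Finset.sum_le_sum step2
    _ = P₂.card * 2 ^ I₁.card
        + 4 ^ I₁.card * ((P₂.filter (fun P' => (P'.1 \ P'.2).card ≤ k)).card : ℝ) := by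
        rw [Finset.sum_add_distrib, Finset.sum_const, nsmul_eq_mul, ← Finset.sum_filter,
          Finset.sum_const, nsmul_eq_mul]
        ring
    _ ≤ _ := by
        have h1 : (P₂.card : ℝ) = 4 ^ I₂.card := by
          rw [hP₂, Finset.card_product, Finset.card_powerset]
          push_cast
          rw [← mul_pow]; norm_num
        rw [h1]
        have h2 := card_few_diff I₂ k
        have h3 : (0 : ℝ) ≤ 4 ^ I₁.card := by positivity
        have := mul_le_mul_of_nonneg_left h2 h3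
        rw [hP₂]
        linarith

end Vale.Agent.P012
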