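import Vale.Agent.P012.LemmaF

namespace Vale.Agent.P012

open Finset

/-- indices whose prime does not divide `m` -/
def Im {K : ℕ} (m : ℕ) (T : Fin K → ℕ) : Finset (Fin K) :=
  Finset.univ.filter (fun i => ¬ T i ∣ m)

theorem dprod_inj_of_disjoint {K : ℕ} (P : Fin K → Finset ℕ)
    (hprime : ∀ i, ∀ p ∈ P i, p.Prime) (hdisj : ∀ i j, i ≠ j → Disjoint (P i) (P j))
    {T T' : Fin K → ℕ} (hT : ∀ i, T i ∈ P i) (hT' : ∀ i, T' i ∈ P i) (A : Finset (Fin K))
    (h : dprod T A = dprod T' A) : ∀ i ∈ A, T i = T' i := by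
  intro i hi
  have h1 : T i ∣ dprod T' A := by rw [← h]; exact Finset.dvd_prod_of_mem T hi
  obtain ⟨j, hj, hij⟩ := (Nat.Prime.prime (hprime i _ (hT i))).exists_mem_finset_dvd h1
  have h2 : T i = T' j :=
    (Nat.prime_dvd_prime_iff_eq (hprime i _ (hT i)) (hprime j _ (hT' j))).1 hij
  have h3 : i = j := by
    by_contra hne
    exact Finset.disjoint_left.1 (hdisj i j hne) (hT i) (h2 ▸ hT' j)
  rw [h2, h3]

theorem injOn_of_disjoint {K : ℕ} (P : Fin K → Finset ℕ)
    (hdisj : ∀ i j, i ≠ j → Disjoint (P i) (P j))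
    {T : Fin K → ℕ} (hT : ∀ i, T i ∈ P i) : Function.Injective T := by
  intro i j hij
  by_contra hne
  exact Finset.disjoint_left.1 (hdisj i j hne) (hT i) (hij ▸ hT j)

theorem count_aux {K : ℕ} (P : Fin K → Finset ℕ) (P0 Y : ℕ)
    (hcard : ∀ i, (P i).card = P0) (hprime : ∀ i, ∀ p ∈ P i, p.Prime)
    (hY : ∀ i, ∀ p ∈ P i, p ≤ Y)
    (hdisj : ∀ i j, i ≠ j → Disjoint (P i) (P j)) (q r : ℕ) (hr : Y ^ r ≤ q)
    (S S' : Finset (Fin K)) (hA : r ≤ (S \ S').card) :
    (((Fintype.piFinset P).filter (fun T => (∀ i ∈ S ∪ S', Nat.Coprime (T i) q) ∧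
      (q : ℤ) ∣ (dprod T S : ℤ) - (dprod T S' : ℤ))).card) * P0 ^ r ≤ P0 ^ K := by
  classical
  obtain ⟨A, hAS, hAr⟩ := Finset.exists_subset_card_eq hA
  have hrK : r ≤ K := by
    calc r = A.card := hAr.symm
      _ ≤ Fintype.card (Fin K) := Finset.card_le_univ A
      _ = K := Fintype.card_fin K
  have hle : ((Fintype.piFinset P).filter (fun T => (∀ i ∈ S ∪ S', Nat.Coprime (T i) q) ∧
      (q : ℤ) ∣ (dprod T S : ℤ) - (dprod T S' : ℤ))).card ≤
      (Fintype.piFinset (fun i => if i ∈ A then ({0} : Finset ℕ) else P i)).card := by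
    apply Finset.card_le_card_of_injOn (fun T i => if i ∈ A then 0 else T i)
    · intro T hT
      simp only [coe_filter, Fintype.mem_piFinset, Set.mem_ofPred_eq] at hT
      simp only [Fintype.coe_piFinset, Set.mem_pi, Set.mem_univ, forall_const, mem_coe]
      intro i
      by_cases hi : i ∈ A
      · simp [hi]
      · simp [hi, hT.1 i]
    · intro T hT T' hT' heq
      simp only [coe_filter, Fintype.mem_piFinset, Set.mem_ofPred_eq] at hT hT'
      have hout : ∀ i, i ∉ A → T i = T' i := by
        intro i hi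
        have := congrFun heq i
        simpa [hi] using this
      obtain ⟨hTP, hTc, hTd⟩ := hT
      obtain ⟨hTP', hTc', hTd'⟩ := hT'
      have hASS : A ⊆ S := hAS.trans sdiff_subset
      have sp : ∀ U : Fin K → ℕ, dprod U S = dprod U A * dprod U (S \ A) := by
        intro U
        unfold dprod
        rw [mul_comm, Finset.prod_sdiff hASS]
      have x1 : dprod T (S \ A) = dprod T' (S \ A) := by
        unfold dprod
        apply Finset.prod_congr rfl
        intro i hi
        exact hout i (mem_sdiff.1 hi).2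
      have x2 : dprod T S' = dprod T' S' := by
        unfold dprod
        apply Finset.prod_congr rfl
        intro i hi
        apply hout
        intro hiA
        exact (mem_sdiff.1 (hAS hiA)).2 hi
      have hxc : Nat.Coprime (dprod T (S \ A)) q := by
        apply Nat.Coprime.prod_left
        intro i hi
        exact hTc i (mem_union_left _ (mem_sdiff.1 hi).1)
      have hd : (q : ℤ) ∣ ((dprod T A : ℤ) - (dprod T' A : ℤ)) * (dprod T (S \ A) : ℤ) := by
        have h3 := dvd_sub hTd hTd'
        have : ((dprod T A : ℤ) - (dprod T' A : ℤ)) * (dprod T (S \ A) : ℤ)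
            = ((dprod T S : ℤ) - (dprod T S' : ℤ)) - ((dprod T' S : ℤ) - (dprod T' S' : ℤ)) := by
          rw [sp T, sp T', ← x1, x2]
          push_cast
          ring
        rw [this]; exact h3
      have hd2 : (q : ℤ) ∣ ((dprod T A : ℤ) - (dprod T' A : ℤ)) := by
        have hc : IsCoprime (q : ℤ) (dprod T (S \ A) : ℤ) := by
          exact_mod_cast Nat.isCoprime_iff_coprime.2 hxc.symm
        exact hc.dvd_of_dvd_mul_right hd
      have bnd : ∀ U : Fin K → ℕ, (∀ i, U i ∈ P i) → 1 ≤ dprod U A ∧ dprod U A ≤ q := by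
        intro U hU
        constructor
        · exact dprod_pos U A fun i _ => (hprime i _ (hU i)).pos
        · calc dprod U A ≤ Y ^ A.card := dprod_le_pow U A Y fun i _ => hY i _ (hU i)
            _ = Y ^ r := by rw [hAr]
            _ ≤ q := hr
      have e := Int.eq_zero_of_abs_lt_dvd hd2 (by
        have b1 := bnd T hTP
        have b2 := bnd T' hTP'
        rw [abs_lt]; constructor <;> omega)
      have e2 : dprod T A = dprod T' A := by
        have : (dprod T A : ℤ) = (dprod T' A : ℤ) := by linarith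
        exact_mod_cast this
      have e3 := dprod_inj_of_disjoint P hprime hdisj hTP hTP' A e2
      funext i
      by_cases hi : i ∈ A
      · exact e3 i hi
      · exact hout i hi
  have hc2 : (Fintype.piFinset (fun i => if i ∈ A then ({0} : Finset ℕ) else P i)).card
      = P0 ^ (K - r) := by
    rw [Fintype.card_piFinset]
    have : ∀ i, (if i ∈ A then ({0} : Finset ℕ) else P i).card = if i ∈ A then 1 else P0 := by
      intro i
      split_ifs <;> simp [hcard]
    simp_rw [this]
    rw [Finset.prod_ite]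
    simp only [prod_const_one, one_mul, prod_const]
    congr 1
    have : (Finset.univ.filter (fun i => i ∉ A)).card = (Aᶜ).card := by
      congr 1
      ext i; simp
    rw [this, Finset.card_compl, hAr, Fintype.card_fin]
  calc _ ≤ P0 ^ (K - r) * P0 ^ r := Nat.mul_le_mul_right _ (hle.trans hc2.le)
    _ = P0 ^ K := by rw [← pow_add, Nat.sub_add_cancel hrK]

theorem count_div {K : ℕ} (P : Fin K → Finset ℕ) (P0 Y : ℕ)
    (hcard : ∀ i, (P i).card = P0) (hprime : ∀ i, ∀ p ∈ P i, p.Prime)
    (hY : ∀ i, ∀ p ∈ P i, p ≤ Y)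
    (hdisj : ∀ i j, i ≠ j → Disjoint (P i) (P j)) (q r : ℕ) (hr : Y ^ r ≤ q)
    (hY1 : 1 < Y)
    (S S' : Finset (Fin K)) (hS : S ≠ S') :
    (((Fintype.piFinset P).filter (fun T => (∀ i ∈ S ∪ S', Nat.Coprime (T i) q) ∧
      (q : ℤ) ∣ (dprod T S : ℤ) - (dprod T S' : ℤ))).card) * P0 ^ r ≤ P0 ^ K := by
  classical
  by_cases hA : r ≤ (S \ S').card
  · exact count_aux P P0 Y hcard hprime hY hdisj q r hr S S' hA
  by_cases hA' : r ≤ (S' \ S).card
  · have := count_aux P P0 Y hcard hprime hY hdisj q r hr S' S hA'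
    refine le_trans (le_of_eq ?_) this
    congr 2
    apply Finset.filter_congr
    intro T _
    rw [Finset.union_comm, ← dvd_neg, neg_sub]
  push Not at hA hA'
  have hempty : ((Fintype.piFinset P).filter (fun T => (∀ i ∈ S ∪ S', Nat.Coprime (T i) q) ∧
      (q : ℤ) ∣ (dprod T S : ℤ) - (dprod T S' : ℤ))) = ∅ := by
    apply Finset.filter_eq_empty_iff.2
    intro T hT hcon
    rw [Fintype.mem_piFinset] at hT
    obtain ⟨hc, hd⟩ := hcon
    have sp : ∀ U U' : Finset (Fin K), dprod T U = dprod T (U ∩ U') * dprod T (U \ U') := by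
      intro U U'
      unfold dprod
      rw [mul_comm, ← Finset.prod_sdiff (s₁ := U ∩ U') (s₂ := U) inter_subset_left]
      congr 1
      rw [Finset.sdiff_inter_self_left]
    have e1 := sp S S'
    have e2 := sp S' S
    rw [Finset.inter_comm] at e2
    have hcop : Nat.Coprime (dprod T (S ∩ S')) q := by
      apply Nat.Coprime.prod_left
      intro i hi
      exact hc i (mem_union_left _ (mem_inter.1 hi).1)
    have hd2 : (q : ℤ) ∣ (dprod T (S \ S') : ℤ) - (dprod T (S' \ S) : ℤ) := by
      have hc2 : IsCoprime (q : ℤ) (dprod T (S ∩ S') : ℤ) := by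
        exact_mod_cast Nat.isCoprime_iff_coprime.2 hcop.symm
      apply hc2.dvd_of_dvd_mul_left
      have : (dprod T (S ∩ S') : ℤ) * ((dprod T (S \ S') : ℤ) - (dprod T (S' \ S) : ℤ))
          = (dprod T S : ℤ) - (dprod T S' : ℤ) := by
        rw [e1, e2]; push_cast; ring
      rw [this]; exact hd
    have bnd : ∀ U : Finset (Fin K), U.card < r → 1 ≤ dprod T U ∧ dprod T U < q := by
      intro U hU
      constructor
      · exact dprod_pos T U fun i _ => (hprime i _ (hT i)).pos
      · calc dprod T U ≤ Y ^ U.card := dprod_le_pow T U Y fun i _ => hY i _ (hT i)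
          _ < Y ^ r := Nat.pow_lt_pow_right hY1 hU
          _ ≤ q := hr
    have e := Int.eq_zero_of_abs_lt_dvd hd2 (by
        have b1 := bnd _ hA
        have b2 := bnd _ hA'
        rw [abs_lt]; constructor <;> omega)
    have e3 : dprod T (S \ S') = dprod T (S' \ S) := by
      have : (dprod T (S \ S') : ℤ) = (dprod T (S' \ S) : ℤ) := by linarith
      exact_mod_cast this
    have hTinj : Function.Injective T := injOn_of_disjoint P hdisj hT
    have e4 : S \ S' = S' \ S := dprod_inj T Finset.univ (fun i _ => hprime i _ (hT i))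
      (hTinj.injOn) (subset_univ _) (subset_univ _) e3
    apply hS
    ext i
    constructor
    · intro hi
      by_contra hi'
      have : i ∈ S' \ S := e4 ▸ mem_sdiff.2 ⟨hi, hi'⟩
      exact hi' (mem_sdiff.1 this).1
    · intro hi
      by_contra hi'
      have : i ∈ S \ S' := e4 ▸ mem_sdiff.2 ⟨hi, hi'⟩
      exact hi' (mem_sdiff.1 this).1
  rw [hempty]
  simp

/-- average over `T` of the number of bad pairs -/
theorem sum_bad {K : ℕ} (P : Fin K → Finset ℕ) (P0 Y : ℕ)
    (hcard : ∀ i, (P i).card = P0) (hprime : ∀ i, ∀ p ∈ P i, p.Prime)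
    (hY : ∀ i, ∀ p ∈ P i, p ≤ Y)
    (hdisj : ∀ i j, i ≠ j → Disjoint (P i) (P j)) (m : ℕ) [NeZero m] (h : ZMod m) (r : ℕ)
    (hr : Y ^ r ≤ addOrderOf h) (hY1 : 1 < Y) :
    (∑ T ∈ Fintype.piFinset P, bad (dset T (Im m T)) h) * P0 ^ r ≤ 4 ^ K * P0 ^ K := by
  classical
  set q := addOrderOf h with hq
  have hqm : q ∣ m := by
    rw [hq]
    have := addOrderOf_dvd_card (x := h)
    simpa using this
  have step : ∀ T ∈ Fintype.piFinset P, bad (dset T (Im m T)) h ≤
      ∑ R ∈ (Finset.univ : Finset (Finset (Fin K) × Finset (Fin K))).filter (fun R => R.1 ≠ R.2),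
        (if ((∀ i ∈ R.1 ∪ R.2, Nat.Coprime (T i) q) ∧
          (q : ℤ) ∣ (dprod T R.1 : ℤ) - (dprod T R.2 : ℤ)) then 1 else 0) := by
    intro T hT
    rw [Fintype.mem_piFinset] at hT
    rw [← Finset.card_filter, Finset.filter_filter]
    unfold bad
    have hsub : ((dset T (Im m T) ×ˢ dset T (Im m T)).filter (fun p => p.1 ≠ p.2 ∧
        ((p.1 : ZMod m) - (p.2 : ZMod m)) * h = 0)) ⊆
        ((Finset.univ : Finset (Finset (Fin K) × Finset (Fin K))).filter (fun R => R.1 ≠ R.2 ∧
          ((∀ i ∈ R.1 ∪ R.2, Nat.Coprime (T i) q) ∧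
          (q : ℤ) ∣ (dprod T R.1 : ℤ) - (dprod T R.2 : ℤ)))).image
          (fun R => (dprod T R.1, dprod T R.2)) := by
      rintro ⟨d, d'⟩ hp
      simp only [dset, mem_filter, mem_product, mem_image, mem_powerset] at hp
      obtain ⟨⟨⟨S, hS, rfl⟩, ⟨S', hS', rfl⟩⟩, hne, h0⟩ := hp
      rw [Finset.mem_image]
      refine ⟨(S, S'), ?_, rfl⟩
      simp only [mem_filter, mem_univ, true_and]
      refine ⟨fun he => hne (by rw [he]), ?_, ?_⟩
      · intro i hi
        have hiI : i ∈ Im m T := by
          rcases mem_union.1 hi with hi | hi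
          · exact hS hi
          · exact hS' hi
        have : ¬ T i ∣ m := by simpa [Im] using hiI
        rw [Nat.Prime.coprime_iff_not_dvd (hprime i _ (hT i))]
        intro hdvd
        exact this (hdvd.trans hqm)
      · rw [hq, addOrderOf_dvd_iff_zsmul_eq_zero, zsmul_eq_mul]
        push_cast
        exact h0
    exact (Finset.card_le_card hsub).trans Finset.card_image_le
  calc (∑ T ∈ Fintype.piFinset P, bad (dset T (Im m T)) h) * P0 ^ r
      ≤ (∑ T ∈ Fintype.piFinset P, ∑ R ∈ (Finset.univ : Finset (Finset (Fin K) ×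
        Finset (Fin K))).filter (fun R => R.1 ≠ R.2),
        (if ((∀ i ∈ R.1 ∪ R.2, Nat.Coprime (T i) q) ∧
          (q : ℤ) ∣ (dprod T R.1 : ℤ) - (dprod T R.2 : ℤ)) then 1 else 0)) * P0 ^ r :=
        Nat.mul_le_mul_right _ (Finset.sum_le_sum step)
    _ = ∑ R ∈ (Finset.univ : Finset (Finset (Fin K) ×
        Finset (Fin K))).filter (fun R => R.1 ≠ R.2),
        ((Fintype.piFinset P).filter (fun T => (∀ i ∈ R.1 ∪ R.2, Nat.Coprime (T i) q) ∧
          (q : ℤ) ∣ (dprod T R.1 : ℤ) - (dprod T R.2 : ℤ))).card * P0 ^ r := by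
        rw [Finset.sum_comm, Finset.sum_mul]
        apply Finset.sum_congr rfl
        intro R _
        rw [← Finset.card_filter]
    _ ≤ ∑ R ∈ (Finset.univ : Finset (Finset (Fin K) ×
        Finset (Fin K))).filter (fun R => R.1 ≠ R.2), P0 ^ K := by
        apply Finset.sum_le_sum
        intro R hR
        simp only [mem_filter, mem_univ, true_and] at hR
        exact count_div P P0 Y hcard hprime hY hdisj q r hr hY1 R.1 R.2 hR
    _ ≤ 4 ^ K * P0 ^ K := by
        rw [Finset.sum_const, smul_eq_mul]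
        apply Nat.mul_le_mul_right
        calc _ ≤ (Finset.univ : Finset (Finset (Fin K) × Finset (Fin K))).card :=
              Finset.card_filter_le _ _
          _ = 4 ^ K := by
              rw [Finset.card_univ, Fintype.card_prod, Fintype.card_finset, Fintype.card_fin,
                ← mul_pow]
              norm_num

end Vale.Agent.P012
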