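import Mathlib
import Vale.Agent.P012.Defs
import Vale.Agent.P012.Chain
import Vale.Agent.P012.Fourier
import Vale.Agent.P012.LemmaE

namespace Vale.Agent.P012

open Finset

/-- tuples of length `t`, as iterated products -/
def Tup (α : Type) : ℕ → Type
  | 0 => Unit
  | t + 1 => α × Tup α t

noncomputable instance Tup.instFintype (α : Type) [Fintype α] : ∀ t, Fintype (Tup α t)
  | 0 => inferInstanceAs (Fintype Unit)
  | t + 1 => @instFintypeProd α (Tup α t) _ (Tup.instFintype α t)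

instance Tup.instNonempty (α : Type) [Nonempty α] : ∀ t, Nonempty (Tup α t)
  | 0 => inferInstanceAs (Nonempty Unit)
  | t + 1 => @instNonemptyProd α (Tup α t) _ (Tup.instNonempty α t)

theorem Tup.card (α : Type) [Fintype α] (t : ℕ) :
    Fintype.card (Tup α t) = Fintype.card α ^ t := by
  induction t with
  | zero => rfl
  | succ t ih =>
    have : Fintype.card (Tup α (t + 1)) = Fintype.card (α × Tup α t) := rfl
    rw [this, Fintype.card_prod, ih, pow_succ, mul_comm]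

/-- prepend an entry -/
def Tup.cons {α : Type} {t : ℕ} (a : α) (y : Tup α t) : Tup α (t + 1) := (a, y)

theorem Tup.sum_succ {α : Type} [Fintype α] {M : Type*} [AddCommMonoid M] (t : ℕ)
    (f : Tup α (t + 1) → M) :
    ∑ x : Tup α (t + 1), f x = ∑ a : α, ∑ y : Tup α t, f (Tup.cons a y) :=
  Fintype.sum_prod_type (f := fun x : α × Tup α t => f x)

theorem Tup.sum_zero {α : Type} [Fintype α] {M : Type*} [AddCommMonoid M]
    (f : Tup α 0 → M) :
    ∑ x : Tup α 0, f x = f () :=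
  Fintype.sum_unique (fun x : Unit => f x)

/-- `w` if it is coprime to `m`, otherwise `1` -/
def wc (m w : ℕ) : ℕ := if Nat.Coprime w m then w else 1

theorem wc_coprime (m w : ℕ) : Nat.Coprime (wc m w) m := by
  unfold wc
  split_ifs with h
  · exact h
  · exact Nat.coprime_one_left m

theorem wc_dvd (m w : ℕ) : wc m w ∣ w := by
  unfold wc
  split_ifs with h
  · exact dvd_rfl
  · exact one_dvd w

/-- the value of the nested sum -/
def Dv {α β : Type} (w v : α → ℕ) (e : β → ℕ) (m : ℕ) : (t : ℕ) → Tup α t → Tup β t → ℕ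
  | 0, _, _ => 0
  | t + 1, x, y => wc m (w x.1) * (v x.1 * e y.1 + Dv w v e m t x.2 y.2)

/-- product of all `w`, `v` -/
def pwv {α : Type} (w v : α → ℕ) : (t : ℕ) → Tup α t → ℕ
  | 0, _ => 1
  | t + 1, x => w x.1 * v x.1 * pwv w v t x.2

theorem pwv_pos {α : Type} (w v : α → ℕ) (hw : ∀ a, 0 < w a) (hv : ∀ a, 0 < v a) (t : ℕ)
    (x : Tup α t) : 0 < pwv w v t x := by
  induction t with
  | zero => exact Nat.one_pos
  | succ t ih => exact Nat.mul_pos (Nat.mul_pos (hw _) (hv _)) (ih _)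

theorem pwv_le {α : Type} (w v : α → ℕ) (V V' : ℕ) (hw : ∀ a, w a ≤ V) (hv : ∀ a, v a ≤ V')
    (t : ℕ) (x : Tup α t) : pwv w v t x ≤ (V * V') ^ t := by
  induction t with
  | zero => exact le_rfl
  | succ t ih =>
    rw [pow_succ, mul_comm ((V * V') ^ t)]
    exact Nat.mul_le_mul (Nat.mul_le_mul (hw _) (hv _)) (ih _)

theorem Dv_pos {α β : Type} (w v : α → ℕ) (e : β → ℕ) (m : ℕ) (hw : ∀ a, 0 < w a)
    (hv : ∀ a, 0 < v a) (he : ∀ b, 0 < e b) (t : ℕ) (ht : 0 < t) (x : Tup α t) (y : Tup β t) :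
    0 < Dv w v e m t x y := by
  cases t with
  | zero => exact absurd ht (lt_irrefl 0)
  | succ t =>
    have h1 : 0 < wc m (w x.1) := Nat.pos_of_dvd_of_pos (wc_dvd m _) (hw _)
    have h2 : 0 < v x.1 * e y.1 := Nat.mul_pos (hv _) (he _)
    exact Nat.mul_pos h1 (by omega)

/-- the terms of `Dv` are divisors -/
theorem Dv_sumUF {α β : Type} (w v : α → ℕ) (d d' : β → ℕ) (m R : ℕ)
    (hw : ∀ a, 0 < w a) (hd : ∀ b, d b ∣ R) (hd' : ∀ b, d' b ∣ R) (t : ℕ) (x : Tup α t)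
    (y : Tup β t) (N : ℕ) (hN : 0 < N) (hdvd : R * pwv w v t x ∣ N) :
    SumUF (2 * t) ((Dv w v (fun b => d b + d' b) m t x y : ℚ) / (N : ℚ)) := by
  induction t generalizing N with
  | zero =>
    simp only [Dv, Nat.cast_zero, zero_div]
    exact SumUF.zero _
  | succ t ih =>
    obtain ⟨k, rfl⟩ := hdvd
    have hwc : wc m (w x.1) ∣ w x.1 := wc_dvd m _
    obtain ⟨w1, hw1⟩ := hwc
    have hwpos : 0 < wc m (w x.1) := Nat.pos_of_dvd_of_pos (wc_dvd m _) (hw _)
    have hw1pos : 0 < w1 := by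
      rcases Nat.eq_zero_or_pos w1 with h | h
      · rw [h, mul_zero] at hw1
        have := hw x.1
        omega
      · exact h
    set N' := R * (w1 * v x.1 * pwv w v t x.2) * k with hN'
    have hNN : R * pwv w v (t + 1) x * k = wc m (w x.1) * N' := by
      simp only [pwv]
      rw [hN']
      conv_lhs => rw [hw1]
      ring
    have hN'pos : 0 < N' := by
      rw [hNN] at hN
      exact Nat.pos_of_mul_pos_left hN |> fun _ => by
        rcases Nat.eq_zero_or_pos N' with h | h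
        · rw [h, mul_zero] at hN; exact absurd hN (lt_irrefl 0)
        · exact h
    have key : ((Dv w v (fun b => d b + d' b) m (t + 1) x y : ℕ) : ℚ)
        / ((R * pwv w v (t + 1) x * k : ℕ) : ℚ)
        = ((v x.1 * d y.1 : ℕ) : ℚ) / (N' : ℚ) + ((v x.1 * d' y.1 : ℕ) : ℚ) / (N' : ℚ)
          + ((Dv w v (fun b => d b + d' b) m t x.2 y.2 : ℕ) : ℚ) / (N' : ℚ) := by
      rw [hNN]
      simp only [Dv]
      have h1 : ((wc m (w x.1) : ℕ) : ℚ) ≠ 0 := by exact_mod_cast hwpos.ne'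
      have h2 : (N' : ℚ) ≠ 0 := by exact_mod_cast hN'pos.ne'
      push_cast
      field_simp
    rw [key]
    have hd1 : v x.1 * d y.1 ∣ N' := by
      obtain ⟨r, hr⟩ := hd y.1
      refine ⟨r * w1 * pwv w v t x.2 * k, ?_⟩
      rw [hN', hr]; ring
    have hd2 : v x.1 * d' y.1 ∣ N' := by
      obtain ⟨r, hr⟩ := hd' y.1
      refine ⟨r * w1 * pwv w v t x.2 * k, ?_⟩
      rw [hN', hr]; ring
    have h3 := ih x.2 y.2 N' hN'pos ⟨w1 * v x.1 * k, by rw [hN']; ring⟩
    exact (((SumUF.of_dvd hN'pos hd1).add (SumUF.of_dvd hN'pos hd2)).add h3).mono (by omega)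

/-- multiplication by the unit `wc m w` as a permutation of `ZMod m` -/
def wperm (m w : ℕ) : Equiv.Perm (ZMod m) :=
  Units.mulLeft (ZMod.unitOfCoprime (wc m w) (wc_coprime m w))

theorem wperm_apply (m w : ℕ) (x : ZMod m) : wperm m w x = (wc m w : ZMod m) * x := by
  simp [wperm]

/-- the transfer weight -/
noncomputable def gw {m : ℕ} (A : Finset ℕ) (E τ : ℝ) (x : ZMod m) : ℝ :=
  min 1 ((Phi A E x : ℝ) / (A.card : ℝ) ^ 2 + τ)

theorem gw_nonneg {m : ℕ} (A : Finset ℕ) (E τ : ℝ) (hτ : 0 ≤ τ) (x : ZMod m) :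
    0 ≤ gw A E τ x := by
  unfold gw
  apply le_min zero_le_one
  positivity

theorem gw_le_one {m : ℕ} (A : Finset ℕ) (E τ : ℝ) (x : ZMod m) : gw A E τ x ≤ 1 :=
  min_le_left _ _

theorem gw_average {m : ℕ} [NeZero m] (A : Finset ℕ) (hA : A.Nonempty) (E : ℝ) (hE : 0 < E)
    (V' : ℕ) (hV : 0 < V') (x : ZMod m) :
    ∑ v ∈ Finset.Icc 1 V', ‖∑ d ∈ A, (ZMod.stdAddChar ((v : ZMod m) * x * (d : ZMod m)) : ℂ)‖ ^ 2
      ≤ V' * (A.card : ℝ) ^ 2 * gw A E (m / (2 * V' * E)) x := by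
  have hAc : (0 : ℝ) < A.card := by exact_mod_cast hA.card_pos
  have hVr : (0 : ℝ) < V' := by exact_mod_cast hV
  unfold gw
  rw [mul_min_of_nonneg _ _ (by positivity), mul_one]
  apply le_min
  · calc ∑ v ∈ Finset.Icc 1 V',
        ‖∑ d ∈ A, (ZMod.stdAddChar ((v : ZMod m) * x * (d : ZMod m)) : ℂ)‖ ^ 2
        ≤ ∑ v ∈ Finset.Icc 1 V', (A.card : ℝ) ^ 2 := by
          apply Finset.sum_le_sum
          intro v _
          have : ‖∑ d ∈ A, (ZMod.stdAddChar ((v : ZMod m) * x * (d : ZMod m)) : ℂ)‖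
              ≤ A.card := by
            refine (norm_sum_le _ _).trans ?_
            rw [Finset.sum_congr rfl (fun d _ => norm_char _)]
            simp
          exact pow_le_pow_left₀ (norm_nonneg _) this 2
      _ = V' * (A.card : ℝ) ^ 2 := by simp
  · have := v_average A x V' hV E hE
    rw [div_le_iff₀ hVr] at this
    refine this.trans (le_of_eq ?_)
    unfold Phi
    field_simp

theorem sum_Dv_succ {α β : Type} [Fintype β] (w v : α → ℕ) (e : β → ℕ) (m : ℕ) [NeZero m]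
    (t : ℕ) (x : Tup α (t + 1)) (z : ZMod m) :
    ∑ y : Tup β (t + 1), (ZMod.stdAddChar (z * ((Dv w v e m (t + 1) x y : ℕ) : ZMod m)) : ℂ)
      = (∑ b : β, (ZMod.stdAddChar ((v x.1 : ZMod m) * ((wc m (w x.1) : ZMod m) * z)
            * ((e b : ℕ) : ZMod m)) : ℂ)) *
        ∑ y : Tup β t, (ZMod.stdAddChar (((wc m (w x.1) : ZMod m) * z) *
          ((Dv w v e m t x.2 y : ℕ) : ZMod m)) : ℂ) := by
  rw [Tup.sum_succ, Finset.sum_mul_sum]
  apply Finset.sum_congr rfl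
  intro b _
  apply Finset.sum_congr rfl
  intro y _
  rw [← AddChar.map_add_eq_mul]
  congr 1
  simp only [Dv, Tup.cons]
  push_cast
  ring

theorem sum_pair_char {m : ℕ} [NeZero m] (A : Finset ℕ) (z : ZMod m) :
    ‖∑ b : ↥A × ↥A, (ZMod.stdAddChar (z * (((b.1 : ℕ) + (b.2 : ℕ) : ℕ) : ZMod m)) : ℂ)‖
      = ‖∑ d ∈ A, (ZMod.stdAddChar (z * (d : ZMod m)) : ℂ)‖ ^ 2 := by
  rw [sq, ← norm_mul]
  congr 1
  rw [Fintype.sum_prod_type, ← Finset.sum_coe_sort A, Finset.sum_mul_sum]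
  apply Finset.sum_congr rfl
  intro b _
  apply Finset.sum_congr rfl
  intro y _
  rw [← AddChar.map_add_eq_mul]
  congr 1
  push_cast
  ring

/-- sum over all samples of the exponential sum is controlled by the chain. -/
theorem sum_samples {m : ℕ} [NeZero m] (A : Finset ℕ) (hA : A.Nonempty) (E : ℝ) (hE : 0 < E)
    (V' : ℕ) (hV : 0 < V') (W : Finset ℕ) (t : ℕ) (z : ZMod m) :
    ∑ x : Tup (↥W × ↥(Finset.Icc 1 V')) t,
      ‖∑ y : Tup (↥A × ↥A) t, (ZMod.stdAddChar (z *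
        ((Dv (fun p : ↥W × ↥(Finset.Icc 1 V') => (p.1 : ℕ)) (fun p => (p.2 : ℕ))
          (fun b : ↥A × ↥A => (b.1 : ℕ) + (b.2 : ℕ)) m t x y : ℕ) : ZMod m)) : ℂ)‖
      ≤ (V' * (A.card : ℝ) ^ 2) ^ t *
        chainP (fun w : ↥W => wperm m (w : ℕ)) (gw A E (m / (2 * V' * E))) t z := by
  have hτ : 0 ≤ (m : ℝ) / (2 * V' * E) := by positivity
  induction t generalizing z with
  | zero =>
    rw [Tup.sum_zero, Tup.sum_zero]
    simp [Dv, chainP]
  | succ t ih =>
    rw [Tup.sum_succ, Fintype.sum_prod_type]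
    simp only [chainP]
    rw [Finset.mul_sum]
    apply Finset.sum_le_sum
    intro w _
    set z' : ZMod m := (wc m (w : ℕ) : ZMod m) * z with hz'
    have hz'' : wperm m (w : ℕ) z = z' := wperm_apply m w z
    rw [hz'']
    have hg := gw_average A hA E hE V' hV z'
    rw [← Finset.sum_coe_sort (Finset.Icc 1 V')] at hg
    have hchain : 0 ≤ (V' * (A.card : ℝ) ^ 2) ^ t *
        chainP (fun w : ↥W => wperm m (w : ℕ)) (gw A E (m / (2 * V' * E))) t z' := by
      apply mul_nonneg (by positivity)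
      exact chainP_nonneg _ _ (gw_nonneg A E _ hτ) t z'
    calc ∑ v : ↥(Finset.Icc 1 V'), ∑ x' : Tup (↥W × ↥(Finset.Icc 1 V')) t,
          ‖∑ y : Tup (↥A × ↥A) (t + 1), (ZMod.stdAddChar (z *
        ((Dv (fun p : ↥W × ↥(Finset.Icc 1 V') => (p.1 : ℕ)) (fun p => (p.2 : ℕ))
          (fun b : ↥A × ↥A => (b.1 : ℕ) + (b.2 : ℕ)) m (t + 1) (Tup.cons (w, v) x') y : ℕ)
            : ZMod m)) : ℂ)‖
        = ∑ v : ↥(Finset.Icc 1 V'),
          ‖∑ d ∈ A, (ZMod.stdAddChar (((v : ℕ) : ZMod m) * z' * (d : ZMod m)) : ℂ)‖ ^ 2 *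
          ∑ x' : Tup (↥W × ↥(Finset.Icc 1 V')) t,
          ‖∑ y : Tup (↥A × ↥A) t, (ZMod.stdAddChar (z' *
        ((Dv (fun p : ↥W × ↥(Finset.Icc 1 V') => (p.1 : ℕ)) (fun p => (p.2 : ℕ))
          (fun b : ↥A × ↥A => (b.1 : ℕ) + (b.2 : ℕ)) m t x' y : ℕ) : ZMod m)) : ℂ)‖ := by
          apply Finset.sum_congr rfl
          intro v _
          rw [Finset.mul_sum]
          apply Finset.sum_congr rfl
          intro x' _
          rw [sum_Dv_succ, norm_mul]
          exact congrArg₂ (· * ·) (sum_pair_char A _) rfl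
      _ ≤ ∑ v : ↥(Finset.Icc 1 V'),
          ‖∑ d ∈ A, (ZMod.stdAddChar (((v : ℕ) : ZMod m) * z' * (d : ZMod m)) : ℂ)‖ ^ 2 *
          ((V' * (A.card : ℝ) ^ 2) ^ t *
        chainP (fun w : ↥W => wperm m (w : ℕ)) (gw A E (m / (2 * V' * E))) t z') := by
          apply Finset.sum_le_sum
          intro v _
          exact mul_le_mul_of_nonneg_left (ih z') (by positivity)
      _ = (∑ v : ↥(Finset.Icc 1 V'),
          ‖∑ d ∈ A, (ZMod.stdAddChar (((v : ℕ) : ZMod m) * z' * (d : ZMod m)) : ℂ)‖ ^ 2) *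
          ((V' * (A.card : ℝ) ^ 2) ^ t *
        chainP (fun w : ↥W => wperm m (w : ℕ)) (gw A E (m / (2 * V' * E))) t z') := by
          rw [Finset.sum_mul]
      _ ≤ (V' * (A.card : ℝ) ^ 2 * gw A E (m / (2 * V' * E)) z') *
          ((V' * (A.card : ℝ) ^ 2) ^ t *
        chainP (fun w : ↥W => wperm m (w : ℕ)) (gw A E (m / (2 * V' * E))) t z') :=
          mul_le_mul_of_nonneg_right hg hchain
      _ = _ := by ring

end Vale.Agent.P012
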