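import Mathlib
import Vale.Agent.P012.LemmaE2
import Vale.Agent.P012.LemmaH

namespace Vale.Agent.P012

open Finset

/-- a positive integer below `2 ^ k` has at most `k` prime factors from a given set. -/
theorem card_prime_dvd_le (W : Finset ℕ) (hW : ∀ w ∈ W, w.Prime) (z k : ℕ) (hz : z ≠ 0)
    (hzk : z < 2 ^ k) : (W.filter (fun w => w ∣ z)).card ≤ k := by
  have h1 : ∏ w ∈ W.filter (fun w => w ∣ z), w ∣ z := by
    apply Finset.prod_primes_dvd
    · intro w hw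
      exact (hW w (Finset.mem_filter.1 hw).1).prime
    · intro w hw
      exact (Finset.mem_filter.1 hw).2
  have h2 : 2 ^ (W.filter (fun w => w ∣ z)).card ≤ ∏ w ∈ W.filter (fun w => w ∣ z), w := by
    apply Finset.pow_card_le_prod
    intro w hw
    exact (hW w (Finset.mem_filter.1 hw).1).two_le
  have h3 : ∏ w ∈ W.filter (fun w => w ∣ z), w ≤ z :=
    Nat.le_of_dvd (Nat.pos_of_ne_zero hz) h1
  have h4 : 2 ^ (W.filter (fun w => w ∣ z)).card < 2 ^ k := lt_of_le_of_lt (h2.trans h3) hzk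
  exact (Nat.pow_lt_pow_iff_right (by norm_num)).1 h4 |>.le

theorem card_prime_dvd_int_le (W : Finset ℕ) (hW : ∀ w ∈ W, w.Prime) (z : ℤ) (k : ℕ) (hz : z ≠ 0)
    (hzk : |z| < 2 ^ k) : (W.filter (fun w : ℕ => (w : ℤ) ∣ z)).card ≤ k := by
  have h := card_prime_dvd_le W hW z.natAbs k (by simpa using hz) (by
    have : ((z.natAbs : ℕ) : ℤ) < 2 ^ k := by rw [Int.natCast_natAbs]; exact hzk
    exact_mod_cast this)
  refine le_trans (le_of_eq ?_) h
  congr 1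
  apply Finset.filter_congr
  intro w _
  exact Int.natCast_dvd

theorem eta_bound {m : ℕ} [NeZero m] (A : Finset ℕ) (hAne : A.Nonempty) (R : ℕ)
    (hA : ∀ d ∈ A, d ≤ R) (h : ZMod m) (W : Finset ℕ) (V : ℕ) (E B τ ρ : ℝ) (hE : 0 ≤ E)
    (hτ0 : 0 ≤ τ)
    (hVE : 2 * (V * E) < m) (hB : V * E ≤ B) (hW : ∀ w ∈ W, w ≤ V) (L : ℕ)
    (hWp : ∀ w ∈ W, w.Prime)
    (hL : ∀ z : ℤ, z ≠ 0 → |z| ≤ 2 * R * (R + 1) → (W.filter (fun w : ℕ => (w : ℤ) ∣ z)).card ≤ L)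
    (hLm : (W.filter (fun w : ℕ => w ∣ m)).card ≤ L)
    (F : ℕ) (hF : ∀ q : ℕ, 0 < q → near A B q ≤ F)
    (hρ0 : 0 ≤ ρ) (hρ1 : ρ ≤ 1) (hτρ : τ ≤ ρ ^ 2)
    (h2 : 2 ≤ ρ ^ 2 * A.card) (hbad : (bad A h : ℝ) ≤ ρ ^ 2 * (A.card : ℝ) ^ 2)
    (hFρ : (F : ℝ) ≤ 2 * (ρ ^ 2 * (A.card : ℝ) ^ 2)) (hLρ : (L : ℝ) ≤ ρ ^ 2 * W.card) :
    ∑ w : ↥W, gw A E τ ((wperm m (w : ℕ)).symm h) ≤ W.card * (5 * ρ) := by
  classical
  have hAc : (0 : ℝ) < A.card := by exact_mod_cast hAne.card_pos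
  set x : ℕ → ZMod m := fun w => (wperm m w).symm h with hx
  rw [Finset.sum_coe_sort W (fun w => gw A E τ ((wperm m w).symm h))]
  set Wc := W.filter (fun w => Nat.Coprime w m) with hWc
  have hsplit : ∑ w ∈ W, gw A E τ (x w) = ∑ w ∈ Wc, gw A E τ (x w)
      + ∑ w ∈ W.filter (fun w => ¬ Nat.Coprime w m), gw A E τ (x w) :=
    (Finset.sum_filter_add_sum_filter_not W _ _).symm
  have hnc : ∑ w ∈ W.filter (fun w => ¬ Nat.Coprime w m), gw A E τ (x w) ≤ ρ ^ 2 * W.card := by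
    calc ∑ w ∈ W.filter (fun w => ¬ Nat.Coprime w m), gw A E τ (x w)
        ≤ ∑ w ∈ W.filter (fun w => ¬ Nat.Coprime w m), (1 : ℝ) :=
          Finset.sum_le_sum fun w _ => gw_le_one A E τ _
      _ = ((W.filter (fun w => ¬ Nat.Coprime w m)).card : ℝ) := by simp
      _ ≤ (L : ℝ) := by
          have : (W.filter (fun w => ¬ Nat.Coprime w m)).card ≤ L := by
            refine le_trans (Finset.card_le_card ?_) hLm
            intro w hw
            rw [Finset.mem_filter] at hw ⊢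
            refine ⟨hw.1, ?_⟩
            by_contra hnd
            exact hw.2 (((hWp w hw.1).coprime_iff_not_dvd).2 hnd)
          exact_mod_cast this
      _ ≤ ρ ^ 2 * W.card := hLρ
  have hxw : ∀ w ∈ Wc, (w : ZMod m) * x w = h := by
    intro w hw
    have hw2 := (Finset.mem_filter.1 hw).2
    have h1 : wperm m w (x w) = h := by rw [hx]; simp
    rw [wperm_apply] at h1
    unfold wc at h1
    rwa [if_pos hw2] at h1
  have hsum := sum_Phi_sq A R hA h Wc V E B hE hVE hB (fun w hw => hW w (Finset.mem_filter.1 hw).1)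
    L (fun z hz hz2 => le_trans (Finset.card_le_card (Finset.filter_subset_filter _
      (Finset.filter_subset _ _))) (hL z hz hz2)) F hF x hxw
  have hWcW : (Wc.card : ℝ) ≤ W.card := by exact_mod_cast Finset.card_filter_le _ _
  have hsumR : ∑ w ∈ Wc, ((Phi A E (x w) : ℕ) : ℝ) ^ 2 ≤
      W.card * (A.card : ℝ) ^ 4 * (5 * ρ ^ 2) := by
    have h1 : ∑ w ∈ Wc, ((Phi A E (x w) : ℕ) : ℝ) ^ 2 ≤
        Wc.card * (2 * (A.card : ℝ) ^ 3 + (A.card : ℝ) ^ 2 * (bad A h + F))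
          + L * (A.card : ℝ) ^ 4 := by
      exact_mod_cast hsum
    have h3 : 2 * (A.card : ℝ) ^ 3 ≤ ρ ^ 2 * (A.card : ℝ) ^ 4 := by
      have : 2 * (A.card : ℝ) ^ 3 ≤ (ρ ^ 2 * A.card) * (A.card : ℝ) ^ 3 :=
        mul_le_mul_of_nonneg_right h2 (by positivity)
      linarith [this, (by ring : (ρ ^ 2 * A.card) * (A.card : ℝ) ^ 3 = ρ ^ 2 * (A.card : ℝ) ^ 4)]
    have h4 : (A.card : ℝ) ^ 2 * (bad A h + F) ≤ 3 * ρ ^ 2 * (A.card : ℝ) ^ 4 := by
      have : (A.card : ℝ) ^ 2 * (bad A h + F) ≤ (A.card : ℝ) ^ 2 *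
          (ρ ^ 2 * (A.card : ℝ) ^ 2 + 2 * (ρ ^ 2 * (A.card : ℝ) ^ 2)) :=
        mul_le_mul_of_nonneg_left (add_le_add hbad hFρ) (by positivity)
      refine this.trans (le_of_eq ?_)
      ring
    have h5 : (Wc.card : ℝ) * (2 * (A.card : ℝ) ^ 3 + (A.card : ℝ) ^ 2 * (bad A h + F)) ≤
        W.card * (4 * ρ ^ 2 * (A.card : ℝ) ^ 4) := by
      apply mul_le_mul hWcW (by linarith) (by positivity) (by positivity)
    have h6 : (L : ℝ) * (A.card : ℝ) ^ 4 ≤ (ρ ^ 2 * W.card) * (A.card : ℝ) ^ 4 :=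
      mul_le_mul_of_nonneg_right hLρ (by positivity)
    calc _ ≤ _ := h1
      _ ≤ W.card * (4 * ρ ^ 2 * (A.card : ℝ) ^ 4) + (ρ ^ 2 * W.card) * (A.card : ℝ) ^ 4 :=
        add_le_add h5 h6
      _ = _ := by ring
  have hsumPhi : ∑ w ∈ Wc, ((Phi A E (x w) : ℕ) : ℝ) ≤ W.card * (A.card : ℝ) ^ 2 * (3 * ρ) := by
    have hcs := sq_sum_le_card_mul_sum_sq (s := Wc) (f := fun w => ((Phi A E (x w) : ℕ) : ℝ))
    have h7 : (∑ w ∈ Wc, ((Phi A E (x w) : ℕ) : ℝ)) ^ 2 ≤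
        (W.card * (A.card : ℝ) ^ 2 * (3 * ρ)) ^ 2 := by
      calc (∑ w ∈ Wc, ((Phi A E (x w) : ℕ) : ℝ)) ^ 2
          ≤ Wc.card * ∑ w ∈ Wc, ((Phi A E (x w) : ℕ) : ℝ) ^ 2 := hcs
        _ ≤ W.card * (W.card * (A.card : ℝ) ^ 4 * (5 * ρ ^ 2)) :=
            mul_le_mul hWcW hsumR (Finset.sum_nonneg fun _ _ => by positivity) (by positivity)
        _ = (W.card * (A.card : ℝ) ^ 2) ^ 2 * (5 * ρ ^ 2) := by ring
        _ ≤ (W.card * (A.card : ℝ) ^ 2) ^ 2 * (9 * ρ ^ 2) := by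
            apply mul_le_mul_of_nonneg_left _ (by positivity)
            nlinarith [sq_nonneg ρ]
        _ = _ := by ring
    exact le_of_sq_le_sq h7 (by positivity)
  have hmain : ∑ w ∈ Wc, gw A E τ (x w) ≤ W.card * (3 * ρ) + W.card * ρ ^ 2 := by
    calc ∑ w ∈ Wc, gw A E τ (x w)
        ≤ ∑ w ∈ Wc, (((Phi A E (x w) : ℕ) : ℝ) / (A.card : ℝ) ^ 2 + τ) :=
          Finset.sum_le_sum fun w _ => min_le_right _ _
      _ = (∑ w ∈ Wc, ((Phi A E (x w) : ℕ) : ℝ)) / (A.card : ℝ) ^ 2 + Wc.card * τ := by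
          rw [Finset.sum_add_distrib, Finset.sum_div, Finset.sum_const, nsmul_eq_mul]
      _ ≤ W.card * (3 * ρ) + W.card * ρ ^ 2 := by
          apply add_le_add
          · rw [div_le_iff₀ (by positivity)]
            refine hsumPhi.trans (le_of_eq ?_)
            ring
          · exact mul_le_mul hWcW hτρ hτ0 (by positivity)
  have hρ2 : ρ ^ 2 ≤ ρ := by nlinarith
  change ∑ w ∈ W, gw A E τ (x w) ≤ _
  rw [hsplit]
  have hWc0 : (0 : ℝ) ≤ W.card := by positivity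
  calc _ ≤ (W.card * (3 * ρ) + W.card * ρ ^ 2) + ρ ^ 2 * W.card := add_le_add hmain hnc
    _ ≤ (W.card * (3 * ρ) + W.card * ρ) + ρ * W.card := by
        have := mul_le_mul_of_nonneg_left hρ2 hWc0
        linarith
    _ = _ := by ring

theorem bad_wperm {m : ℕ} (A : Finset ℕ) (w : ℕ) (h : ZMod m) :
    bad A (wperm m w h) = bad A h := by
  unfold bad
  congr 1
  apply Finset.filter_congr
  intro p _
  have : ((p.1 : ZMod m) - (p.2 : ZMod m)) * (wperm m w h) = 0 ↔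
      ((p.1 : ZMod m) - (p.2 : ZMod m)) * h = 0 := by
    have e : ((p.1 : ZMod m) - (p.2 : ZMod m)) * (wperm m w h)
        = (ZMod.unitOfCoprime (wc m w) (wc_coprime m w) : ZMod m)
          * (((p.1 : ZMod m) - (p.2 : ZMod m)) * h) := by
      simp only [wperm, Units.mulLeft_apply]
      ring
    rw [e, Units.mul_right_eq_zero]
  rw [this]

end Vale.Agent.P012
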