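import Mathlib

namespace Vale.Agent.P012

open Finset

/-- the fibres of multiplication by `n` on `ZMod m` have at most `n` elements -/
theorem fiber_mul_le {m : ℕ} [NeZero m] (n : ℕ) (h : ZMod m) (hn : 0 < n) :
    (Finset.univ.filter (fun c : ZMod m => (n : ZMod m) * c = h)).card ≤ n := by
  have hm : 0 < m := NeZero.pos m
  have key : ∀ c : ZMod m, (n : ZMod m) * c = h → (n * c.val) % m = h.val := by
    intro c hc
    rw [← hc, ZMod.val_mul, ZMod.val_natCast]
    rw [Nat.mod_mul_mod]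
  calc (Finset.univ.filter (fun c : ZMod m => (n : ZMod m) * c = h)).card
      ≤ (Finset.range n).card := by
        apply Finset.card_le_card_of_injOn (fun c : ZMod m => (n * c.val) / m)
        · intro c _
          simp only [coe_range, Set.mem_Iio]
          rw [Nat.div_lt_iff_lt_mul hm]
          exact Nat.mul_lt_mul_of_pos_left (ZMod.val_lt c) hn
        · intro c hc c' hc' hcc
          simp only [coe_filter, mem_univ, true_and, Set.mem_ofPred_eq] at hc hc'
          have h1 := key c hc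
          have h2 := key c' hc'
          have h3 := Nat.div_add_mod (n * c.val) m
          have h4 := Nat.div_add_mod (n * c'.val) m
          simp only at hcc
          rw [hcc, h1] at h3
          rw [h2] at h4
          have h5 : n * c.val = n * c'.val := by rw [← h3, h4]
          exact ZMod.val_injective m (Nat.eq_of_mul_eq_mul_left hn h5)
    _ = n := Finset.card_range n

theorem sum_mul_le {m : ℕ} [NeZero m] (n : ℕ) (hn : 0 < n) (F : ZMod m → ℝ)
    (hF : ∀ x, 0 ≤ F x) :
    ∑ c : ZMod m, F ((n : ZMod m) * c) ≤ n * ∑ h : ZMod m, F h := by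
  classical
  calc ∑ c : ZMod m, F ((n : ZMod m) * c)
      = ∑ h : ZMod m, ∑ c ∈ Finset.univ.filter (fun c : ZMod m => (n : ZMod m) * c = h),
          F ((n : ZMod m) * c) :=
        (Finset.sum_fiberwise Finset.univ (fun c : ZMod m => (n : ZMod m) * c) _).symm
    _ = ∑ h : ZMod m, ((Finset.univ.filter (fun c : ZMod m => (n : ZMod m) * c = h)).card : ℝ)
          * F h := by
        apply Finset.sum_congr rfl
        intro h _
        rw [Finset.sum_congr rfl (g := fun _ => F h), Finset.sum_const, nsmul_eq_mul]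
        intro c hc
        rw [(Finset.mem_filter.1 hc).2]
    _ ≤ ∑ h : ZMod m, (n : ℝ) * F h := by
        apply Finset.sum_le_sum
        intro h _
        apply mul_le_mul_of_nonneg_right _ (hF h)
        exact_mod_cast fiber_mul_le n h hn
    _ = _ := by rw [Finset.mul_sum]

theorem card_inv_fiber_le {m : ℕ} [NeZero m] (𝒬 : Finset ℕ) (X : ℕ)
    (hQ : ∀ Q ∈ 𝒬, Nat.Coprime Q m ∧ Q ≤ X) (c : ZMod m) :
    (𝒬.filter (fun Q : ℕ => ((Q : ZMod m))⁻¹ = c)).card ≤ X / m + 1 := by
  have hm : 0 < m := NeZero.pos m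
  calc (𝒬.filter (fun Q : ℕ => ((Q : ZMod m))⁻¹ = c)).card
      ≤ (Finset.range (X / m + 1)).card := by
        apply Finset.card_le_card_of_injOn (fun Q => Q / m)
        · intro Q hQ'
          simp only [coe_filter, Set.mem_ofPred_eq] at hQ'
          simp only [coe_range, Set.mem_Iio]
          exact Nat.lt_succ_of_le (Nat.div_le_div_right (hQ Q hQ'.1).2)
        · intro Q hQ1 Q' hQ2 hQQ
          simp only [coe_filter, Set.mem_ofPred_eq] at hQ1 hQ2
          simp only at hQQ
          have e : (Q : ZMod m) = (Q' : ZMod m) := by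
            have h1 := ZMod.coe_mul_inv_eq_one Q (hQ Q hQ1.1).1
            have h2 := ZMod.coe_mul_inv_eq_one Q' (hQ Q' hQ2.1).1
            rw [hQ1.2] at h1
            rw [hQ2.2] at h2
            calc (Q : ZMod m) = (Q : ZMod m) * ((Q' : ZMod m) * c) := by rw [h2, mul_one]
              _ = ((Q : ZMod m) * c) * Q' := by ring
              _ = Q' := by rw [h1, one_mul]
          rw [ZMod.natCast_eq_natCast_iff'] at e
          rw [← Nat.div_add_mod Q m, ← Nat.div_add_mod Q' m, hQQ, e]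
    _ = X / m + 1 := Finset.card_range _

theorem sum_Q_le {m : ℕ} [NeZero m] (𝒬 : Finset ℕ) (X : ℕ)
    (hQ : ∀ Q ∈ 𝒬, Nat.Coprime Q m ∧ Q ≤ X) (N : ℕ) (F : ZMod m → ℝ) (hF : ∀ x, 0 ≤ F x) :
    ∑ Q ∈ 𝒬, ∑ n ∈ Finset.Icc 1 N, F ((n : ZMod m) * ((Q : ZMod m))⁻¹)
      ≤ ((X : ℝ) / m + 1) * (N : ℝ) ^ 2 * ∑ h : ZMod m, F h := by
  classical
  have hS : 0 ≤ ∑ h : ZMod m, F h := Finset.sum_nonneg fun x _ => hF x
  rw [Finset.sum_comm]
  have h1 : ∀ n ∈ Finset.Icc 1 N, ∑ Q ∈ 𝒬, F ((n : ZMod m) * ((Q : ZMod m))⁻¹)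
      ≤ ((X : ℝ) / m + 1) * (N * ∑ h : ZMod m, F h) := by
    intro n hn
    rw [Finset.mem_Icc] at hn
    calc ∑ Q ∈ 𝒬, F ((n : ZMod m) * ((Q : ZMod m))⁻¹)
        = ∑ c : ZMod m, ∑ Q ∈ 𝒬.filter (fun Q : ℕ => ((Q : ZMod m))⁻¹ = c),
            F ((n : ZMod m) * ((Q : ZMod m))⁻¹) :=
          (Finset.sum_fiberwise 𝒬 (fun Q : ℕ => ((Q : ZMod m))⁻¹) _).symm
      _ = ∑ c : ZMod m, ((𝒬.filter (fun Q : ℕ => ((Q : ZMod m))⁻¹ = c)).card : ℝ)
            * F ((n : ZMod m) * c) := by
          apply Finset.sum_congr rfl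
          intro c _
          rw [Finset.sum_congr rfl (g := fun _ => F ((n : ZMod m) * c)), Finset.sum_const,
            nsmul_eq_mul]
          intro Q hQ'
          rw [(Finset.mem_filter.1 hQ').2]
      _ ≤ ∑ c : ZMod m, ((X : ℝ) / m + 1) * F ((n : ZMod m) * c) := by
          apply Finset.sum_le_sum
          intro c _
          apply mul_le_mul_of_nonneg_right _ (hF _)
          have h2 := card_inv_fiber_le 𝒬 X hQ c
          have h3 : ((X / m : ℕ) : ℝ) ≤ (X : ℝ) / m := Nat.cast_div_le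
          calc ((𝒬.filter (fun Q : ℕ => ((Q : ZMod m))⁻¹ = c)).card : ℝ)
              ≤ ((X / m + 1 : ℕ) : ℝ) := by exact_mod_cast h2
            _ ≤ _ := by push_cast; linarith
      _ = ((X : ℝ) / m + 1) * ∑ c : ZMod m, F ((n : ZMod m) * c) := by rw [Finset.mul_sum]
      _ ≤ ((X : ℝ) / m + 1) * (n * ∑ h : ZMod m, F h) :=
          mul_le_mul_of_nonneg_left (sum_mul_le n hn.1 F hF) (by positivity)
      _ ≤ ((X : ℝ) / m + 1) * (N * ∑ h : ZMod m, F h) := by
          apply mul_le_mul_of_nonneg_left _ (by positivity)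
          apply mul_le_mul_of_nonneg_right _ hS
          exact_mod_cast hn.2
  calc _ ≤ ∑ n ∈ Finset.Icc 1 N, ((X : ℝ) / m + 1) * (N * ∑ h : ZMod m, F h) :=
        Finset.sum_le_sum h1
    _ = _ := by
        rw [Finset.sum_const, Nat.card_Icc, nsmul_eq_mul]
        push_cast [Nat.add_sub_cancel]
        ring

/-- few elements have small additive order -/
theorem card_small_order {m : ℕ} [NeZero m] (t : ℕ) :
    (Finset.univ.filter (fun h : ZMod m => addOrderOf h ≤ t)).card ≤ t ^ 2 := by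
  classical
  have hsub : (Finset.univ.filter (fun h : ZMod m => addOrderOf h ≤ t)) ⊆
      (Finset.Icc 1 t).biUnion (fun n =>
        Finset.univ.filter (fun c : ZMod m => (n : ZMod m) * c = 0)) := by
    intro h hh
    rw [Finset.mem_filter] at hh
    rw [Finset.mem_biUnion]
    refine ⟨addOrderOf h, Finset.mem_Icc.2 ⟨addOrderOf_pos h, hh.2⟩, ?_⟩
    rw [Finset.mem_filter]
    refine ⟨Finset.mem_univ _, ?_⟩
    rw [← nsmul_eq_mul]
    exact addOrderOf_nsmul_eq_zero h
  calc _ ≤ _ := Finset.card_le_card hsub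
    _ ≤ ∑ n ∈ Finset.Icc 1 t, (Finset.univ.filter (fun c : ZMod m => (n : ZMod m) * c = 0)).card :=
        Finset.card_biUnion_le
    _ ≤ ∑ n ∈ Finset.Icc 1 t, t := by
        apply Finset.sum_le_sum
        intro n hn
        rw [Finset.mem_Icc] at hn
        exact (fiber_mul_le n 0 hn.1).trans hn.2
    _ = t ^ 2 := by
        rw [Finset.sum_const, Nat.card_Icc, smul_eq_mul, Nat.add_sub_cancel]
        ring

end Vale.Agent.P012
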