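import Mathlib
import Vale.Agent.P012.LemmaI
import Vale.Agent.P012.LemmaJ

namespace Vale.Agent.P012

open Finset

/-- value of the nested sum for the sample `x` and the choice `y` -/
def Dw (W A : Finset ℕ) (V' m s : ℕ) (x : Tup (↥W × ↥(Finset.Icc 1 V')) s)
    (y : Tup (↥A × ↥A) s) : ℕ :=
  Dv (fun p : ↥W × ↥(Finset.Icc 1 V') => (p.1 : ℕ)) (fun p => (p.2 : ℕ))
    (fun b : ↥A × ↥A => (b.1 : ℕ) + (b.2 : ℕ)) m s x y

/-- the sample `(x, Q)` works for `m` -/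
def Works (W A : Finset ℕ) (V' m s A0 : ℕ) (x : Tup (↥W × ↥(Finset.Icc 1 V')) s) (Q : ℕ) : Prop :=
  ∃ y : Tup (↥A × ↥A) s, ∃ m' : ℕ, m' < 2 * A0 ∧
    ((Dw W A V' m s x y : ℕ) : ZMod m) + (Q : ZMod m) * (m' : ZMod m) = 0

theorem fails_large {m : ℕ} [NeZero m] (W A : Finset ℕ) (hA : A.Nonempty) (V' s A0 N : ℕ)
    (hA0 : 0 < A0) (hN : m ^ 2 ≤ N * A0 ^ 2) (x : Tup (↥W × ↥(Finset.Icc 1 V')) s) (Q : ℕ)
    (hQ : Nat.Coprime Q m) (hf : ¬ Works W A V' m s A0 x Q) :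
    ((A.card : ℝ) ^ 2) ^ s ≤ 4 * ∑ n ∈ Finset.Icc 1 N,
      ‖∑ y : Tup (↥A × ↥A) s, (ZMod.stdAddChar (((n : ZMod m) * ((Q : ZMod m))⁻¹) *
        ((Dw W A V' m s x y : ℕ) : ZMod m)) : ℂ)‖ := by
  classical
  by_contra hlt
  push Not at hlt
  apply hf
  have : Nonempty ↥A := hA.to_subtype
  have hcard : (Fintype.card (Tup (↥A × ↥A) s) : ℝ) = ((A.card : ℝ) ^ 2) ^ s := by
    rw [Tup.card, Fintype.card_prod, Fintype.card_coe]
    push_cast
    ring
  exact exists_sol (fun y : Tup (↥A × ↥A) s => ((Dw W A V' m s x y : ℕ) : ZMod m)) (Q : ZMod m)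
    ((Q : ZMod m))⁻¹ (ZMod.coe_mul_inv_eq_one Q hQ) A0 N hA0 hN (by
      rw [hcard]
      linarith)

open Classical in
theorem fail_count {m : ℕ} [NeZero m] (W A : Finset ℕ) (hA : A.Nonempty) (E : ℝ) (hE : 0 < E)
    (V' : ℕ) (hV : 0 < V') (s : ℕ) (𝒬 : Finset ℕ) (X : ℕ)
    (hQ : ∀ Q ∈ 𝒬, Nat.Coprime Q m ∧ Q ≤ X) (A0 N : ℕ) (hA0 : 0 < A0)
    (hN : m ^ 2 ≤ N * A0 ^ 2) :
    ((((Finset.univ : Finset (Tup (↥W × ↥(Finset.Icc 1 V')) s)) ×ˢ 𝒬).filter
      (fun p => ¬ Works W A V' m s A0 p.1 p.2)).card : ℝ)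
      ≤ 4 * (V' : ℝ) ^ s * (((X : ℝ) / m + 1) * (N : ℝ) ^ 2 *
        ∑ h : ZMod m, chainP (fun w : ↥W => wperm m (w : ℕ)) (gw A E (m / (2 * V' * E))) s h) := by
  have hAc : (0 : ℝ) < A.card := by exact_mod_cast hA.card_pos
  have hτ : 0 ≤ (m : ℝ) / (2 * V' * E) := by positivity
  have hpow : (0 : ℝ) < ((A.card : ℝ) ^ 2) ^ s := by positivity
  set F : Tup (↥W × ↥(Finset.Icc 1 V')) s → ℕ → ℝ := fun x Q => ∑ n ∈ Finset.Icc 1 N,
      ‖∑ y : Tup (↥A × ↥A) s, (ZMod.stdAddChar (((n : ZMod m) * ((Q : ZMod m))⁻¹) *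
        ((Dw W A V' m s x y : ℕ) : ZMod m)) : ℂ)‖ with hF
  have hF0 : ∀ x Q, 0 ≤ F x Q := fun x Q => Finset.sum_nonneg fun _ _ => norm_nonneg _
  -- the total mass
  have htotal : ∑ Q ∈ 𝒬, ∑ x : Tup (↥W × ↥(Finset.Icc 1 V')) s, F x Q
      ≤ (V' * (A.card : ℝ) ^ 2) ^ s * (((X : ℝ) / m + 1) * (N : ℝ) ^ 2 *
        ∑ h : ZMod m, chainP (fun w : ↥W => wperm m (w : ℕ)) (gw A E (m / (2 * V' * E))) s h) := by
    calc ∑ Q ∈ 𝒬, ∑ x : Tup (↥W × ↥(Finset.Icc 1 V')) s, F x Q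
        = ∑ Q ∈ 𝒬, ∑ n ∈ Finset.Icc 1 N, ∑ x : Tup (↥W × ↥(Finset.Icc 1 V')) s,
            ‖∑ y : Tup (↥A × ↥A) s, (ZMod.stdAddChar (((n : ZMod m) * ((Q : ZMod m))⁻¹) *
              ((Dw W A V' m s x y : ℕ) : ZMod m)) : ℂ)‖ := by
          apply Finset.sum_congr rfl
          intro Q _
          rw [hF, Finset.sum_comm]
      _ ≤ ∑ Q ∈ 𝒬, ∑ n ∈ Finset.Icc 1 N, (V' * (A.card : ℝ) ^ 2) ^ s *
            chainP (fun w : ↥W => wperm m (w : ℕ)) (gw A E (m / (2 * V' * E))) s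
              ((n : ZMod m) * ((Q : ZMod m))⁻¹) := by
          apply Finset.sum_le_sum
          intro Q _
          apply Finset.sum_le_sum
          intro n _
          exact sum_samples A hA E hE V' hV W s _
      _ = (V' * (A.card : ℝ) ^ 2) ^ s * ∑ Q ∈ 𝒬, ∑ n ∈ Finset.Icc 1 N,
            chainP (fun w : ↥W => wperm m (w : ℕ)) (gw A E (m / (2 * V' * E))) s
              ((n : ZMod m) * ((Q : ZMod m))⁻¹) := by
          rw [Finset.mul_sum]
          apply Finset.sum_congr rfl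
          intro Q _
          rw [Finset.mul_sum]
      _ ≤ _ := by
          apply mul_le_mul_of_nonneg_left _ (by positivity)
          exact sum_Q_le 𝒬 X hQ N _ (chainP_nonneg _ _ (gw_nonneg A E _ hτ) s)
  -- lower bound of the mass by the failures
  have hlow : ((((Finset.univ : Finset (Tup (↥W × ↥(Finset.Icc 1 V')) s)) ×ˢ 𝒬).filter
      (fun p => ¬ Works W A V' m s A0 p.1 p.2)).card : ℝ) * ((A.card : ℝ) ^ 2) ^ s
      ≤ 4 * ∑ Q ∈ 𝒬, ∑ x : Tup (↥W × ↥(Finset.Icc 1 V')) s, F x Q := by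
    rw [Finset.sum_comm, ← Finset.sum_product', ← nsmul_eq_mul, ← Finset.sum_const, Finset.mul_sum]
    calc ∑ p ∈ ((Finset.univ : Finset (Tup (↥W × ↥(Finset.Icc 1 V')) s)) ×ˢ 𝒬).filter
          (fun p => ¬ Works W A V' m s A0 p.1 p.2), ((A.card : ℝ) ^ 2) ^ s
        ≤ ∑ p ∈ ((Finset.univ : Finset (Tup (↥W × ↥(Finset.Icc 1 V')) s)) ×ˢ 𝒬).filter
          (fun p => ¬ Works W A V' m s A0 p.1 p.2), 4 * F p.1 p.2 := by
          apply Finset.sum_le_sum
          intro p hp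
          rw [Finset.mem_filter, Finset.mem_product] at hp
          exact fails_large W A hA V' s A0 N hA0 hN p.1 p.2 (hQ p.2 hp.1.2).1 hp.2
      _ ≤ _ := by
          apply Finset.sum_le_sum_of_subset_of_nonneg (Finset.filter_subset _ _)
          intro p _ _
          exact mul_nonneg (by norm_num) (hF0 _ _)
  have h3 : ((((Finset.univ : Finset (Tup (↥W × ↥(Finset.Icc 1 V')) s)) ×ˢ 𝒬).filter
      (fun p => ¬ Works W A V' m s A0 p.1 p.2)).card : ℝ) * ((A.card : ℝ) ^ 2) ^ s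
      ≤ (4 * (V' : ℝ) ^ s * (((X : ℝ) / m + 1) * (N : ℝ) ^ 2 *
        ∑ h : ZMod m, chainP (fun w : ↥W => wperm m (w : ℕ)) (gw A E (m / (2 * V' * E))) s h)) *
          ((A.card : ℝ) ^ 2) ^ s := by
    refine hlow.trans ((mul_le_mul_of_nonneg_left htotal (by norm_num)).trans (le_of_eq ?_))
    rw [mul_pow]
    ring
  exact le_of_mul_le_mul_right h3 hpow

/-- total mass of the chain -/
theorem chain_total {m : ℕ} [NeZero m] (A : Finset ℕ) (W : Finset ℕ) (E τ η : ℝ) (hτ : 0 ≤ τ)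
    (β : ℕ) (hη : 0 ≤ η)
    (hgood : ∀ h : ZMod m, bad A h ≤ β →
      ∑ w : ↥W, gw A E τ ((wperm m (w : ℕ)).symm h) ≤ W.card * η) (t : ℕ) :
    ∑ h : ZMod m, chainP (fun w : ↥W => wperm m (w : ℕ)) (gw A E τ) (t + 1) h
      ≤ (W.card : ℝ) ^ (t + 1) * (η ^ t * m +
        ((Finset.univ.filter (fun h : ZMod m => β < bad A h)).card : ℝ)) := by
  classical
  have hWc : (Fintype.card ↥W : ℝ) = W.card := by rw [Fintype.card_coe]
  rw [← Finset.sum_filter_add_sum_filter_not Finset.univ (fun h : ZMod m => bad A h ≤ β)]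
  have h1 := chain_bound (fun w : ↥W => wperm m (w : ℕ)) (gw A E τ) (gw_nonneg A E τ hτ)
    (gw_le_one A E τ) (Finset.univ.filter (fun h : ZMod m => bad A h ≤ β))
    (fun w x => by
      simp only [mem_filter, mem_univ, true_and]
      rw [bad_wperm]) (W.card * η) (by positivity)
    (fun y hy => hgood y (Finset.mem_filter.1 hy).2) t
  have h2 : ∑ h ∈ Finset.univ.filter (fun h : ZMod m => ¬ bad A h ≤ β),
      chainP (fun w : ↥W => wperm m (w : ℕ)) (gw A E τ) (t + 1) h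
      ≤ (W.card : ℝ) ^ (t + 1) *
        ((Finset.univ.filter (fun h : ZMod m => β < bad A h)).card : ℝ) := by
    calc _ ≤ ∑ h ∈ Finset.univ.filter (fun h : ZMod m => ¬ bad A h ≤ β),
          (W.card : ℝ) ^ (t + 1) := by
          apply Finset.sum_le_sum
          intro h _
          have := chainP_le (fun w : ↥W => wperm m (w : ℕ)) (gw A E τ) (gw_nonneg A E τ hτ)
            (gw_le_one A E τ) (t + 1) h
          rwa [hWc] at this
      _ = _ := by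
          rw [Finset.sum_const, nsmul_eq_mul, mul_comm]
          simp only [not_le]
  have hcard : ((Finset.univ.filter (fun h : ZMod m => bad A h ≤ β)).card : ℝ) ≤ m := by
    have : (Finset.univ.filter (fun h : ZMod m => bad A h ≤ β)).card ≤ m := by
      calc _ ≤ (Finset.univ : Finset (ZMod m)).card := Finset.card_filter_le _ _
        _ = m := by rw [Finset.card_univ, ZMod.card]
    exact_mod_cast this
  rw [hWc] at h1
  have h3 : (W.card : ℝ) * (W.card * η) ^ t *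
      ((Finset.univ.filter (fun h : ZMod m => bad A h ≤ β)).card : ℝ)
      ≤ (W.card : ℝ) ^ (t + 1) * (η ^ t * m) := by
    calc _ ≤ (W.card : ℝ) * (W.card * η) ^ t * m :=
          mul_le_mul_of_nonneg_left hcard (by positivity)
      _ = _ := by rw [mul_pow]; ring
  calc _ ≤ _ := add_le_add (h1.trans h3) h2
    _ = _ := by ring

end Vale.Agent.P012
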