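import Mathlib
import Vale.Agent.P012.LemmaG
import Vale.Agent.P012.LemmaK

namespace Vale.Agent.P012

open Finset

/-- the standing parameter data -/
structure Params (a l K₀ : ℕ) (P : Fin (120 * K₀) → Finset ℕ) (W : Finset ℕ) : Prop where
  hl : 3 ≤ l
  hK : 1 ≤ K₀
  hal : a ≤ 8 * l * K₀
  ha2 : a < 2 ^ l
  hKa : K₀ ≤ a
  hcard : ∀ i, (P i).card = 2 ^ (6 * l)
  hprime : ∀ i, ∀ p ∈ P i, p.Prime
  hlow : ∀ i, ∀ p ∈ P i, 2 ^ (4 * l) ≤ p
  hup : ∀ i, ∀ p ∈ P i, p ≤ 2 ^ (8 * l)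
  hdisj : ∀ i j, i ≠ j → Disjoint (P i) (P j)
  hWp : ∀ w ∈ W, w.Prime
  hWle : ∀ w ∈ W, w ≤ 2 ^ (2 * K₀ + 8 * l)
  hWcard : 2 ^ (2 * K₀ + 6 * l) ≤ W.card

theorem Params.card_dvd {a l K₀ : ℕ} {P : Fin (120 * K₀) → Finset ℕ} {W : Finset ℕ}
    (hp : Params a l K₀ P W) {m : ℕ} (hm0 : 0 < m) (hm : m ≤ 2 ^ a) {T : Fin (120 * K₀) → ℕ}
    (hT : T ∈ Fintype.piFinset P) :
    4 * l * (Finset.univ.filter (fun i => T i ∣ m)).card ≤ a := by
  rw [Fintype.mem_piFinset] at hT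
  have h1 : ∏ i ∈ Finset.univ.filter (fun i => T i ∣ m), T i ∣ m := by
    apply Finset.prod_dvd_of_isRelPrime
    · intro i _ j _ hij
      have hne : T i ≠ T j := fun h => hij (injOn_of_disjoint P hp.hdisj hT h)
      exact Nat.coprime_iff_isRelPrime.1
        ((Nat.coprime_primes (hp.hprime i _ (hT i)) (hp.hprime j _ (hT j))).2 hne)
    · intro i hi
      exact (Finset.mem_filter.1 hi).2
  have h2 : (2 ^ (4 * l)) ^ (Finset.univ.filter (fun i => T i ∣ m)).card ≤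
      ∏ i ∈ Finset.univ.filter (fun i => T i ∣ m), T i := by
    apply Finset.pow_card_le_prod
    intro i _
    exact hp.hlow i _ (hT i)
  have h3 := (h2.trans (Nat.le_of_dvd hm0 h1)).trans hm
  rw [← pow_mul] at h3
  exact (Nat.pow_le_pow_iff_right (by norm_num)).1 h3

theorem Params.card_Im {a l K₀ : ℕ} {P : Fin (120 * K₀) → Finset ℕ} {W : Finset ℕ}
    (_hp : Params a l K₀ P W) {m : ℕ} {T : Fin (120 * K₀) → ℕ} :
    (Im m T).card + (Finset.univ.filter (fun i => T i ∣ m)).card = 120 * K₀ := by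
  unfold Im
  have := Finset.card_filter_add_card_filter_not (s := (Finset.univ : Finset (Fin (120 * K₀))))
    (fun i => T i ∣ m)
  rw [Finset.card_univ, Fintype.card_fin] at this
  omega

theorem Params.Im_ge {a l K₀ : ℕ} {P : Fin (120 * K₀) → Finset ℕ} {W : Finset ℕ}
    (hp : Params a l K₀ P W) {m : ℕ} (hm0 : 0 < m) (hm : m ≤ 2 ^ a) {T : Fin (120 * K₀) → ℕ}
    (hT : T ∈ Fintype.piFinset P) : 118 * K₀ ≤ (Im m T).card := by
  have h1 := hp.card_dvd hm0 hm hT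
  have h2 := hp.card_Im (m := m) (T := T)
  have h3 := hp.hal
  have h4 := hp.hl
  have h5 : (Finset.univ.filter (fun i => T i ∣ m)).card ≤ 2 * K₀ := by
    have h6 : 4 * l * (Finset.univ.filter (fun i => T i ∣ m)).card ≤ 4 * l * (2 * K₀) := by
      calc _ ≤ a := h1
        _ ≤ 8 * l * K₀ := h3
        _ = _ := by ring
    exact Nat.le_of_mul_le_mul_left h6 (by omega)
  omega

theorem pow_aux (n K₁ : ℕ) (h : 58 * K₁ ≤ n) :
    (4 : ℝ) ^ K₁ * (16 ^ (4 * K₁) * (49 / 16) ^ n) ≤ 2 ^ K₁ * 4 ^ n := by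
  have h1 : ((49 : ℝ) / 64) ^ n ≤ (49 / 64) ^ (58 * K₁) :=
    pow_le_pow_of_le_one (by norm_num) (by norm_num) h
  have h2 : ((2 : ℝ) ^ 17 * (49 / 64) ^ 58) ^ K₁ ≤ 1 := by
    apply pow_le_one₀ (by positivity)
    norm_num
  have e1 : ((49 : ℝ) / 16) ^ n = (49 / 64) ^ n * 4 ^ n := by
    rw [← mul_pow]; norm_num
  have e2 : (4 : ℝ) ^ K₁ * 16 ^ (4 * K₁) = 2 ^ K₁ * (2 ^ 17) ^ K₁ := by
    rw [pow_mul, ← mul_pow, ← mul_pow]; norm_num
  calc (4 : ℝ) ^ K₁ * (16 ^ (4 * K₁) * (49 / 16) ^ n)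
      = (4 ^ K₁ * 16 ^ (4 * K₁)) * (49 / 64) ^ n * 4 ^ n := by rw [e1]; ring
    _ = 2 ^ K₁ * ((2 ^ 17) ^ K₁ * (49 / 64) ^ n) * 4 ^ n := by rw [e2]; ring
    _ ≤ 2 ^ K₁ * ((2 ^ 17) ^ K₁ * (49 / 64) ^ (58 * K₁)) * 4 ^ n := by
        gcongr
    _ = 2 ^ K₁ * (((2 : ℝ) ^ 17 * (49 / 64) ^ 58) ^ K₁) * 4 ^ n := by
        rw [mul_pow, pow_mul (49 / 64 : ℝ)]
    _ ≤ 2 ^ K₁ * 1 * 4 ^ n := by gcongr
    _ = _ := by ring

theorem Params.near_le {a l K₀ : ℕ} {P : Fin (120 * K₀) → Finset ℕ} {W : Finset ℕ}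
    (hp : Params a l K₀ P W) {m : ℕ} (hm0 : 0 < m) (hm : m ≤ 2 ^ a) {T : Fin (120 * K₀) → ℕ}
    (hT : T ∈ Fintype.piFinset P) (q : ℕ) (hq : 0 < q) :
    near (dset T (Im m T)) ((m : ℝ) / 4) q ≤ 2 * 2 ^ (2 * (Im m T).card - 2 * K₀) := by
  classical
  have hI := hp.Im_ge hm0 hm hT
  have hK := hp.hK
  obtain ⟨I₁, hI₁, hI₁c⟩ := Finset.exists_subset_card_eq (s := Im m T) (n := 2 * K₀) (by omega)
  set I₂ := Im m T \ I₁ with hI₂
  have hun : I₁ ∪ I₂ = Im m T := by rw [hI₂]; exact Finset.union_sdiff_of_subset hI₁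
  have hI₂c : I₂.card = (Im m T).card - 2 * K₀ := by
    rw [hI₂, Finset.card_sdiff_of_subset hI₁, hI₁c]
  have hT' := Fintype.mem_piFinset.1 hT
  have hinj : Function.Injective T := injOn_of_disjoint P hp.hdisj hT'
  have hal := hp.hal
  have hmr : (m : ℝ) ≤ 2 ^ a := by exact_mod_cast hm
  have hspread : 2 * ((m : ℝ) / 4) * ((2 ^ (8 * l) : ℕ) : ℝ) ^ I₁.card
      < ((2 ^ (4 * l) : ℕ) : ℝ) ^ (4 * (2 * K₀) + 1) := by
    rw [hI₁c]
    push_cast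
    rw [← pow_mul, ← pow_mul]
    calc 2 * ((m : ℝ) / 4) * 2 ^ (8 * l * (2 * K₀))
        ≤ 2 * (2 ^ a / 4) * 2 ^ (8 * l * (2 * K₀)) := by gcongr
      _ = 2 ^ (a + 8 * l * (2 * K₀)) / 2 := by rw [pow_add]; ring
      _ < 2 ^ (a + 8 * l * (2 * K₀)) := by
          have : (0 : ℝ) < 2 ^ (a + 8 * l * (2 * K₀)) := by positivity
          linarith
      _ ≤ 2 ^ (4 * l * (4 * (2 * K₀) + 1)) := by
          apply pow_le_pow_right₀ (by norm_num)
          have : 4 * l * (4 * (2 * K₀) + 1) = 8 * l * (2 * K₀) + 8 * l * K₀ + 8 * l * K₀ + 4 * l := by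
            ring
          omega
  have hb := near_bound T I₁ I₂ (by rw [hI₂]; exact Finset.disjoint_sdiff)
    (fun i _ => hp.hprime i _ (hT' i)) (fun i _ j _ h => hinj h) (2 ^ (8 * l)) (2 ^ (4 * l))
    (fun i _ => hp.hup i _ (hT' i)) (fun i _ => hp.hlow i _ (hT' i)) Nat.one_le_two_pow
    Nat.one_le_two_pow ((m : ℝ) / 4) (by positivity) (4 * (2 * K₀)) hspread q hq
  rw [hun, hI₁c] at hb
  have haux := pow_aux I₂.card (2 * K₀) (by rw [hI₂c]; omega)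
  have e : (2 : ℝ) ^ (2 * K₀) * 4 ^ I₂.card = 2 ^ (2 * (Im m T).card - 2 * K₀) := by
    rw [show (4 : ℝ) = 2 ^ 2 by norm_num, ← pow_mul, ← pow_add]
    congr 1
    rw [hI₂c]; omega
  have hfin : (near (dset T (Im m T)) ((m : ℝ) / 4) q : ℝ)
      ≤ 2 * 2 ^ (2 * (Im m T).card - 2 * K₀) := by
    calc _ ≤ _ := hb
      _ ≤ 2 ^ (2 * K₀) * 4 ^ I₂.card + 2 ^ (2 * K₀) * 4 ^ I₂.card := by gcongr
      _ = _ := by rw [e]; ring
  exact_mod_cast hfin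

theorem Params.eta {a l K₀ : ℕ} {P : Fin (120 * K₀) → Finset ℕ} {W : Finset ℕ}
    (hp : Params a l K₀ P W) {m : ℕ} [NeZero m] (hm : m ≤ 2 ^ a) {T : Fin (120 * K₀) → ℕ}
    (hT : T ∈ Fintype.piFinset P) (h : ZMod m)
    (hbad : bad (dset T (Im m T)) h ≤ 2 ^ (2 * (Im m T).card - 2 * K₀)) :
    ∑ w : ↥W, gw (dset T (Im m T)) ((m : ℝ) / (4 * 2 ^ (2 * K₀ + 8 * l)))
      ((1 / 2) ^ (2 * K₀)) ((wperm m (w : ℕ)).symm h) ≤ W.card * (5 * (1 / 2) ^ K₀) := by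
  have hm0 : 0 < m := NeZero.pos m
  have hmr : (0 : ℝ) < m := by exact_mod_cast hm0
  have hI := hp.Im_ge hm0 hm hT
  have hK := hp.hK
  have hT' := Fintype.mem_piFinset.1 hT
  have hinj : Function.Injective T := injOn_of_disjoint P hp.hdisj hT'
  have hcardA : (dset T (Im m T)).card = 2 ^ (Im m T).card :=
    card_dset T (Im m T) (fun i _ => hp.hprime i _ (hT' i)) (fun i _ j _ h => hinj h)
  have hρ : (((1 : ℝ) / 2) ^ K₀) ^ 2 = (1 / 2) ^ (2 * K₀) := by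
    rw [← pow_mul]; congr 1; ring
  have hρA : ((1 : ℝ) / 2) ^ (2 * K₀) * (((dset T (Im m T)).card : ℕ) : ℝ) ^ 2
      = 2 ^ (2 * (Im m T).card - 2 * K₀) := by
    rw [hcardA]
    push_cast
    rw [← pow_mul, show (Im m T).card * 2 = (2 * K₀) + (2 * (Im m T).card - 2 * K₀) by omega,
      pow_add, ← mul_assoc, ← mul_pow]
    norm_num
  have hR : ∀ d ∈ dset T (Im m T), d ≤ 2 ^ (8 * l * (120 * K₀)) := by
    intro d hd
    unfold dset at hd
    obtain ⟨S, hS, rfl⟩ := Finset.mem_image.1 hd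
    calc dprod T S ≤ (2 ^ (8 * l)) ^ S.card :=
          dprod_le_pow T S _ fun i _ => hp.hup i _ (hT' i)
      _ ≤ (2 ^ (8 * l)) ^ (120 * K₀) := by
          apply Nat.pow_le_pow_right (Nat.one_le_two_pow)
          calc S.card ≤ (Finset.univ : Finset (Fin (120 * K₀))).card :=
                Finset.card_le_card (Finset.subset_univ S)
            _ = 120 * K₀ := by rw [Finset.card_univ, Fintype.card_fin]
      _ = _ := by rw [← pow_mul]
  have hl := hp.hl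
  apply eta_bound (dset T (Im m T)) (by
      rw [← Finset.card_pos, hcardA]; positivity) (2 ^ (8 * l * (120 * K₀))) hR h W
    (2 ^ (2 * K₀ + 8 * l)) ((m : ℝ) / (4 * 2 ^ (2 * K₀ + 8 * l))) ((m : ℝ) / 4)
    ((1 / 2) ^ (2 * K₀)) ((1 / 2) ^ K₀) (by positivity) (by positivity) ?_ ?_ hp.hWle
    (1920 * l * K₀ + 3) hp.hWp ?_ ?_ (2 * 2 ^ (2 * (Im m T).card - 2 * K₀))
    (fun q hq => hp.near_le hm0 hm hT q hq) (by positivity) ?_ ?_ ?_ ?_ ?_ ?_
  · push_cast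
    have : (2 : ℝ) * (2 ^ (2 * K₀ + 8 * l) * (m / (4 * 2 ^ (2 * K₀ + 8 * l)))) = m / 2 := by
      field_simp; norm_num
    rw [this]; linarith
  · push_cast
    apply le_of_eq
    field_simp
  · intro z hz hzR
    apply card_prime_dvd_int_le W hp.hWp z _ hz
    push_cast at hzR
    calc |z| ≤ 2 * 2 ^ (8 * l * (120 * K₀)) * (2 ^ (8 * l * (120 * K₀)) + 1) := hzR
      _ ≤ 2 * 2 ^ (8 * l * (120 * K₀)) * (2 ^ (8 * l * (120 * K₀)) + 2 ^ (8 * l * (120 * K₀))) := by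
          have : (1 : ℤ) ≤ 2 ^ (8 * l * (120 * K₀)) := one_le_pow₀ (by norm_num)
          gcongr
      _ = 2 ^ (1920 * l * K₀ + 2) := by
          rw [show 1920 * l * K₀ + 2 = 8 * l * (120 * K₀) + 8 * l * (120 * K₀) + 2 by ring,
            pow_add, pow_add]
          ring
      _ < 2 ^ (1920 * l * K₀ + 3) := pow_lt_pow_right₀ (by norm_num) (by omega)
  · refine (card_prime_dvd_le W hp.hWp m (a + 1) hm0.ne' ?_).trans ?_
    · calc m ≤ 2 ^ a := hm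
        _ < 2 ^ (a + 1) := Nat.pow_lt_pow_right (by norm_num) (by omega)
    · have h1 := hp.hal
      have h2 : 8 * l * K₀ ≤ 1920 * l * K₀ := by
        have : 1920 * l * K₀ = 240 * (8 * l * K₀) := by ring
        omega
      omega
  · exact pow_le_one₀ (by norm_num) (by norm_num)
  · rw [hρ]
  · rw [hρ, hcardA]
    push_cast
    rw [show (Im m T).card = (2 * K₀) + ((Im m T).card - 2 * K₀) by omega, pow_add, ← mul_assoc,
      ← mul_pow]
    have : (2 : ℝ) ^ 1 ≤ 2 ^ ((Im m T).card - 2 * K₀) :=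
      pow_le_pow_right₀ (by norm_num) (by omega)
    norm_num at this ⊢
    exact this
  · rw [hρ, hρA]
    exact_mod_cast hbad
  · rw [hρ, hρA]
    push_cast
    exact le_rfl
  · rw [hρ]
    have hWc : (2 : ℝ) ^ (2 * K₀ + 6 * l) ≤ W.card := by exact_mod_cast hp.hWcard
    have h1 : ((1920 * l * K₀ + 3 : ℕ) : ℝ) ≤ 2 ^ (6 * l) := by
      have h2 : l < 2 ^ l := Nat.lt_two_pow_self
      have h3 : K₀ < 2 ^ l := lt_of_le_of_lt hp.hKa hp.ha2
      have h4 : 1920 * l * K₀ + 3 ≤ 2 ^ (6 * l) := by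
        have h5 : l * K₀ ≤ 2 ^ l * 2 ^ l := Nat.mul_le_mul h2.le h3.le
        have h6 : (2 : ℕ) ^ (6 * l) = 2 ^ (4 * l) * (2 ^ l * 2 ^ l) := by
          rw [← pow_add, ← pow_add]; congr 1; ring
        have h7 : 2 ^ 12 ≤ 2 ^ (4 * l) := Nat.pow_le_pow_right (by norm_num) (by omega)
        have h8 : 1 ≤ 2 ^ l * 2 ^ l := Nat.mul_pos (by positivity) (by positivity)
        have h9 : 2 ^ 12 * (2 ^ l * 2 ^ l) ≤ 2 ^ (4 * l) * (2 ^ l * 2 ^ l) :=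
          Nat.mul_le_mul_right _ h7
        rw [h6]
        have h10 : 1920 * l * K₀ = 1920 * (l * K₀) := by ring
        rw [h10]
        omega
      exact_mod_cast h4
    calc ((1920 * l * K₀ + 3 : ℕ) : ℝ) ≤ 2 ^ (6 * l) := h1
      _ = (1 / 2) ^ (2 * K₀) * 2 ^ (2 * K₀ + 6 * l) := by
          rw [pow_add, ← mul_assoc, ← mul_pow]; norm_num
      _ ≤ _ := by gcongr

end Vale.Agent.P012
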