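import Mathlib
import Vale.Agent.P012.LemmaL

namespace Vale.Agent.P012

open Finset

theorem Params.card_pi {a l K₀ : ℕ} {P : Fin (120 * K₀) → Finset ℕ} {W : Finset ℕ}
    (hp : Params a l K₀ P W) : (Fintype.piFinset P).card = (2 ^ (6 * l)) ^ (120 * K₀) := by
  rw [Fintype.card_piFinset]
  rw [Finset.prod_congr rfl (fun i _ => hp.hcard i)]
  simp

theorem Params.card_bad_T {a l K₀ : ℕ} {P : Fin (120 * K₀) → Finset ℕ} {W : Finset ℕ}
    (hp : Params a l K₀ P W) {m : ℕ} [NeZero m] (hm : m ≤ 2 ^ a) (r : ℕ) (h : ZMod m)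
    (hr : (2 ^ (8 * l)) ^ r ≤ addOrderOf h) :
    ((((Fintype.piFinset P).filter (fun T =>
      2 ^ (2 * (Im m T).card - 2 * K₀) < bad (dset T (Im m T)) h)).card : ℕ) : ℝ)
      ≤ ((2 : ℝ) ^ (6 * l)) ^ (120 * K₀) *
        (2 ^ (2 * (a / (4 * l)) + 2 * K₀) / (2 ^ (6 * l)) ^ r) := by
  classical
  have hm0 : 0 < m := NeZero.pos m
  have hl := hp.hl
  have hK := hp.hK
  set j₀ := a / (4 * l) with hj₀
  have hj₀K : j₀ ≤ 2 * K₀ := by
    rw [hj₀]
    apply Nat.div_le_of_le_mul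
    calc a ≤ 8 * l * K₀ := hp.hal
      _ = 4 * l * (2 * K₀) := by ring
  have hsb := sum_bad P (2 ^ (6 * l)) (2 ^ (8 * l)) hp.hcard hp.hprime hp.hup hp.hdisj m h r hr
    (Nat.one_lt_two_pow (by omega))
  set β₀ := 2 ^ (2 * (120 * K₀ - j₀) - 2 * K₀) with hβ₀
  have h1 : ((Fintype.piFinset P).filter (fun T =>
      2 ^ (2 * (Im m T).card - 2 * K₀) < bad (dset T (Im m T)) h)).card * β₀ ≤
      ∑ T ∈ Fintype.piFinset P, bad (dset T (Im m T)) h := by
    rw [← smul_eq_mul, ← Finset.sum_const]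
    calc ∑ T ∈ (Fintype.piFinset P).filter (fun T =>
          2 ^ (2 * (Im m T).card - 2 * K₀) < bad (dset T (Im m T)) h), β₀
        ≤ ∑ T ∈ (Fintype.piFinset P).filter (fun T =>
          2 ^ (2 * (Im m T).card - 2 * K₀) < bad (dset T (Im m T)) h),
            bad (dset T (Im m T)) h := by
          apply Finset.sum_le_sum
          intro T hT
          rw [Finset.mem_filter] at hT
          refine le_trans ?_ hT.2.le
          rw [hβ₀]
          apply Nat.pow_le_pow_right (by norm_num)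
          have h2 := hp.card_dvd hm0 hm hT.1
          have h3 := hp.card_Im (m := m) (T := T)
          have h4 : (Finset.univ.filter (fun i => T i ∣ m)).card ≤ j₀ := by
            rw [hj₀, Nat.le_div_iff_mul_le (by omega)]
            rw [mul_comm]; exact h2
          omega
      _ ≤ _ := Finset.sum_le_sum_of_subset (Finset.filter_subset _ _)
  have h2 : ((Fintype.piFinset P).filter (fun T =>
      2 ^ (2 * (Im m T).card - 2 * K₀) < bad (dset T (Im m T)) h)).card * β₀ * (2 ^ (6 * l)) ^ r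
      ≤ 4 ^ (120 * K₀) * (2 ^ (6 * l)) ^ (120 * K₀) :=
    (Nat.mul_le_mul_right _ h1).trans hsb
  have h3 : ((((Fintype.piFinset P).filter (fun T =>
      2 ^ (2 * (Im m T).card - 2 * K₀) < bad (dset T (Im m T)) h)).card : ℕ) : ℝ)
        * (β₀ : ℝ) * (2 ^ (6 * l)) ^ r
      ≤ 4 ^ (120 * K₀) * (2 ^ (6 * l)) ^ (120 * K₀) := by
    exact_mod_cast h2
  have h4 : (4 : ℝ) ^ (120 * K₀) = β₀ * 2 ^ (2 * j₀ + 2 * K₀) := by
    rw [hβ₀]
    push_cast
    rw [← pow_add, show (4 : ℝ) = 2 ^ 2 by norm_num, ← pow_mul]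
    congr 1
    omega
  have hβpos : (0 : ℝ) < β₀ := by rw [hβ₀]; positivity
  rw [h4] at h3
  rw [← mul_div_assoc, le_div_iff₀ (by positivity)]
  have h5 : (β₀ : ℝ) * (((((Fintype.piFinset P).filter (fun T =>
      2 ^ (2 * (Im m T).card - 2 * K₀) < bad (dset T (Im m T)) h)).card : ℕ) : ℝ)
        * (2 ^ (6 * l)) ^ r) ≤
      β₀ * ((2 ^ (6 * l)) ^ (120 * K₀) * 2 ^ (2 * j₀ + 2 * K₀)) := by
    calc _ = _ := by ring
      _ ≤ _ := h3
      _ = _ := by ring
  exact le_of_mul_le_mul_left h5 hβpos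

theorem Params.sum_card_bad {a l K₀ : ℕ} {P : Fin (120 * K₀) → Finset ℕ} {W : Finset ℕ}
    (hp : Params a l K₀ P W) {m : ℕ} [NeZero m] (hm : m ≤ 2 ^ a) (r : ℕ) :
    ∑ T ∈ Fintype.piFinset P, (((Finset.univ.filter (fun h : ZMod m =>
      2 ^ (2 * (Im m T).card - 2 * K₀) < bad (dset T (Im m T)) h)).card : ℕ) : ℝ)
      ≤ ((2 : ℝ) ^ (6 * l)) ^ (120 * K₀) *
        (((2 : ℝ) ^ (8 * l * r)) ^ 2
          + m * (2 ^ (2 * (a / (4 * l)) + 2 * K₀) / (2 ^ (6 * l)) ^ r)) := by
  classical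
  have e : ∑ T ∈ Fintype.piFinset P, (((Finset.univ.filter (fun h : ZMod m =>
      2 ^ (2 * (Im m T).card - 2 * K₀) < bad (dset T (Im m T)) h)).card : ℕ) : ℝ)
      = ∑ h : ZMod m, ((((Fintype.piFinset P).filter (fun T =>
      2 ^ (2 * (Im m T).card - 2 * K₀) < bad (dset T (Im m T)) h)).card : ℕ) : ℝ) := by
    simp only [Finset.card_filter]
    push_cast
    exact Finset.sum_comm
  rw [e]
  set C : ℝ := ((2 : ℝ) ^ (6 * l)) ^ (120 * K₀) with hC
  have hC0 : 0 ≤ C := by positivity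
  set D : ℝ := (2 ^ (2 * (a / (4 * l)) + 2 * K₀) / (2 ^ (6 * l)) ^ r) with hD
  have hD0 : 0 ≤ D := by positivity
  calc ∑ h : ZMod m, ((((Fintype.piFinset P).filter (fun T =>
      2 ^ (2 * (Im m T).card - 2 * K₀) < bad (dset T (Im m T)) h)).card : ℕ) : ℝ)
      ≤ ∑ h : ZMod m, ((if addOrderOf h ≤ 2 ^ (8 * l * r) then C else 0) + C * D) := by
        apply Finset.sum_le_sum
        intro h _
        split_ifs with hh
        · have h1 : ((Fintype.piFinset P).filter (fun T =>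
            2 ^ (2 * (Im m T).card - 2 * K₀) < bad (dset T (Im m T)) h)).card
              ≤ (2 ^ (6 * l)) ^ (120 * K₀) := by
            rw [← hp.card_pi]; exact Finset.card_filter_le _ _
          have h2 : ((((Fintype.piFinset P).filter (fun T =>
            2 ^ (2 * (Im m T).card - 2 * K₀) < bad (dset T (Im m T)) h)).card : ℕ) : ℝ) ≤ C := by
            rw [hC]; exact_mod_cast h1
          have : 0 ≤ C * D := by positivity
          linarith
        · rw [zero_add]
          apply hp.card_bad_T hm r h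
          rw [← pow_mul]
          omega
    _ = ((Finset.univ.filter (fun h : ZMod m => addOrderOf h ≤ 2 ^ (8 * l * r))).card : ℝ) * C
          + m * (C * D) := by
        rw [Finset.sum_add_distrib, ← Finset.sum_filter, Finset.sum_const, Finset.sum_const,
          Finset.card_univ, ZMod.card, nsmul_eq_mul, nsmul_eq_mul]
    _ ≤ ((2 : ℝ) ^ (8 * l * r)) ^ 2 * C + m * (C * D) := by
        have h1 := card_small_order (m := m) (2 ^ (8 * l * r))
        have h2 : ((Finset.univ.filter (fun h : ZMod m => addOrderOf h ≤ 2 ^ (8 * l * r))).card : ℝ)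
            ≤ ((2 : ℝ) ^ (8 * l * r)) ^ 2 := by exact_mod_cast h1
        have := mul_le_mul_of_nonneg_right h2 hC0
        linarith
    _ = _ := by ring

end Vale.Agent.P012
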