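import Mathlib
import Vale.Agent.P012.LemmaM

namespace Vale.Agent.P012

open Finset

/-- the sample space of one copy -/
noncomputable def Om {K : ℕ} (P : Fin K → Finset ℕ) (W : Finset ℕ) (V' s : ℕ) (𝒬 : Finset ℕ) :
    Finset ((Fin K → ℕ) × (Tup (↥W × ↥(Finset.Icc 1 V')) s × ℕ)) :=
  (Fintype.piFinset P) ×ˢ ((Finset.univ : Finset (Tup (↥W × ↥(Finset.Icc 1 V')) s)) ×ˢ 𝒬)

theorem card_Om {K : ℕ} (P : Fin K → Finset ℕ) (W : Finset ℕ) (V' s : ℕ) (𝒬 : Finset ℕ) :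
    (Om P W V' s 𝒬).card = (Fintype.piFinset P).card * ((W.card * V') ^ s * 𝒬.card) := by
  unfold Om
  rw [Finset.card_product, Finset.card_product, Finset.card_univ, Tup.card, Fintype.card_prod,
    Fintype.card_coe, Fintype.card_coe, Nat.card_Icc, Nat.add_sub_cancel]

open Classical in
theorem Params.card_fail {a l K₀ : ℕ} {P : Fin (120 * K₀) → Finset ℕ} {W : Finset ℕ}
    (hp : Params a l K₀ P W) {m : ℕ} [NeZero m] (hm : m ≤ 2 ^ a) (t : ℕ) (𝒬 : Finset ℕ) (X : ℕ)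
    (hQ : ∀ Q ∈ 𝒬, Nat.Coprime Q m ∧ Q ≤ X) (A0 N : ℕ) (hA0 : 0 < A0)
    (hN : m ^ 2 ≤ N * A0 ^ 2) (r : ℕ) :
    (((Om P W (2 ^ (4 * K₀ + 8 * l + 1)) (t + 1) 𝒬).filter (fun ω =>
      ¬ Works W (dset ω.1 (Im m ω.1)) (2 ^ (4 * K₀ + 8 * l + 1)) m (t + 1) A0 ω.2.1 ω.2.2)).card : ℝ)
      ≤ 4 * ((2 : ℝ) ^ (4 * K₀ + 8 * l + 1)) ^ (t + 1) * (W.card : ℝ) ^ (t + 1) *
        ((2 : ℝ) ^ (6 * l)) ^ (120 * K₀) * (((X : ℝ) / m + 1) * (N : ℝ) ^ 2) *
        ((5 * (1 / 2) ^ K₀) ^ t * m + (((2 : ℝ) ^ (8 * l * r)) ^ 2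
          + m * (2 ^ (2 * (a / (4 * l)) + 2 * K₀) / (2 ^ (6 * l)) ^ r))) := by
  have hm0 : 0 < m := NeZero.pos m
  have hmr : (0 : ℝ) < m := by exact_mod_cast hm0
  set V' : ℕ := 2 ^ (4 * K₀ + 8 * l + 1) with hV'
  have hV'0 : 0 < V' := by rw [hV']; positivity
  set E : ℝ := (m : ℝ) / (4 * 2 ^ (2 * K₀ + 8 * l)) with hE
  have hE0 : 0 < E := by rw [hE]; positivity
  have hτ : (m : ℝ) / (2 * V' * E) = (1 / 2) ^ (2 * K₀) := by
    rw [hE, hV']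
    push_cast
    have e1 : (2 : ℝ) ^ (4 * K₀ + 8 * l + 1) = 2 ^ (2 * K₀ + 8 * l) * (2 ^ (2 * K₀) * 2) := by
      rw [← pow_succ, ← pow_add]; congr 1; ring
    rw [e1, one_div, inv_pow]
    field_simp
    norm_num
  -- bound for each T
  have hT : ∀ T ∈ Fintype.piFinset P,
      ((((Finset.univ : Finset (Tup (↥W × ↥(Finset.Icc 1 V')) (t + 1))) ×ˢ 𝒬).filter
        (fun p => ¬ Works W (dset T (Im m T)) V' m (t + 1) A0 p.1 p.2)).card : ℝ)
      ≤ 4 * (V' : ℝ) ^ (t + 1) * (((X : ℝ) / m + 1) * (N : ℝ) ^ 2) * ((W.card : ℝ) ^ (t + 1) *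
        ((5 * (1 / 2) ^ K₀) ^ t * m + ((Finset.univ.filter (fun h : ZMod m =>
          2 ^ (2 * (Im m T).card - 2 * K₀) < bad (dset T (Im m T)) h)).card : ℝ))) := by
    intro T hT
    have hT' := Fintype.mem_piFinset.1 hT
    have hinj : Function.Injective T := injOn_of_disjoint P hp.hdisj hT'
    have hcardA : (dset T (Im m T)).card = 2 ^ (Im m T).card :=
      card_dset T (Im m T) (fun i _ => hp.hprime i _ (hT' i)) (fun i _ j _ h => hinj h)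
    have hAne : (dset T (Im m T)).Nonempty := by
      rw [← Finset.card_pos, hcardA]; positivity
    have h1 := fail_count W (dset T (Im m T)) hAne E hE0 V' hV'0 (t + 1) 𝒬 X hQ A0 N hA0 hN
    rw [hτ] at h1
    have h2 := chain_total (dset T (Im m T)) W E ((1 / 2) ^ (2 * K₀)) (5 * (1 / 2) ^ K₀)
      (by positivity) (2 ^ (2 * (Im m T).card - 2 * K₀)) (by positivity)
      (fun h hb => by
        have := hp.eta hm hT h hb
        exact this) t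
    refine h1.trans ?_
    rw [mul_assoc (4 * (V' : ℝ) ^ (t + 1))]
    apply mul_le_mul_of_nonneg_left _ (by positivity)
    exact mul_le_mul_of_nonneg_left h2 (by positivity)
  have hsplit : (((Om P W V' (t + 1) 𝒬).filter (fun ω =>
      ¬ Works W (dset ω.1 (Im m ω.1)) V' m (t + 1) A0 ω.2.1 ω.2.2)).card : ℝ)
      = ∑ T ∈ Fintype.piFinset P,
      ((((Finset.univ : Finset (Tup (↥W × ↥(Finset.Icc 1 V')) (t + 1))) ×ˢ 𝒬).filter
        (fun p => ¬ Works W (dset T (Im m T)) V' m (t + 1) A0 p.1 p.2)).card : ℝ) := by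
    unfold Om
    simp only [Finset.card_filter]
    rw [Finset.sum_product]
    push_cast
    rfl
  rw [hsplit]
  refine (Finset.sum_le_sum hT).trans ?_
  rw [← Finset.mul_sum, ← Finset.mul_sum, Finset.sum_add_distrib, Finset.sum_const, hp.card_pi,
    nsmul_eq_mul]
  have h3 := hp.sum_card_bad hm r
  have h4 : ((2 ^ (6 * l)) ^ (120 * K₀) : ℕ) * ((5 * (1 / 2) ^ K₀) ^ t * (m : ℝ)) +
      ∑ T ∈ Fintype.piFinset P, (((Finset.univ.filter (fun h : ZMod m =>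
      2 ^ (2 * (Im m T).card - 2 * K₀) < bad (dset T (Im m T)) h)).card : ℕ) : ℝ)
      ≤ ((2 : ℝ) ^ (6 * l)) ^ (120 * K₀) * ((5 * (1 / 2) ^ K₀) ^ t * (m : ℝ) +
        (((2 : ℝ) ^ (8 * l * r)) ^ 2
          + m * (2 ^ (2 * (a / (4 * l)) + 2 * K₀) / (2 ^ (6 * l)) ^ r))) := by
    push_cast
    rw [mul_add ((((2 : ℝ) ^ (6 * l)) ^ (120 * K₀)))]
    linarith
  calc _ ≤ 4 * (V' : ℝ) ^ (t + 1) * (((X : ℝ) / m + 1) * (N : ℝ) ^ 2) * ((W.card : ℝ) ^ (t + 1) *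
        (((2 : ℝ) ^ (6 * l)) ^ (120 * K₀) * ((5 * (1 / 2) ^ K₀) ^ t * (m : ℝ) +
        (((2 : ℝ) ^ (8 * l * r)) ^ 2
          + m * (2 ^ (2 * (a / (4 * l)) + 2 * K₀) / (2 ^ (6 * l)) ^ r))))) := by
        apply mul_le_mul_of_nonneg_left _ (by positivity)
        exact mul_le_mul_of_nonneg_left h4 (by positivity)
    _ = _ := by
        rw [hV']
        push_cast
        ring

end Vale.Agent.P012
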