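import Mathlib
import Vale.Agent.P012.LemmaN

namespace Vale.Agent.P012

open Finset

theorem pow_half_le {x y : ℕ} (h : y ≤ x) : ((1 : ℝ) / 2) ^ x ≤ (1 / 2) ^ y :=
  pow_le_pow_of_le_one (by norm_num) (by norm_num) h

/-- the term from generic frequencies -/
theorem term1 (a l K₀ e t : ℕ) (he : e = a / 100) (hle : 50 * l ≤ e) (_h60 : 60 ≤ l)
    (hs2 : t + 1 ≤ 8 * l) (hsK : a ≤ (t + 1) * K₀) (hK2 : 2 * K₀ ≤ e + 2) :
    (5 * ((1 : ℝ) / 2) ^ K₀) ^ t ≤ (1 / 2) ^ (11 * e + l + 12) := by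
  have h1 : (5 * ((1 : ℝ) / 2) ^ K₀) ^ t ≤ (8 * (1 / 2) ^ K₀) ^ t := by
    gcongr
    norm_num
  refine h1.trans ?_
  have e1 : ((8 : ℝ) * (1 / 2) ^ K₀) ^ t * (1 / 2) ^ (3 * t) = (1 / 2) ^ (K₀ * t) := by
    rw [mul_pow, ← pow_mul, show (8 : ℝ) = 2 ^ 3 by norm_num, ← pow_mul, mul_right_comm, ← mul_pow]
    norm_num
  have h2 : ((1 : ℝ) / 2) ^ (K₀ * t) ≤ (1 / 2) ^ (11 * e + l + 12 + 3 * t) := by
    apply pow_half_le
    have h3 : (t + 1) * K₀ = K₀ * t + K₀ := by ring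
    rw [h3] at hsK
    omega
  rw [← e1, pow_add] at h2
  exact le_of_mul_le_mul_right h2 (by positivity)

theorem term2 (a l e : ℕ) (he : e = a / 100) (hle : 50 * l ≤ e) (h60 : 60 ≤ l) (m : ℕ)
    (hm : 2 ^ (a - e) < m) :
    ((2 : ℝ) ^ (8 * l * (4 * e / l))) ^ 2 ≤ m * (1 / 2) ^ (11 * e + l + 12) := by
  have h1 : l * (4 * e / l) ≤ 4 * e := Nat.mul_div_le _ _
  have hmr : (2 : ℝ) ^ (a - e) ≤ m := by exact_mod_cast hm.le
  have h2 : ((2 : ℝ) ^ (8 * l * (4 * e / l))) ^ 2 ≤ 2 ^ (64 * e) := by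
    rw [← pow_mul]
    apply pow_le_pow_right₀ (by norm_num)
    have : 8 * l * (4 * e / l) * 2 = 16 * (l * (4 * e / l)) := by ring
    omega
  have h3 : (2 : ℝ) ^ (64 * e) ≤ 2 ^ (a - e) * (1 / 2) ^ (11 * e + l + 12) := by
    have h4 : a - e = 64 * e + (11 * e + l + 12) + (a - e - (64 * e + (11 * e + l + 12))) := by
      omega
    rw [h4, pow_add, pow_add, one_div, inv_pow]
    have h5 : (1 : ℝ) ≤ 2 ^ (a - e - (64 * e + (11 * e + l + 12))) := one_le_pow₀ (by norm_num)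
    have h6 : (2 : ℝ) ^ (64 * e) * 2 ^ (11 * e + l + 12) *
        2 ^ (a - e - (64 * e + (11 * e + l + 12))) * (2 ^ (11 * e + l + 12))⁻¹
        = 2 ^ (64 * e) * 2 ^ (a - e - (64 * e + (11 * e + l + 12))) := by
      field_simp
    rw [h6]
    exact le_mul_of_one_le_right (by positivity) h5
  calc _ ≤ _ := h2
    _ ≤ _ := h3
    _ ≤ _ := by gcongr

theorem term3 (a l K₀ e : ℕ) (he : e = a / 100) (hle : 50 * l ≤ e) (h60 : 60 ≤ l)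
    (hK2 : 2 * K₀ ≤ e + 2) :
    ((2 : ℝ) ^ (2 * (a / (4 * l)) + 2 * K₀) / (2 ^ (6 * l)) ^ (4 * e / l))
      ≤ (1 / 2) ^ (11 * e + l + 12) := by
  have h1 : 4 * e ≤ l * (4 * e / l) + l := by
    have := Nat.lt_mul_div_succ (4 * e) (by omega : 0 < l)
    have h2 : l * (4 * e / l + 1) = l * (4 * e / l) + l := by ring
    omega
  have h2 : 4 * l * (a / (4 * l)) ≤ a := Nat.mul_div_le _ _
  have h3 : 240 * (a / (4 * l)) ≤ a := by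
    refine le_trans ?_ h2
    apply Nat.mul_le_mul_right
    omega
  rw [div_le_iff₀ (by positivity), one_div, inv_pow, ← pow_mul]
  rw [le_inv_mul_iff₀ (by positivity), ← pow_add]
  apply pow_le_pow_right₀ (by norm_num)
  have h4 : 6 * l * (4 * e / l) = 6 * (l * (4 * e / l)) := by ring
  rw [h4]
  omega

open Classical in
theorem delta_bound {a l K₀ : ℕ} {P : Fin (120 * K₀) → Finset ℕ} {W : Finset ℕ}
    (hp : Params a l K₀ P W) (e t : ℕ) (he : e = a / 100) (hle : 50 * l ≤ e) (h60 : 60 ≤ l)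
    (hs2 : t + 1 ≤ 8 * l) (hsK : a ≤ (t + 1) * K₀) (hK2 : 2 * K₀ ≤ e + 2)
    (𝒬 : Finset ℕ) (hQ : ∀ Q ∈ 𝒬, Q.Prime ∧ 2 ^ a < Q ∧ Q ≤ 2 ^ (2 * a))
    (hQc : 2 ^ (2 * a) ≤ 8 * a * 𝒬.card) (m : ℕ) (hm1 : 2 ^ (a - e) < m) (hm2 : m ≤ 2 ^ a) :
    (((Om P W (2 ^ (4 * K₀ + 8 * l + 1)) (t + 1) 𝒬).filter (fun ω =>
      ¬ Works W (dset ω.1 (Im m ω.1)) (2 ^ (4 * K₀ + 8 * l + 1)) m (t + 1) (2 ^ (a - e - 1))
        ω.2.1 ω.2.2)).card : ℝ)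
      ≤ (1 / 2) ^ (7 * e) * ((Om P W (2 ^ (4 * K₀ + 8 * l + 1)) (t + 1) 𝒬).card : ℝ) := by
  have hm0 : 0 < m := lt_of_le_of_lt (Nat.zero_le _) hm1
  have : NeZero m := ⟨hm0.ne'⟩
  have hmr : (0 : ℝ) < m := by exact_mod_cast hm0
  have hmr2 : (m : ℝ) ≤ 2 ^ a := by exact_mod_cast hm2
  have hQ' : ∀ Q ∈ 𝒬, Nat.Coprime Q m ∧ Q ≤ 2 ^ (2 * a) := by
    intro Q hQ1
    obtain ⟨h1, h2, h3⟩ := hQ Q hQ1
    refine ⟨(h1.coprime_iff_not_dvd).2 fun hd => ?_, h3⟩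
    have := Nat.le_of_dvd hm0 hd
    omega
  have hN : m ^ 2 ≤ 2 ^ (2 * e + 2) * (2 ^ (a - e - 1)) ^ 2 := by
    calc m ^ 2 ≤ (2 ^ a) ^ 2 := Nat.pow_le_pow_left hm2 2
      _ = 2 ^ (2 * e + 2) * (2 ^ (a - e - 1)) ^ 2 := by
        rw [← pow_mul, ← pow_mul, ← pow_add]
        congr 1
        omega
  have h := hp.card_fail hm2 t 𝒬 (2 ^ (2 * a)) hQ' (2 ^ (a - e - 1)) (2 ^ (2 * e + 2))
    (by positivity) hN (4 * e / l)
  refine h.trans ?_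
  rw [card_Om, hp.card_pi]
  push_cast
  have t1 := term1 a l K₀ e t he hle h60 hs2 hsK hK2
  have t2 := term2 a l e he hle h60 m hm1
  have t3 := term3 a l K₀ e he hle h60 hK2
  set ε : ℝ := (1 / 2) ^ (11 * e + l + 12) with hε
  have hε0 : 0 < ε := by rw [hε]; positivity
  have hbr : ((5 * (1 / 2) ^ K₀) ^ t * m + (((2 : ℝ) ^ (8 * l * (4 * e / l))) ^ 2
          + m * (2 ^ (2 * (a / (4 * l)) + 2 * K₀) / (2 ^ (6 * l)) ^ (4 * e / l))))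
      ≤ m * (3 * ε) := by
    have u1 : (5 * ((1 : ℝ) / 2) ^ K₀) ^ t * m ≤ ε * m := mul_le_mul_of_nonneg_right t1 hmr.le
    have u3 := mul_le_mul_of_nonneg_left t3 hmr.le
    linarith
  have hX : ((2 : ℝ) ^ (2 * a) / m + 1) * m ≤ 16 * 2 ^ l * 𝒬.card := by
    have v1 : ((2 : ℝ) ^ (2 * a) / m + 1) * m = 2 ^ (2 * a) + m := by field_simp
    have v2 : (2 : ℝ) ^ a ≤ 2 ^ (2 * a) := pow_le_pow_right₀ (by norm_num) (by omega)
    have v3 : (2 : ℝ) ^ (2 * a) ≤ 8 * a * 𝒬.card := by exact_mod_cast hQc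
    have v4 : (a : ℝ) ≤ 2 ^ l := by exact_mod_cast hp.ha2.le
    have v5 : (a : ℝ) * 𝒬.card ≤ 2 ^ l * 𝒬.card := by gcongr
    rw [v1]
    nlinarith
  set v : ℝ := (2 : ℝ) ^ (4 * K₀ + 8 * l + 1) with hv
  set p : ℝ := ((2 : ℝ) ^ (6 * l)) ^ (120 * K₀) with hpdef
  have hv0 : 0 < v := by rw [hv]; positivity
  have hp0 : 0 < p := by rw [hpdef]; positivity
  calc 4 * v ^ (t + 1) * (W.card : ℝ) ^ (t + 1) * p *
        (((2 : ℝ) ^ (2 * a) / m + 1) * ((2 : ℝ) ^ (2 * e + 2)) ^ 2) *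
        ((5 * (1 / 2) ^ K₀) ^ t * m + (((2 : ℝ) ^ (8 * l * (4 * e / l))) ^ 2
          + m * (2 ^ (2 * (a / (4 * l)) + 2 * K₀) / (2 ^ (6 * l)) ^ (4 * e / l))))
      ≤ 4 * v ^ (t + 1) * (W.card : ℝ) ^ (t + 1) * p *
        (((2 : ℝ) ^ (2 * a) / m + 1) * ((2 : ℝ) ^ (2 * e + 2)) ^ 2) * (m * (3 * ε)) := by
        gcongr
    _ = 4 * v ^ (t + 1) * (W.card : ℝ) ^ (t + 1) * p * (((2 : ℝ) ^ (2 * e + 2)) ^ 2 * (3 * ε)) *
        (((2 : ℝ) ^ (2 * a) / m + 1) * m) := by ring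
    _ ≤ 4 * v ^ (t + 1) * (W.card : ℝ) ^ (t + 1) * p * (((2 : ℝ) ^ (2 * e + 2)) ^ 2 * (3 * ε)) *
        (16 * 2 ^ l * 𝒬.card) := by gcongr
    _ = (192 * 2 ^ l * ((2 : ℝ) ^ (2 * e + 2)) ^ 2 * ε) *
        (p * ((W.card * v) ^ (t + 1) * 𝒬.card)) := by
        rw [mul_pow]; ring
    _ ≤ (1 / 2) ^ (7 * e) * (p * ((W.card * v) ^ (t + 1) * 𝒬.card)) := by
        apply mul_le_mul_of_nonneg_right _ (by positivity)
        have w1 : ε = (1 / 2) ^ (7 * e) * (1 / 2) ^ (4 * e + l + 12) := by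
          rw [hε, ← pow_add]; congr 1; ring
        have w2 : (192 : ℝ) * 2 ^ l * ((2 : ℝ) ^ (2 * e + 2)) ^ 2 ≤ 2 ^ (4 * e + l + 12) := by
          have w3 : (2 : ℝ) ^ (4 * e + l + 12) = 256 * 2 ^ l * ((2 : ℝ) ^ (2 * e + 2)) ^ 2 := by
            rw [← pow_mul, show 4 * e + l + 12 = 8 + l + (2 * e + 2) * 2 by ring, pow_add, pow_add]
            norm_num
          rw [w3]
          gcongr
          norm_num
        rw [w1]
        have w4 : (2 : ℝ) ^ (4 * e + l + 12) * (1 / 2) ^ (4 * e + l + 12) = 1 := by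
          rw [← mul_pow]; norm_num
        calc (192 : ℝ) * 2 ^ l * ((2 : ℝ) ^ (2 * e + 2)) ^ 2 *
              ((1 / 2) ^ (7 * e) * (1 / 2) ^ (4 * e + l + 12))
            ≤ 2 ^ (4 * e + l + 12) * ((1 / 2) ^ (7 * e) * (1 / 2) ^ (4 * e + l + 12)) := by
              gcongr
          _ = (1 / 2) ^ (7 * e) * (2 ^ (4 * e + l + 12) * (1 / 2) ^ (4 * e + l + 12)) := by ring
          _ = (1 / 2) ^ (7 * e) := by rw [w4, mul_one]

end Vale.Agent.P012
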