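import Mathlib
import Vale.Agent.P012.Defs

namespace Vale.Agent.P012

open Finset

/-- iterated denominators bound -/
def Bd (K : ℕ) : ℕ → ℕ → ℕ
  | 0, q => q
  | j + 1, q => Bd K j (2 * K * q ^ 2)

theorem Bd_mono (K j : ℕ) {q q' : ℕ} (h : q ≤ q') : Bd K j q ≤ Bd K j q' := by
  induction j generalizing q q' with
  | zero => exact h
  | succ j ih =>
    apply ih
    gcongr

theorem le_Bd (K j : ℕ) (hK : 1 ≤ K) (q : ℕ) (hq : 1 ≤ q) : q ≤ Bd K j q := by
  induction j generalizing q with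
  | zero => exact le_rfl
  | succ j ih =>
    have h1 : q ≤ 2 * K * q ^ 2 := by nlinarith
    exact h1.trans (ih _ (hq.trans h1))

theorem Bd_eq (K j q : ℕ) : 2 * K * Bd K j q = (2 * K * q) ^ (2 ^ j) := by
  induction j generalizing q with
  | zero => simp [Bd]
  | succ j ih =>
    change 2 * K * Bd K j (2 * K * q ^ 2) = _
    rw [ih, show 2 ^ (j + 1) = 2 * 2 ^ j by ring, pow_mul]
    congr 1
    ring

theorem gap (K : ℕ) (hK : 1 ≤ K) (j : ℕ) : ∀ (q : ℕ) (r : ℚ) (s : Finset ℕ), 0 < q →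
    (∃ p : ℤ, r = p / q) → j ≤ K → s.card = j → (∀ n ∈ s, 0 < n) →
    ∑ n ∈ s, 1 / (n : ℚ) < r → 1 / (2 * (Bd K j q : ℚ)) ≤ r - ∑ n ∈ s, 1 / (n : ℚ) := by
  induction j with
  | zero =>
    intro q r s hq ⟨p, hp⟩ _ hs _ hlt
    rw [Finset.card_eq_zero] at hs
    subst hs
    simp only [Finset.sum_empty, sub_zero] at hlt ⊢
    have hq' : (0 : ℚ) < q := by exact_mod_cast hq
    have hp1 : (1 : ℚ) ≤ p := by
      rw [hp] at hlt
      have : (0 : ℚ) < p := by
        by_contra hc
        push Not at hc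
        have := div_nonpos_of_nonpos_of_nonneg hc hq'.le
        linarith
      exact_mod_cast this
    simp only [Bd]
    rw [hp, div_le_div_iff₀ (by positivity) hq']
    nlinarith
  | succ j ih =>
    intro q r s hq ⟨p, hp⟩ hjK hs hpos hlt
    have hq' : (0 : ℚ) < q := by exact_mod_cast hq
    have hne : s.Nonempty := by rw [← Finset.card_pos, hs]; omega
    have hsum0 : 0 ≤ ∑ n ∈ s, 1 / (n : ℚ) := Finset.sum_nonneg fun n _ => by positivity
    have hr0 : 0 < r := lt_of_le_of_lt hsum0 hlt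
    have hp1 : (1 : ℚ) ≤ p := by
      have : (0 : ℚ) < p := by
        by_contra hc
        push Not at hc
        have := div_nonpos_of_nonpos_of_nonneg hc hq'.le
        linarith
      exact_mod_cast this
    have hrq : 1 / (q : ℚ) ≤ r := by
      rw [hp]
      gcongr
    set n₁ := s.min' hne with hn₁
    have hn₁s : n₁ ∈ s := Finset.min'_mem s hne
    have hn₁0 : 0 < n₁ := hpos _ hn₁s
    have hn₁q : (0 : ℚ) < n₁ := by exact_mod_cast hn₁0
    have hle : ∑ n ∈ s, 1 / (n : ℚ) ≤ K / n₁ := by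
      calc ∑ n ∈ s, 1 / (n : ℚ) ≤ ∑ n ∈ s, 1 / (n₁ : ℚ) := by
            apply Finset.sum_le_sum
            intro n hn
            have h1 : (n₁ : ℚ) ≤ n := by exact_mod_cast Finset.min'_le s n hn
            gcongr
        _ = s.card / n₁ := by rw [Finset.sum_const, nsmul_eq_mul]; ring
        _ ≤ K / n₁ := by
            gcongr
            omega
    by_cases hc : (K : ℚ) / n₁ ≤ r / 2
    · have h1 : 1 / (2 * (Bd K (j + 1) q : ℚ)) ≤ 1 / (2 * (q : ℚ)) := by
        have : (q : ℚ) ≤ Bd K (j + 1) q := by exact_mod_cast le_Bd K (j + 1) hK q hq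
        gcongr
      have h2 : 1 / (2 * (q : ℚ)) = (1 / q) / 2 := by field_simp
      linarith
    · push Not at hc
      have hKq : (0 : ℚ) < K := by exact_mod_cast hK
      have h3 : (n₁ : ℚ) < 2 * K * q := by
        rw [div_lt_div_iff₀ (by norm_num) hn₁q] at hc
        have h4 : (1 / (q : ℚ)) * n₁ ≤ r * n₁ := mul_le_mul_of_nonneg_right hrq hn₁q.le
        have h5 : (1 / (q : ℚ)) * n₁ < K * 2 := lt_of_le_of_lt h4 hc
        rw [one_div, inv_mul_lt_iff₀ hq'] at h5
        linarith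
      have h3' : n₁ ≤ 2 * K * q := by
        have : n₁ < 2 * K * q := by exact_mod_cast h3
        exact this.le
      have hsplit : ∑ n ∈ s, 1 / (n : ℚ) = 1 / (n₁ : ℚ) + ∑ n ∈ s.erase n₁, 1 / (n : ℚ) :=
        (Finset.add_sum_erase s _ hn₁s).symm
      have := ih (q * n₁) (r - 1 / n₁) (s.erase n₁) (Nat.mul_pos hq hn₁0)
        ⟨p * n₁ - q, by rw [hp]; push_cast; field_simp⟩ (by omega)
        (by rw [Finset.card_erase_of_mem hn₁s]; omega)
        (fun n hn => hpos n (Finset.mem_of_mem_erase hn)) (by rw [hsplit] at hlt; linarith)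
      have hB : (Bd K j (q * n₁) : ℚ) ≤ Bd K (j + 1) q := by
        have : Bd K j (q * n₁) ≤ Bd K j (2 * K * q ^ 2) := by
          apply Bd_mono
          calc q * n₁ ≤ q * (2 * K * q) := Nat.mul_le_mul_left _ h3'
            _ = _ := by ring
        exact_mod_cast this
      have hB0 : (0 : ℚ) < Bd K j (q * n₁) := by
        have := le_Bd K j hK (q * n₁) (Nat.mul_pos hq hn₁0)
        have h6 : 0 < Bd K j (q * n₁) := lt_of_lt_of_le (Nat.mul_pos hq hn₁0) this
        exact_mod_cast h6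
      have h7 : 1 / (2 * (Bd K (j + 1) q : ℚ)) ≤ 1 / (2 * (Bd K j (q * n₁) : ℚ)) := by
        gcongr
      rw [hsplit]
      linarith

theorem le_of_expansion {b : ℕ} (hb : 2 ≤ b) {s : Finset ℕ} (h : IsExpansion (b - 1) b s) :
    b ≤ 2 ^ 2 ^ (3 * s.card) := by
  obtain ⟨h1, h2⟩ := h
  have hb' : (2 : ℚ) ≤ b := by exact_mod_cast hb
  have hcast : ((b - 1 : ℕ) : ℚ) = b - 1 := by
    rw [Nat.cast_sub (by omega)]; norm_num
  rw [hcast] at h2
  have hK : 1 ≤ s.card := by
    rcases Nat.eq_zero_or_pos s.card with h | h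
    · rw [Finset.card_eq_zero] at h
      subst h
      rw [Finset.sum_empty, div_eq_zero_iff] at h2
      rcases h2 with h | h <;> linarith
    · exact h
  set K := s.card with hKdef
  have hsum : ∑ n ∈ s, 1 / (n : ℚ) = 1 - 1 / b := by
    rw [← h2]
    field_simp
  have hg := gap K hK K 1 1 s Nat.one_pos ⟨1, by norm_num⟩ le_rfl rfl
    (fun n hn => by have := h1 n hn; omega) (by
      rw [hsum]
      have : (0 : ℚ) < 1 / b := by positivity
      linarith)
  rw [hsum] at hg
  have hBpos : 0 < Bd K K 1 := lt_of_lt_of_le Nat.one_pos (le_Bd K K hK 1 le_rfl)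
  have hBq : (0 : ℚ) < Bd K K 1 := by exact_mod_cast hBpos
  have hg2 : (1 : ℚ) / (2 * (Bd K K 1 : ℚ)) ≤ 1 / b := by linarith
  rw [div_le_div_iff₀ (by positivity) (by positivity)] at hg2
  have hg3 : b ≤ 2 * Bd K K 1 := by
    have : (b : ℚ) ≤ 2 * Bd K K 1 := by linarith
    exact_mod_cast this
  have h4 : 2 * K * Bd K K 1 = (2 * K) ^ (2 ^ K) := by
    rw [Bd_eq, mul_one]
  have h5 : 2 * K ≤ 2 ^ K := by
    clear_value K
    clear h4 hg3 hg2 hBq hBpos hg hsum hKdef
    induction K, hK using Nat.le_induction with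
    | base => norm_num
    | succ n hn ih => rw [pow_succ]; omega
  have h6 : K < 2 ^ K := Nat.lt_two_pow_self
  calc b ≤ 2 * Bd K K 1 := hg3
    _ ≤ 2 * K * Bd K K 1 := by
        apply Nat.mul_le_mul_right
        omega
    _ = (2 * K) ^ (2 ^ K) := h4
    _ ≤ (2 ^ K) ^ (2 ^ K) := Nat.pow_le_pow_left h5 _
    _ = 2 ^ (K * 2 ^ K) := by rw [← pow_mul]
    _ ≤ 2 ^ 2 ^ (3 * K) := by
        apply Nat.pow_le_pow_right (by norm_num)
        calc K * 2 ^ K ≤ 2 ^ K * 2 ^ K := Nat.mul_le_mul_right _ h6.le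
          _ = 2 ^ (K + K) := by rw [← pow_add]
          _ ≤ 2 ^ (3 * K) := Nat.pow_le_pow_right (by norm_num) (by omega)

theorem lower {b : ℕ} (hb : 4 ≤ b)
    (hex : ∀ a, 1 ≤ a → a < b → ∃ s : Finset ℕ, IsExpansion a b s) :
    1 / 3 * Real.log (Real.log b) ≤ maxTerms b := by
  have hmem : ∃ s : Finset ℕ, IsExpansion (b - 1) b s ∧ s.card = minTerms (b - 1) b := by
    have hne : {k : ℕ | ∃ s : Finset ℕ, IsExpansion (b - 1) b s ∧ s.card = k}.Nonempty := by
      obtain ⟨s, hs⟩ := hex (b - 1) (by omega) (by omega)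
      exact ⟨s.card, s, hs, rfl⟩
    exact Nat.sInf_mem hne
  obtain ⟨s, hs1, hs2⟩ := hmem
  have h1 := le_of_expansion (by omega) hs1
  have h2 : minTerms (b - 1) b ≤ maxTerms b :=
    Finset.le_sup (f := fun a => minTerms a b) (Finset.mem_Ico.2 ⟨by omega, by omega⟩)
  rw [hs2] at h1
  set K := minTerms (b - 1) b with hK
  have h3 : Real.log (Real.log b) ≤ 3 * K := by
    have hbr : (4 : ℝ) ≤ b := by exact_mod_cast hb
    have hlogb : 0 < Real.log b := Real.log_pos (by linarith)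
    have h4 : Real.log b ≤ 2 ^ (3 * K) * Real.log 2 := by
      have : Real.log b ≤ Real.log (2 ^ 2 ^ (3 * K)) := by
        apply Real.log_le_log (by linarith)
        exact_mod_cast h1
      rw [Real.log_pow] at this
      push_cast at this
      exact this
    have hl2 : Real.log 2 ≤ 1 := by
      have := Real.log_two_lt_d9
      linarith
    have h5 : Real.log b ≤ 2 ^ (3 * K) := by
      refine h4.trans ?_
      exact mul_le_of_le_one_right (by positivity) hl2
    have h6 : Real.log (Real.log b) ≤ Real.log (2 ^ (3 * K)) := Real.log_le_log hlogb h5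
    rw [Real.log_pow] at h6
    push_cast at h6
    have h7 : 3 * (K : ℝ) * Real.log 2 ≤ 3 * K :=
      mul_le_of_le_one_right (by positivity) hl2
    linarith
  have h8 : (K : ℝ) ≤ maxTerms b := by exact_mod_cast h2
  linarith

end Vale.Agent.P012
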