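import Mathlib
import Vale.Agent.P012.LemmaL

namespace Vale.Agent.P012

open Finset

theorem pi_two_pow (n : ℕ) (hn : 3 ≤ n) : 2 ^ n ≤ 2 * n * Nat.primeCounting (2 ^ n) := by
  have h := Chebyshev.pi_ge (2 ^ n)
  have hlog2 : (0 : ℝ) < Real.log 2 := Real.log_pos (by norm_num)
  have hn0 : (0 : ℝ) < n := by exact_mod_cast (by omega : 0 < n)
  have e : Real.log ((2 ^ n : ℕ) : ℝ) = n * Real.log 2 := by
    push_cast
    rw [Real.log_pow]
  have e2 : Real.log (((2 ^ n : ℕ) : ℝ) + 1) ≤ (n + 1) * Real.log 2 := by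
    have : Real.log (((2 ^ n : ℕ) : ℝ) + 1) ≤ Real.log (2 ^ (n + 1)) := by
      apply Real.log_le_log (by positivity)
      push_cast
      have : (1 : ℝ) ≤ 2 ^ n := one_le_pow₀ (by norm_num)
      rw [pow_succ]
      linarith
    rw [Real.log_pow] at this
    push_cast at this ⊢
    exact this
  rw [e, div_le_iff₀ (by positivity)] at h
  have h2 : ((2 ^ n : ℕ) : ℝ) * Real.log 2 - (n + 1) * Real.log 2 ≤
      (Nat.primeCounting (2 ^ n) : ℝ) * (n * Real.log 2) := by linarith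
  have h3 : ((2 ^ n : ℕ) : ℝ) - (n + 1) ≤ (Nat.primeCounting (2 ^ n) : ℝ) * n := by
    have : (((2 ^ n : ℕ) : ℝ) - (n + 1)) * Real.log 2 ≤
        ((Nat.primeCounting (2 ^ n) : ℝ) * n) * Real.log 2 := by linarith
    exact le_of_mul_le_mul_right this hlog2
  have h4 : 2 ^ n ≤ n * Nat.primeCounting (2 ^ n) + (n + 1) := by
    have : ((2 ^ n : ℕ) : ℝ) ≤ ((n * Nat.primeCounting (2 ^ n) + (n + 1) : ℕ) : ℝ) := by
      push_cast
      push_cast at h3
      linarith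
    exact_mod_cast this
  have h5 : 2 * (n + 1) ≤ 2 ^ n := by
    clear h h2 h3 h4 e e2 hn0
    induction n, hn using Nat.le_induction with
    | base => norm_num
    | succ n hn ih => rw [pow_succ]; omega
  have h6 : 2 * n * Nat.primeCounting (2 ^ n) = 2 * (n * Nat.primeCounting (2 ^ n)) := by ring
  omega

/-- the primes in `(lo, hi]` -/
def prIn (lo hi : ℕ) : Finset ℕ := (Finset.Ioc lo hi).filter Nat.Prime

theorem mem_prIn {lo hi p : ℕ} : p ∈ prIn lo hi ↔ (lo < p ∧ p ≤ hi) ∧ p.Prime := by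
  unfold prIn
  rw [Finset.mem_filter, Finset.mem_Ioc]

theorem card_prIn (lo hi : ℕ) : Nat.primeCounting hi ≤ (prIn lo hi).card + lo := by
  rw [Nat.primeCounting, Nat.primeCounting', Nat.count_eq_card_filter_range]
  calc ((Finset.range (hi + 1)).filter Nat.Prime).card
      ≤ (prIn lo hi ∪ Finset.Icc 1 lo).card := by
        apply Finset.card_le_card
        intro p hp
        rw [Finset.mem_filter, Finset.mem_range] at hp
        rw [Finset.mem_union, mem_prIn, Finset.mem_Icc]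
        have := hp.2.pos
        by_cases h : p ≤ lo
        · right; omega
        · left; exact ⟨by omega, hp.2⟩
    _ ≤ (prIn lo hi).card + (Finset.Icc 1 lo).card := Finset.card_union_le _ _
    _ = _ := by rw [Nat.card_Icc, Nat.add_sub_cancel]

theorem exists_disjoint (S : Finset ℕ) (K P0 : ℕ) (h : K * P0 ≤ S.card) :
    ∃ P : Fin K → Finset ℕ, (∀ i, (P i).card = P0) ∧ (∀ i, P i ⊆ S) ∧
      ∀ i j, i ≠ j → Disjoint (P i) (P j) := by
  classical
  have hc : Fintype.card (Fin K × Fin P0) ≤ Fintype.card ↥S := by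
    rw [Fintype.card_prod, Fintype.card_fin, Fintype.card_fin, Fintype.card_coe]
    exact h
  obtain ⟨f⟩ := Function.Embedding.nonempty_of_card_le hc
  refine ⟨fun i => Finset.univ.image (fun j : Fin P0 => (f (i, j) : ℕ)), ?_, ?_, ?_⟩
  · intro i
    rw [Finset.card_image_of_injective, Finset.card_univ, Fintype.card_fin]
    intro j j' hjj
    have := f.injective (Subtype.ext hjj)
    exact (Prod.mk.inj this).2
  · intro i p hp
    obtain ⟨j, _, rfl⟩ := Finset.mem_image.1 hp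
    exact (f (i, j)).2
  · intro i i' hii
    rw [Finset.disjoint_left]
    intro p hp hp'
    obtain ⟨j, _, rfl⟩ := Finset.mem_image.1 hp
    obtain ⟨j', _, hj'⟩ := Finset.mem_image.1 hp'
    have := f.injective (Subtype.ext hj')
    exact hii (Prod.mk.inj this).1.symm

theorem lin_le_pow (l : ℕ) (hl : 15 ≤ l) : 1936 * l ≤ 2 ^ l := by
  induction l, hl using Nat.le_induction with
  | base => norm_num
  | succ n hn ih => rw [pow_succ]; omega

theorem exists_params (a l K₀ : ℕ) (hl : 15 ≤ l) (hK : 1 ≤ K₀) (hKa : K₀ ≤ a)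
    (hal : a ≤ 8 * l * K₀) (ha2 : a < 2 ^ l) :
    ∃ (P : Fin (120 * K₀) → Finset ℕ) (W : Finset ℕ), Params a l K₀ P W := by
  have hlp := lin_le_pow l hl
  have hK2 : K₀ < 2 ^ l := lt_of_le_of_lt hKa ha2
  -- the family P
  have h1 : 120 * K₀ * 2 ^ (6 * l) ≤ (prIn (2 ^ (4 * l)) (2 ^ (8 * l))).card := by
    have h2 := pi_two_pow (8 * l) (by omega)
    have h3 := card_prIn (2 ^ (4 * l)) (2 ^ (8 * l))
    by_contra hlt
    push Not at hlt
    have h4 : Nat.primeCounting (2 ^ (8 * l)) < 121 * 2 ^ (7 * l) := by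
      have h5 : 120 * K₀ * 2 ^ (6 * l) ≤ 120 * 2 ^ (7 * l) := by
        calc 120 * K₀ * 2 ^ (6 * l) ≤ 120 * 2 ^ l * 2 ^ (6 * l) := by gcongr
          _ = 120 * 2 ^ (7 * l) := by
            rw [mul_assoc, ← pow_add]
            congr 2
            ring
      have h6 : 2 ^ (4 * l) ≤ 2 ^ (7 * l) := Nat.pow_le_pow_right (by norm_num) (by omega)
      omega
    have h7 : 2 * (8 * l) * Nat.primeCounting (2 ^ (8 * l)) < 2 * (8 * l) * (121 * 2 ^ (7 * l)) :=
      Nat.mul_lt_mul_of_pos_left h4 (by omega)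
    have h8 : 2 * (8 * l) * (121 * 2 ^ (7 * l)) ≤ 2 ^ (8 * l) := by
      calc 2 * (8 * l) * (121 * 2 ^ (7 * l)) = (1936 * l) * 2 ^ (7 * l) := by ring
        _ ≤ 2 ^ l * 2 ^ (7 * l) := Nat.mul_le_mul_right _ hlp
        _ = 2 ^ (8 * l) := by rw [← pow_add]; congr 1; ring
    omega
  obtain ⟨P, hP1, hP2, hP3⟩ := exists_disjoint _ (120 * K₀) (2 ^ (6 * l)) h1
  refine ⟨P, prIn 0 (2 ^ (2 * K₀ + 8 * l)), ⟨by omega, hK, hal, ha2, hKa, hP1, ?_, ?_, ?_, hP3,
    ?_, ?_, ?_⟩⟩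
  · intro i p hp
    exact (mem_prIn.1 (hP2 i hp)).2
  · intro i p hp
    exact (mem_prIn.1 (hP2 i hp)).1.1.le
  · intro i p hp
    exact (mem_prIn.1 (hP2 i hp)).1.2
  · intro w hw
    exact (mem_prIn.1 hw).2
  · intro w hw
    exact (mem_prIn.1 hw).1.2
  · have h2 := pi_two_pow (2 * K₀ + 8 * l) (by omega)
    have h3 := card_prIn 0 (2 ^ (2 * K₀ + 8 * l))
    have h4 : 2 * (2 * K₀ + 8 * l) ≤ 2 ^ (2 * l) := by
      have h5 : (2 : ℕ) ^ (2 * l) = 2 ^ l * 2 ^ l := by rw [← pow_add]; congr 1; ring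
      have h6 : 2 ^ 15 ≤ 2 ^ l := Nat.pow_le_pow_right (by norm_num) hl
      have h7 : 2 ^ 15 * 2 ^ l ≤ 2 ^ l * 2 ^ l := Nat.mul_le_mul_right _ h6
      rw [h5]
      omega
    have h8 : 2 ^ (2 * l) * 2 ^ (2 * K₀ + 6 * l) ≤
        2 ^ (2 * l) * (prIn 0 (2 ^ (2 * K₀ + 8 * l))).card := by
      calc 2 ^ (2 * l) * 2 ^ (2 * K₀ + 6 * l) = 2 ^ (2 * K₀ + 8 * l) := by
            rw [← pow_add]; congr 1; ring
        _ ≤ 2 * (2 * K₀ + 8 * l) * Nat.primeCounting (2 ^ (2 * K₀ + 8 * l)) := h2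
        _ ≤ 2 ^ (2 * l) * (prIn 0 (2 ^ (2 * K₀ + 8 * l))).card :=
            Nat.mul_le_mul h4 (by simpa using h3)
    exact Nat.le_of_mul_le_mul_left h8 (by positivity)

theorem exists_Q (a : ℕ) (ha : 6 ≤ a) :
    ∃ 𝒬 : Finset ℕ, (∀ Q ∈ 𝒬, Q.Prime ∧ 2 ^ a < Q ∧ Q ≤ 2 ^ (2 * a)) ∧
      2 ^ (2 * a) ≤ 8 * a * 𝒬.card := by
  refine ⟨prIn (2 ^ a) (2 ^ (2 * a)), ?_, ?_⟩
  · intro Q hQ
    rw [mem_prIn] at hQ
    exact ⟨hQ.2, hQ.1.1, hQ.1.2⟩
  · have h2 := pi_two_pow (2 * a) (by omega)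
    have h3 := card_prIn (2 ^ a) (2 ^ (2 * a))
    have h4 : 8 * a ≤ 2 ^ a := by
      clear h2 h3
      induction a, ha using Nat.le_induction with
      | base => norm_num
      | succ n hn ih => rw [pow_succ]; omega
    have h5 : (2 : ℕ) ^ (2 * a) = 2 ^ a * 2 ^ a := by rw [← pow_add]; congr 1; ring
    have h6 : 8 * a * 2 ^ a ≤ 2 ^ a * 2 ^ a := Nat.mul_le_mul_right _ h4
    have h7 : 2 * (2 * a) * Nat.primeCounting (2 ^ (2 * a)) ≤
        2 * (2 * a) * ((prIn (2 ^ a) (2 ^ (2 * a))).card + 2 ^ a) := Nat.mul_le_mul_left _ h3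
    have h8 : 2 * (2 * a) * ((prIn (2 ^ a) (2 ^ (2 * a))).card + 2 ^ a)
        = 4 * (a * (prIn (2 ^ a) (2 ^ (2 * a))).card) + 4 * (a * 2 ^ a) := by ring
    have h9 : 8 * a * (prIn (2 ^ a) (2 ^ (2 * a))).card
        = 8 * (a * (prIn (2 ^ a) (2 ^ (2 * a))).card) := by ring
    have h10 : 8 * a * 2 ^ a = 8 * (a * 2 ^ a) := by ring
    rw [h9]
    rw [h8] at h7
    rw [h10] at h6
    generalize a * (prIn (2 ^ a) (2 ^ (2 * a))).card = u at *
    generalize a * 2 ^ a = v at *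
    omega

end Vale.Agent.P012
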