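import Vale.Agent.P012.Basic
import Vale.Agent.P012.Assemble

open Finset

namespace Vale.Agent.P012

theorem minTerms_le {a b : ℕ} {s : Finset ℕ} (h : IsExpansion a b s) : minTerms a b ≤ s.card :=
  Nat.sInf_le ⟨s, h, rfl⟩

theorem good_one (M : ℕ) : Good 1 M M := by
  refine ⟨Nat.one_pos, fun m hm => ?_⟩
  refine ⟨Multiset.replicate m 1, by simpa using hm, ?_, ?_⟩
  · intro n hn
    rw [Multiset.eq_of_mem_replicate hn]
    exact Nat.one_pos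
  · simp

/-- Iterating `basic_double`. -/
theorem iterate_double {C M0 : ℕ} (h : ∀ M ≥ M0, ∀ N k : ℕ, Good N k M →
    ∃ N' M' R : ℕ, M ^ 2 ≤ M' ∧ M' ≤ M ^ 4 ∧ 0 < R ∧ R ^ 8 ≤ M ∧ N' * M ≤ N * M' * R ∧
      Good N' (k + C * Nat.log 2 (Nat.log 2 M)) M') (hM0 : 2 ≤ M0)
    (b : ℕ) (hb : M0 ≤ b) (j : ℕ) :
    ∃ N k M X : ℕ, Good N k M ∧ N ≤ M * X ∧ 2 ≤ X ∧ X ^ 8 ≤ 2 ^ 8 * M ∧ M0 ≤ M ∧ M ≤ b ^ 8 ∧
      k ≤ M0 + j * (C * Nat.log 2 (Nat.log 2 (b ^ 2))) ∧ (b ^ 2 ≤ M ∨ 2 ^ (2 ^ j) ≤ M) := by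
  induction j with
  | zero =>
    refine ⟨1, M0, M0, 2, good_one M0, by omega, le_rfl, ?_, le_rfl, ?_, by omega, Or.inr ?_⟩
    · exact Nat.le_mul_of_pos_right _ (by omega)
    · exact hb.trans (Nat.le_self_pow (by norm_num) b)
    · simpa using hM0
  | succ j ih =>
    obtain ⟨N, k, M, X, h1, h2, h3, h4, h5, h6, h7, h8⟩ := ih
    by_cases hbM : b ^ 2 ≤ M
    · refine ⟨N, k, M, X, h1, h2, h3, h4, h5, h6, h7.trans ?_, Or.inl hbM⟩
      gcongr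
      omega
    · have h8' : 2 ^ (2 ^ j) ≤ M := by
        rcases h8 with h | h
        · exact absurd h hbM
        · exact h
      push Not at hbM
      obtain ⟨N', M', R, g1, g2, g3, g4, g5, g6⟩ := h M h5 N k h1
      have hMpos : 0 < M := by omega
      have hM1 : M ≤ M ^ 2 := Nat.le_self_pow (by norm_num) M
      refine ⟨N', _, M', X * R, g6, ?_, ?_, ?_, ?_, ?_, ?_, Or.inr ?_⟩
      · refine Nat.le_of_mul_le_mul_right ?_ hMpos
        calc N' * M ≤ N * M' * R := g5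
          _ ≤ (M * X) * M' * R := by gcongr
          _ = M' * (X * R) * M := by ring
      · calc 2 ≤ X := h3
          _ ≤ X * R := Nat.le_mul_of_pos_right _ g3
      · calc (X * R) ^ 8 = X ^ 8 * R ^ 8 := by ring
          _ ≤ (2 ^ 8 * M) * M := Nat.mul_le_mul h4 g4
          _ = 2 ^ 8 * M ^ 2 := by ring
          _ ≤ 2 ^ 8 * M' := Nat.mul_le_mul_left _ g1
      · omega
      · calc M' ≤ M ^ 4 := g2
          _ ≤ (b ^ 2) ^ 4 := Nat.pow_le_pow_left hbM.le 4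
          _ = b ^ 8 := by ring
      · have hl : Nat.log 2 (Nat.log 2 M) ≤ Nat.log 2 (Nat.log 2 (b ^ 2)) :=
          Nat.log_mono_right (Nat.log_mono_right hbM.le)
        have := Nat.mul_le_mul_left C hl
        calc k + C * Nat.log 2 (Nat.log 2 M)
            ≤ (M0 + j * (C * Nat.log 2 (Nat.log 2 (b ^ 2))))
              + C * Nat.log 2 (Nat.log 2 (b ^ 2)) := Nat.add_le_add h7 this
          _ = _ := by ring
      · calc 2 ^ (2 ^ (j + 1)) = (2 ^ (2 ^ j)) ^ 2 := by rw [← pow_mul]; ring_nf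
          _ ≤ M ^ 2 := Nat.pow_le_pow_left h8' 2
          _ ≤ M' := g1

theorem clog_clog_le (n : ℕ) (hn : 4 ≤ n) :
    Nat.clog 2 (Nat.clog 2 n) ≤ Nat.log 2 (Nat.log 2 n) + 2 := by
  have h1 : ∀ m : ℕ, Nat.clog 2 m ≤ Nat.log 2 m + 1 := fun m =>
    Nat.clog_le_of_le_pow (Nat.lt_pow_succ_log_self (by norm_num) m).le
  have h2 : 2 ≤ Nat.log 2 n := Nat.le_log_of_pow_le (by norm_num) (by omega)
  have h3 : Nat.clog 2 n ≤ 2 * Nat.log 2 n := (h1 n).trans (by omega)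
  calc Nat.clog 2 (Nat.clog 2 n) ≤ Nat.clog 2 (2 * Nat.log 2 n) := Nat.clog_mono_right 2 h3
    _ ≤ Nat.log 2 (2 * Nat.log 2 n) + 1 := h1 _
    _ = Nat.log 2 (Nat.log 2 n) + 2 := by
      rw [mul_comm, Nat.log_mul_base (by norm_num) (by omega)]

theorem rung1_nat : ∃ K b0 : ℕ, ∀ b ≥ b0, ∀ a, 1 ≤ a → a < b →
    ∃ s : Finset ℕ, IsExpansion a b s ∧ s.card ≤ K * (Nat.log 2 (Nat.log 2 (b ^ 2))) ^ 2 := by
  obtain ⟨C, M1, hC⟩ := basic_double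
  set M0 := M1 + 64 with hM0
  have hC' : ∀ M ≥ M0, ∀ N k : ℕ, Good N k M →
    ∃ N' M' R : ℕ, M ^ 2 ≤ M' ∧ M' ≤ M ^ 4 ∧ 0 < R ∧ R ^ 8 ≤ M ∧ N' * M ≤ N * M' * R ∧
      Good N' (k + C * Nat.log 2 (Nat.log 2 M)) M' := fun M hM => hC M (by omega)
  refine ⟨2 * M0 + 6 * C + 5, M0, fun b hb a ha hab => ?_⟩
  set ℓ := Nat.log 2 (Nat.log 2 (b ^ 2)) with hℓ
  obtain ⟨N, k, M, X, h1, h2, h3, h4, h5, h6, h7, h8⟩ :=
    iterate_double hC' (by omega) b hb (Nat.clog 2 (Nat.clog 2 (b ^ 2)))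
  have hb64 : 64 ≤ b := by omega
  have hb2 : 64 * 64 ≤ b ^ 2 := by
    rw [sq]
    exact Nat.mul_le_mul hb64 hb64
  have hbM : b ^ 2 ≤ M := by
    rcases h8 with h | h
    · exact h
    · refine le_trans ?_ h
      calc b ^ 2 ≤ 2 ^ Nat.clog 2 (b ^ 2) := Nat.le_pow_clog (by norm_num) _
        _ ≤ 2 ^ (2 ^ Nat.clog 2 (Nat.clog 2 (b ^ 2))) := by
          gcongr
          · norm_num
          · exact Nat.le_pow_clog (by norm_num) _
  have hMX : 2 * b * X ^ 2 ≤ M := by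
    have h9 : (2 * b * X ^ 2) ^ 4 ≤ M ^ 4 := by
      calc (2 * b * X ^ 2) ^ 4 = 16 * b ^ 4 * X ^ 8 := by ring
        _ ≤ 16 * b ^ 4 * (2 ^ 8 * M) := Nat.mul_le_mul_left _ h4
        _ = (64 * 64) * (b ^ 2 * b ^ 2) * M := by ring
        _ ≤ M * (M * M) * M := by gcongr; omega
        _ = M ^ 4 := by ring
    exact (Nat.pow_le_pow_iff_left (by norm_num)).1 h9
  have hXb : X ≤ b ^ 2 := by
    have h9 : X ^ 8 ≤ (2 * b) ^ 8 := by
      calc X ^ 8 ≤ 2 ^ 8 * M := h4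
        _ ≤ 2 ^ 8 * b ^ 8 := Nat.mul_le_mul_left _ h6
        _ = (2 * b) ^ 8 := by ring
    have h10 : X ≤ 2 * b := (Nat.pow_le_pow_iff_left (by norm_num)).1 h9
    calc X ≤ 2 * b := h10
      _ ≤ b * b := Nat.mul_le_mul_right _ (by omega)
      _ = b ^ 2 := by ring
  obtain ⟨s, s1, s2⟩ := assemble h1 h3 h2 hMX ha hab
  refine ⟨s, s1, s2.trans ?_⟩
  have hJ : Nat.clog 2 (Nat.clog 2 (b ^ 2)) ≤ ℓ + 2 := clog_clog_le _ (by omega)
  have hX : Nat.clog 2 (Nat.clog 2 X) ≤ ℓ + 2 :=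
    (Nat.clog_mono_right 2 (Nat.clog_mono_right 2 hXb)).trans hJ
  have hℓ1 : 1 ≤ ℓ := by
    rw [hℓ]
    refine Nat.le_log_of_pow_le (by norm_num) ?_
    refine Nat.le_log_of_pow_le (by norm_num) (by omega)
  have hk : k ≤ M0 + (ℓ + 2) * (C * ℓ) := h7.trans (by gcongr)
  have hsq : ℓ ≤ ℓ ^ 2 := Nat.le_self_pow (by norm_num) ℓ
  have h1sq : 1 ≤ ℓ ^ 2 := Nat.one_le_pow _ _ (by omega)
  have e1 : M0 * 1 ≤ M0 * ℓ ^ 2 := Nat.mul_le_mul_left _ h1sq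
  have e2 : C * ℓ ≤ C * ℓ ^ 2 := Nat.mul_le_mul_left _ hsq
  have e3 : (ℓ + 2) * (C * ℓ) = C * ℓ ^ 2 + 2 * (C * ℓ) := by ring
  have e4 : (2 * M0 + 6 * C + 5) * ℓ ^ 2 = 2 * (M0 * ℓ ^ 2) + 6 * (C * ℓ ^ 2) + 5 * ℓ ^ 2 := by
    ring
  rw [e3] at hk
  rw [e4]
  omega

theorem log_log_le {b : ℕ} (hb : 16 ≤ b) :
    (Nat.log 2 (Nat.log 2 (b ^ 2)) : ℝ) ≤ 4 * Real.log (Real.log b) := by
  have hbr : (16 : ℝ) ≤ b := by exact_mod_cast hb
  have hl2 : (0.6931471803 : ℝ) < Real.log 2 := Real.log_two_gt_d9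
  have hl2' : Real.log 2 < 0.6931471808 := Real.log_two_lt_d9
  have hlogb : Real.exp 1 ≤ Real.log b := by
    have h1 : Real.log 16 ≤ Real.log b := Real.log_le_log (by norm_num) hbr
    have h2 : Real.log 16 = 4 * Real.log 2 := by
      rw [show (16 : ℝ) = 2 ^ 4 by norm_num, Real.log_pow]
      norm_num
    have h3 := Real.exp_one_lt_d9
    linarith
  have hlogpos : 0 < Real.log b := lt_of_lt_of_le (Real.exp_pos 1) hlogb
  have hll : 1 ≤ Real.log (Real.log b) := by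
    rw [Real.le_log_iff_exp_le hlogpos]
    exact hlogb
  set m := Nat.log 2 (b ^ 2) with hm
  have hb2 : b ^ 2 ≠ 0 := by positivity
  have h1 : (2 : ℝ) ^ m ≤ (b : ℝ) ^ 2 := by
    have := Nat.pow_log_le_self 2 hb2
    exact_mod_cast this
  have hm0 : m ≠ 0 := by
    have : 1 ≤ m := Nat.le_log_of_pow_le (by norm_num) (by nlinarith)
    omega
  have h2 : (2 : ℝ) ^ Nat.log 2 m ≤ m := by
    exact_mod_cast Nat.pow_log_le_self 2 hm0
  have h3 : (m : ℝ) * Real.log 2 ≤ 2 * Real.log b := by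
    have := Real.log_le_log (by positivity) h1
    rw [Real.log_pow, Real.log_pow] at this
    exact_mod_cast this
  have h4 : (m : ℝ) ≤ 4 * Real.log b := by
    have hmr : (0 : ℝ) ≤ m := by positivity
    nlinarith
  have h5 : (Nat.log 2 m : ℝ) * Real.log 2 ≤ 2 * Real.log 2 + Real.log (Real.log b) := by
    have h6 := Real.log_le_log (by positivity) (h2.trans h4)
    rw [Real.log_pow, Real.log_mul (by norm_num) hlogpos.ne',
      show (4 : ℝ) = 2 ^ 2 by norm_num, Real.log_pow] at h6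
    exact_mod_cast h6
  have hnn : (0 : ℝ) ≤ (Nat.log 2 m : ℝ) := by positivity
  nlinarith

/-- `N(b) ≪ (log log b)²`. -/
theorem rung1 : ∃ C : ℝ, ∃ b0 : ℕ, ∀ b ≥ b0,
    (∀ a, 1 ≤ a → a < b → ∃ s, IsExpansion a b s) ∧
      (maxTerms b : ℝ) ≤ C * (Real.log (Real.log b)) ^ 2 := by
  obtain ⟨K, b0, h⟩ := rung1_nat
  refine ⟨K * 16, b0 + 16, fun b hb => ⟨fun a ha hab => ?_, ?_⟩⟩
  · obtain ⟨s, hs, _⟩ := h b (by omega) a ha hab
    exact ⟨s, hs⟩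
  · have h1 : maxTerms b ≤ K * (Nat.log 2 (Nat.log 2 (b ^ 2))) ^ 2 := by
      refine Finset.sup_le (fun a ha => ?_)
      rw [Finset.mem_Ico] at ha
      obtain ⟨s, hs, hs2⟩ := h b (by omega) a ha.1 ha.2
      exact (minTerms_le hs).trans hs2
    have h2 := log_log_le (b := b) (by omega)
    have h3 : (0 : ℝ) ≤ (Nat.log 2 (Nat.log 2 (b ^ 2)) : ℝ) := by positivity
    calc (maxTerms b : ℝ) ≤ ((K * (Nat.log 2 (Nat.log 2 (b ^ 2))) ^ 2 : ℕ) : ℝ) := by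
          exact_mod_cast h1
      _ = K * (Nat.log 2 (Nat.log 2 (b ^ 2)) : ℝ) ^ 2 := by push_cast; ring
      _ ≤ K * (4 * Real.log (Real.log b)) ^ 2 := by gcongr
      _ = _ := by ring

end Vale.Agent.P012
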