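import Mathlib
import Vale.Agent.P012.LemmaO
import Vale.Agent.P012.Primes
import Vale.Agent.P012.Cover
import Vale.Agent.P012.Induct

namespace Vale.Agent.P012

open Finset

theorem dprod_dvd_dprod {ι : Type*} (T : ι → ℕ) {S S' : Finset ι} (h : S ⊆ S') :
    dprod T S ∣ dprod T S' := Finset.prod_dvd_prod_of_subset S S' T h

/-- one copy handles `m` -/
theorem works_sumUF {K : ℕ} (P : Fin K → Finset ℕ) (hprime : ∀ i, ∀ p ∈ P i, p.Prime)
    (W : Finset ℕ) (hWp : ∀ w ∈ W, w.Prime) (V' s : ℕ) (hs : 0 < s) (m : ℕ) (A0 : ℕ)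
    (T : Fin K → ℕ) (hT : ∀ i, T i ∈ P i) (x : Tup (↥W × ↥(Finset.Icc 1 V')) s) (Q : ℕ)
    (hQ : 0 < Q) (N₀ k₀ : ℕ) (hG : Good N₀ k₀ (2 * A0))
    (hw : Works W (dset T (Im m T)) V' m s A0 x Q) :
    SumUF (k₀ + 2 * s) ((m : ℚ) / ((N₀ * (dprod T Finset.univ *
      pwv (fun p : ↥W × ↥(Finset.Icc 1 V') => (p.1 : ℕ)) (fun p => (p.2 : ℕ)) s x * Q) : ℕ) : ℚ)) := by
  obtain ⟨y, m', hm', heq⟩ := hw
  obtain ⟨hN₀, hG⟩ := hG
  set R := dprod T Finset.univ with hR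
  set pw := pwv (fun p : ↥W × ↥(Finset.Icc 1 V') => (p.1 : ℕ)) (fun p => (p.2 : ℕ)) s x with hpw
  set D := Dw W (dset T (Im m T)) V' m s x y with hD
  have hTpos : ∀ i, 0 < T i := fun i => (hprime i _ (hT i)).pos
  have hRpos : 0 < R := dprod_pos T _ fun i _ => hTpos i
  have hw0 : ∀ p : ↥W × ↥(Finset.Icc 1 V'), 0 < (p.1 : ℕ) := fun p => (hWp _ p.1.2).pos
  have hv0 : ∀ p : ↥W × ↥(Finset.Icc 1 V'), 0 < (p.2 : ℕ) := fun p =>
    (Finset.mem_Icc.1 p.2.2).1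
  have hpwpos : 0 < pw := pwv_pos _ _ hw0 hv0 s x
  have hdR : ∀ d ∈ dset T (Im m T), d ∣ R ∧ 0 < d := by
    intro d hd
    unfold dset at hd
    obtain ⟨S, _, rfl⟩ := Finset.mem_image.1 hd
    exact ⟨dprod_dvd_dprod T (Finset.subset_univ S), dprod_pos T _ fun i _ => hTpos i⟩
  have hDpos : 0 < D := by
    rw [hD]
    exact Dv_pos _ _ _ m hw0 hv0 (fun b => by
      have := (hdR _ b.1.2).2
      omega) s hs x y
  -- divisibility
  have hdvd : m ∣ D + Q * m' := by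
    rw [← ZMod.natCast_eq_zero_iff]
    push_cast
    exact heq
  obtain ⟨w', hw'⟩ := hdvd
  have hpos : 0 < m * w' := by rw [← hw']; omega
  have hm0 : 0 < m := Nat.pos_of_mul_pos_right hpos |> fun _ => by
    rcases Nat.eq_zero_or_pos m with h | h
    · rw [h, zero_mul] at hpos; exact absurd hpos (lt_irrefl 0)
    · exact h
  have hw'0 : 0 < w' := by
    rcases Nat.eq_zero_or_pos w' with h | h
    · rw [h, mul_zero] at hpos; exact absurd hpos (lt_irrefl 0)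
    · exact h
  set Nn := w' * (N₀ * (R * pw * Q)) with hNn
  have hNn0 : 0 < Nn := by rw [hNn]; positivity
  have h1 : SumUF (2 * s) ((D : ℚ) / (Nn : ℚ)) := by
    rw [hD]
    exact Dv_sumUF (fun p : ↥W × ↥(Finset.Icc 1 V') => (p.1 : ℕ)) (fun p => (p.2 : ℕ))
      (fun b : ↥(dset T (Im m T)) × ↥(dset T (Im m T)) => (b.1 : ℕ))
      (fun b : ↥(dset T (Im m T)) × ↥(dset T (Im m T)) => (b.2 : ℕ)) m R hw0
      (fun b => (hdR _ b.1.2).1) (fun b => (hdR _ b.2.2).1) s x y Nn hNn0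
      ⟨w' * N₀ * Q, by rw [hNn]; ring⟩
  have h2 : SumUF k₀ (((m' : ℚ) / (N₀ : ℚ)) / ((w' * (R * pw) : ℕ) : ℚ)) :=
    (hG m' hm'.le).div (by positivity)
  have h3 : (m : ℚ) / ((N₀ * (R * pw * Q) : ℕ) : ℚ)
      = ((m' : ℚ) / (N₀ : ℚ)) / ((w' * (R * pw) : ℕ) : ℚ) + (D : ℚ) / (Nn : ℚ) := by
    have hQq : (Q : ℚ) ≠ 0 := by exact_mod_cast hQ.ne'
    have hNq : (N₀ : ℚ) ≠ 0 := by exact_mod_cast hN₀.ne'
    have hRq : (R : ℚ) ≠ 0 := by exact_mod_cast hRpos.ne'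
    have hpq : (pw : ℚ) ≠ 0 := by exact_mod_cast hpwpos.ne'
    have hwq : (w' : ℚ) ≠ 0 := by exact_mod_cast hw'0.ne'
    have hmw : (m : ℚ) * w' = D + Q * m' := by exact_mod_cast hw'.symm
    rw [hNn]
    push_cast
    field_simp
    linarith
  rw [h3]
  exact h2.add h1

/-- combining the copies -/
theorem good_of_copies {r N₀ k₀ k M₀ M : ℕ} (hk : k₀ ≤ k) (hG : Good N₀ k₀ M₀) (c : Fin r → ℕ)
    (hc : ∀ j, 0 < c j)
    (h : ∀ m, M₀ < m → m ≤ M → ∃ j, SumUF k ((m : ℚ) / ((N₀ * c j : ℕ) : ℚ))) :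
    Good (N₀ * ∏ j, c j) k M := by
  obtain ⟨hN₀, hG⟩ := hG
  have hprod : 0 < ∏ j, c j := Finset.prod_pos fun j _ => hc j
  refine ⟨Nat.mul_pos hN₀ hprod, fun m hm => ?_⟩
  by_cases hmM : m ≤ M₀
  · have h1 := ((hG m hmM).mono hk).div hprod
    have e : (m : ℚ) / ((N₀ * ∏ j, c j : ℕ) : ℚ) = (m : ℚ) / (N₀ : ℚ) / ((∏ j, c j : ℕ) : ℚ) := by
      rw [div_div]; push_cast; rfl
    rw [e]; exact h1
  · obtain ⟨j, hj⟩ := h m (by omega) hm
    have hrest : 0 < ∏ i ∈ Finset.univ.erase j, c i := Finset.prod_pos fun i _ => hc i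
    have h1 := hj.div hrest
    have e : (m : ℚ) / ((N₀ * ∏ j, c j : ℕ) : ℚ) =
        (m : ℚ) / ((N₀ * c j : ℕ) : ℚ) / ((∏ i ∈ Finset.univ.erase j, c i : ℕ) : ℚ) := by
      rw [div_div, ← Finset.mul_prod_erase Finset.univ c (Finset.mem_univ j)]
      push_cast
      congr 1
      ring
    rw [e]; exact h1

theorem cost_bound (a l K₀ s : ℕ) (h60 : 60 ≤ l) (hs2 : s ≤ 8 * l)
    (hsK : s * K₀ ≤ 2 * a) (hl2 : l * l ≤ a) :
    s * (15 * (8 * l * (120 * K₀) + s * (6 * K₀ + 16 * l + 1) + 2 * a)) ≤ 50000 * l * a := by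
  have e1 : s * (8 * l * (120 * K₀)) ≤ 1920 * (l * a) := by
    calc s * (8 * l * (120 * K₀)) = 960 * l * (s * K₀) := by ring
      _ ≤ 960 * l * (2 * a) := Nat.mul_le_mul_left _ hsK
      _ = _ := by ring
  have e2 : s * (s * (6 * K₀)) ≤ 96 * (l * a) := by
    calc s * (s * (6 * K₀)) = 6 * (s * (s * K₀)) := by ring
      _ ≤ 6 * (8 * l * (2 * a)) := by gcongr
      _ = _ := by ring
  have e3 : s * (s * (16 * l + 1)) ≤ 1088 * (l * a) := by
    calc s * (s * (16 * l + 1)) ≤ (8 * l) * ((8 * l) * (17 * l)) := by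
          gcongr
          omega
      _ = 1088 * (l * (l * l)) := by ring
      _ ≤ 1088 * (l * a) := by gcongr
  have e4 : s * (2 * a) ≤ 16 * (l * a) := by
    calc s * (2 * a) ≤ 8 * l * (2 * a) := Nat.mul_le_mul_right _ hs2
      _ = _ := by ring
  calc s * (15 * (8 * l * (120 * K₀) + s * (6 * K₀ + 16 * l + 1) + 2 * a))
      = 15 * (s * (8 * l * (120 * K₀)) + s * (s * (6 * K₀)) + s * (s * (16 * l + 1))
          + s * (2 * a)) := by ring
    _ ≤ 15 * (1920 * (l * a) + 96 * (l * a) + 1088 * (l * a) + 16 * (l * a)) := by gcongr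
    _ = 46800 * (l * a) := by ring
    _ ≤ 50000 * (l * a) := Nat.mul_le_mul_right _ (by norm_num)
    _ = _ := by ring

theorem large_aux (l : ℕ) (hl : 60 ≤ l) : 5000 * (l + 1) + 100 ≤ 2 ^ l ∧ (l + 1) * (l + 1) ≤ 2 ^ l := by
  induction l, hl using Nat.le_induction with
  | base => norm_num
  | succ n hn ih =>
    obtain ⟨h1, h2⟩ := ih
    rw [pow_succ]
    constructor
    · omega
    · nlinarith

/-- the stage -/
theorem stage : StageHyp 50000 (2 ^ 60) := by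
  intro a ha s hs1 hs2 N₀ k₀ hG
  set l := Nat.log 2 a + 1 with hl
  have ha0 : a ≠ 0 := by
    have : 0 < 2 ^ 60 := by positivity
    omega
  have hlog : 60 ≤ Nat.log 2 a := Nat.le_log_of_pow_le (by norm_num) ha
  have hpl : 2 ^ Nat.log 2 a ≤ a := Nat.pow_log_le_self 2 ha0
  have hpl2 : a < 2 ^ l := Nat.lt_pow_succ_log_self (by norm_num) a
  obtain ⟨hA, hB⟩ := large_aux _ hlog
  set e := a / 100 with he
  have hl60 : 60 ≤ l := by omega
  have hle : 50 * l ≤ e := by omega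
  have hl2 : l * l ≤ a := hB.trans hpl
  have hla : l ≤ a := by nlinarith
  -- K₀
  set K₀ := (a + s - 1) / s with hK₀
  have hs0 : 0 < s := by omega
  have hsK1 : a ≤ s * K₀ := by
    have := Nat.lt_mul_div_succ (a + s - 1) hs0
    rw [← hK₀] at this
    have h2 : s * (K₀ + 1) = s * K₀ + s := by ring
    omega
  have hsK2 : s * K₀ ≤ a + s - 1 := Nat.mul_div_le _ _
  have hsa : s ≤ a := by
    have : 8 * l ≤ l * l := Nat.mul_le_mul_right l (by omega)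
    omega
  have hK1 : 1 ≤ K₀ := by
    rcases Nat.eq_zero_or_pos K₀ with h | h
    · rw [h, mul_zero] at hsK1; omega
    · exact h
  have hKe : 2 * K₀ ≤ e + 2 := by
    have h3 : 200 * (K₀ - 1) ≤ s * (K₀ - 1) := Nat.mul_le_mul_right _ hs1
    have h4 : s * (K₀ - 1) + s = s * K₀ := by
      obtain ⟨k, hk⟩ : ∃ k, K₀ = k + 1 := ⟨K₀ - 1, by omega⟩
      rw [hk, Nat.add_sub_cancel]; ring
    omega
  have hKa : K₀ ≤ a := by omega
  have hal : a ≤ 8 * l * K₀ := hsK1.trans (Nat.mul_le_mul_right _ hs2)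
  obtain ⟨P, W, hp⟩ := exists_params a l K₀ (by omega) hK1 hKa hal hpl2
  obtain ⟨𝒬, hQ, hQc⟩ := exists_Q a (by omega)
  obtain ⟨t, rfl⟩ : ∃ t, s = t + 1 := ⟨s - 1, by omega⟩
  -- the cover
  set V' := 2 ^ (4 * K₀ + 8 * l + 1) with hV'
  classical
  have hSne : (Om P W V' (t + 1) 𝒬).Nonempty := by
    rw [← Finset.card_pos, card_Om, hp.card_pi]
    have h1 : 0 < W.card := lt_of_lt_of_le (by positivity) hp.hWcard
    have h2 : 0 < 𝒬.card := by
      rcases Nat.eq_zero_or_pos 𝒬.card with h | h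
      · rw [h, mul_zero] at hQc
        have : 0 < 2 ^ (2 * a) := by positivity
        omega
      · exact h
    positivity
  have hcov := exists_cover' (Om P W V' (t + 1) 𝒬) (Finset.Ioc (2 ^ (a - e)) (2 ^ a))
    (fun m ω => ¬ Works W (dset ω.1 (Im m ω.1)) V' m (t + 1) (2 ^ (a - e - 1)) ω.2.1 ω.2.2)
    ((1 / 2) ^ (7 * e)) (by positivity) hSne (by
      intro m hm
      rw [Finset.mem_Ioc] at hm
      have hdb := delta_bound hp e t he hle hl60 hs2 hsK1 hKe 𝒬 hQ hQc m hm.1 hm.2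
      convert hdb) 15 (by
      have hc : ((Finset.Ioc (2 ^ (a - e)) (2 ^ a)).card : ℝ) ≤ 2 ^ a := by
        rw [Nat.card_Ioc]
        have : 2 ^ a - 2 ^ (a - e) ≤ 2 ^ a := Nat.sub_le _ _
        exact_mod_cast this
      calc (((1 : ℝ) / 2) ^ (7 * e)) ^ 15 * ((Finset.Ioc (2 ^ (a - e)) (2 ^ a)).card : ℝ)
          ≤ ((1 / 2) ^ (7 * e)) ^ 15 * 2 ^ a := by gcongr
        _ = (1 / 2) ^ (7 * e * 15) * 2 ^ a := by rw [← pow_mul]
        _ ≤ (1 / 2) ^ (a + 1) * 2 ^ a := by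
            gcongr ?_ * _
            apply pow_half_le
            omega
        _ = 1 / 2 := by
            rw [pow_succ, mul_right_comm, ← mul_pow]; norm_num
        _ < 1 := by norm_num)
  obtain ⟨f, hf1, hf2⟩ := hcov
  set c : Fin 15 → ℕ := fun j => dprod (f j).1 Finset.univ *
      pwv (fun p : ↥W × ↥(Finset.Icc 1 V') => (p.1 : ℕ)) (fun p => (p.2 : ℕ)) (t + 1) (f j).2.1
      * (f j).2.2 with hc
  have hmem : ∀ j, (∀ i, (f j).1 i ∈ P i) ∧ (f j).2.2 ∈ 𝒬 := by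
    intro j
    have := hf1 j
    unfold Om at this
    rw [Finset.mem_product, Finset.mem_product, Fintype.mem_piFinset] at this
    exact ⟨this.1, this.2.2⟩
  have hc0 : ∀ j, 0 < c j := by
    intro j
    obtain ⟨h1, h2⟩ := hmem j
    have h3 : 0 < dprod (f j).1 Finset.univ :=
      dprod_pos _ _ fun i _ => (hp.hprime i _ (h1 i)).pos
    have h4 : 0 < pwv (fun p : ↥W × ↥(Finset.Icc 1 V') => (p.1 : ℕ)) (fun p => (p.2 : ℕ))
        (t + 1) (f j).2.1 :=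
      pwv_pos _ _ (fun p => (hp.hWp _ p.1.2).pos) (fun p => (Finset.mem_Icc.1 p.2.2).1) _ _
    have h5 : 0 < (f j).2.2 := (hQ _ h2).1.pos
    exact Nat.mul_pos (Nat.mul_pos h3 h4) h5
  have hcle : ∀ j, c j ≤ 2 ^ (8 * l * (120 * K₀) + (t + 1) * (6 * K₀ + 16 * l + 1) + 2 * a) := by
    intro j
    obtain ⟨h1, h2⟩ := hmem j
    have h3 : dprod (f j).1 Finset.univ ≤ 2 ^ (8 * l * (120 * K₀)) := by
      calc dprod (f j).1 Finset.univ ≤ (2 ^ (8 * l)) ^ (Finset.univ : Finset (Fin (120 * K₀))).card :=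
            dprod_le_pow _ _ _ fun i _ => hp.hup i _ (h1 i)
        _ = _ := by rw [Finset.card_univ, Fintype.card_fin, ← pow_mul]
    have h4 : pwv (fun p : ↥W × ↥(Finset.Icc 1 V') => (p.1 : ℕ)) (fun p => (p.2 : ℕ))
        (t + 1) (f j).2.1 ≤ 2 ^ ((t + 1) * (6 * K₀ + 16 * l + 1)) := by
      calc _ ≤ (2 ^ (2 * K₀ + 8 * l) * V') ^ (t + 1) :=
            pwv_le _ _ _ _ (fun p => hp.hWle _ p.1.2) (fun p => (Finset.mem_Icc.1 p.2.2).2) _ _
        _ = _ := by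
            rw [hV', ← pow_add, ← pow_mul]
            congr 1
            ring
    have h5 : (f j).2.2 ≤ 2 ^ (2 * a) := (hQ _ h2).2.2
    calc c j ≤ 2 ^ (8 * l * (120 * K₀)) * 2 ^ ((t + 1) * (6 * K₀ + 16 * l + 1)) * 2 ^ (2 * a) :=
          Nat.mul_le_mul (Nat.mul_le_mul h3 h4) h5
      _ = _ := by rw [← pow_add, ← pow_add]
  refine ⟨N₀ * ∏ j, c j, 15 * (8 * l * (120 * K₀) + (t + 1) * (6 * K₀ + 16 * l + 1) + 2 * a),
    ?_, ?_, ?_⟩
  · apply good_of_copies (M₀ := 2 ^ (a - e)) (by omega) hG c hc0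
    intro m hm1 hm2
    obtain ⟨j, hj⟩ := hf2 m (Finset.mem_Ioc.2 ⟨hm1, hm2⟩)
    rw [not_not] at hj
    refine ⟨j, ?_⟩
    have hA0 : 2 * 2 ^ (a - e - 1) = 2 ^ (a - e) := by
      rw [← pow_succ']
      congr 1
      omega
    exact works_sumUF P hp.hprime W hp.hWp V' (t + 1) (Nat.succ_pos t) m (2 ^ (a - e - 1))
      (f j).1 (hmem j).1 (f j).2.1 (f j).2.2 (hQ _ (hmem j).2).1.pos N₀ k₀
      (by rw [hA0]; exact hG) hj
  · apply Nat.mul_le_mul_left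
    calc ∏ j, c j ≤ ∏ _j : Fin 15,
          2 ^ (8 * l * (120 * K₀) + (t + 1) * (6 * K₀ + 16 * l + 1) + 2 * a) :=
          Finset.prod_le_prod' fun j _ => hcle j
      _ = _ := by
          rw [Finset.prod_const, Finset.card_univ, Fintype.card_fin, ← pow_mul]
          congr 1
          ring
  · exact cost_bound a l K₀ (t + 1) hl60 hs2 (by omega) hl2

end Vale.Agent.P012
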